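import Crest.Agent.R002.AmpStep

set_option autoImplicit false

namespace Crest.Agent.R002

open Finset

/-- No gain above `Λ`. -/
theorem gain_le {ι : Type} [Fintype ι] (S : Sys ι) {w : ι → ℝ} {ω Λ : ℝ} (hw : Wt S w ω Λ)
    (hΛ : 0 ≤ Λ) {σ γ : ℝ} {n : ℕ} (hn : 0 < n) (h : Gain S w n σ γ) : γ ≤ Λ := by
  obtain ⟨y, D, Ω, _, μ, Q, U, -, -, -, -, hQ0, hQ1, hU⟩ := h
  obtain ⟨h1, h2⟩ := hU 0 hn
  have hne : (U 0).Nonempty := by
    rw [Finset.nonempty_iff_ne_empty]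
    intro e
    rw [e, sum_empty] at h1
    exact absurd h1 (not_le.mpr (Real.exp_pos _))
  obtain ⟨o, ho⟩ := hne
  obtain ⟨hpos, hγ⟩ := h2 o ho
  calc γ ≤ ∑ i, w i * Real.log (Q o i (S.ρ i (y 0))) := hγ
    _ ≤ ∑ i, w i * Λ := by
        refine sum_le_sum fun i _ => mul_le_mul_of_nonneg_left ?_ (hw.nonneg i)
        refine le_trans (Real.log_le_log (hpos i) ?_) (hw.log_le i)
        exact (single_le_sum (fun u _ => hQ0 o i u) (mem_univ _)).trans (hQ1 o i)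
    _ ≤ Λ := by
        rw [← sum_mul]
        exact mul_le_of_le_one_left hΛ hw.sum_le

theorem amp_aux {ι : Type} [Fintype ι] (S : Sys ι) {w : ι → ℝ} {ω Λ : ℝ} (hw : Wt S w ω Λ)
    {ζ : ℝ} (hζ : 0 < ζ) (hζΛ : ζ ≤ Λ) (r : ℕ) : ∀ {σ γ : ℝ} {n : ℕ}, ζ ≤ σ → 10 ≤ σ →
    200 * ω * ((1000 * Λ / ζ) ^ r * σ) * Λ ≤ ζ ^ 2 → Λ < 2 ^ r * (γ - ζ) →
    Real.exp (2 * (1000 * Λ / ζ) ^ r * σ - σ) ≤ n → ¬ Gain S w n σ γ := by
  have hΛ : 0 < Λ := hζ.trans_le hζΛ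
  have hA : 1000 ≤ 1000 * Λ / ζ := by
    rw [le_div_iff₀ hζ]; linarith
  induction r with
  | zero =>
    intro σ γ n _ _ _ hγ hn h
    have hn0 : 0 < n := by
      have := (Real.exp_pos _).trans_le hn
      exact_mod_cast this
    have := gain_le S hw hΛ.le hn0 h
    simp at hγ
    linarith
  | succ r ih =>
    intro σ γ n hζσ hσ hω hγ hn h
    set A := 1000 * Λ / ζ with hAdef
    have hAr : 1 ≤ A ^ r := one_le_pow₀ (by linarith)
    have hσA : σ ≤ A * σ := le_mul_of_one_le_left (by linarith) (by linarith)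
    have hω1 : 200 * ω * σ * Λ ≤ ζ ^ 2 := by
      refine le_trans ?_ hω
      have : σ ≤ A ^ (r + 1) * σ :=
        le_mul_of_one_le_left (by linarith) (one_le_pow₀ (by linarith))
      have h0 := hw.ω_nonneg
      gcongr
    set E := 2 * A ^ r * (A * σ) - A * σ with hE
    have hE0 : 0 ≤ E := by
      have : 0 ≤ A * σ := by positivity
      rw [hE]; nlinarith
    have hstep := amp_step S hw (n' := ⌈Real.exp E⌉₊) hζ hζΛ hζσ hσ hω1 ?_ h
    · refine ih (hζσ.trans hσA) (hσ.trans hσA) ?_ ?_ (Nat.le_ceil _) hstep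
      · rw [← mul_assoc (A ^ r), ← pow_succ]; exact hω
      · rw [pow_succ] at hγ; linarith
    · refine le_trans ?_ hn
      have h1 : (⌈Real.exp E⌉₊ : ℝ) ≤ Real.exp (E + 1) := by
        have h2 := Nat.ceil_lt_add_one (Real.exp_pos E).le
        have h3 : 1 ≤ Real.exp E := Real.one_le_exp hE0
        have h4 : (2 : ℝ) ≤ Real.exp 1 := by
          have := Real.add_one_le_exp (1 : ℝ); linarith
        rw [Real.exp_add]; nlinarith
      refine (mul_le_mul_of_nonneg_right h1 (Real.exp_pos _).le).trans ?_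
      rw [← Real.exp_add, Real.exp_le_exp, hE, pow_succ]
      have e : 300 * Λ / ζ * σ = 3 / 10 * (A * σ) := by rw [hAdef]; ring
      rw [e]
      nlinarith

/-- **Amplification.** -/
theorem amp {ι : Type} [Fintype ι] (S : Sys ι) {w : ι → ℝ} {ω Λ : ℝ} (hw : Wt S w ω Λ)
    {ζ : ℝ} (hζ : 0 < ζ) (hζΛ : ζ ≤ Λ) (r : ℕ) {σ γ : ℝ} {n : ℕ} (hζσ : ζ ≤ σ) (hσ : 10 ≤ σ)
    (hω : 200 * ω * ((1000 * Λ / ζ) ^ r * σ) * Λ ≤ ζ ^ 2) (hγ : Λ < 2 ^ r * (γ - ζ))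
    (hn : Real.exp (2 * (1000 * Λ / ζ) ^ r * σ) ≤ n) : ¬ Gain S w n σ γ :=
  amp_aux S hw hζ hζΛ r hζσ hσ hω hγ (le_trans (Real.exp_le_exp.mpr (by linarith)) hn)

end Crest.Agent.R002
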