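import Crest.Agent.R002.Pair

set_option autoImplicit false

namespace Crest.Agent.R002

open Finset

/-- **Doubling the gain.**

Plan.  `m = ⌈exp (200Λσ/ζ)⌉₊ ≤ exp (201Λσ/ζ)` (note `Λσ/ζ ≥ σ ≥ 10`), `n' m ≤ n`.  New path
`y' i = y (i m)` (`IsPath.comp`, step `m D`), `4mD+1 ≤ m (4D+1) ≤ exp (202 Λσ/ζ)`.  New labels
`Ω' = ↥(box (mD)) × ↥(box (mD)) × Ω × Ω`, `μ' (x,x',o,o') = μ o μ o' / |box (mD)|²`,
`Q' (x,x',o,o') i u = Q o i (u + ρ x) * Q o' i (u + ρ x') / corr (Q o i) (Q o' i) (ρ x - ρ x')`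
(sum `≤ q i` by `sum_mul_shift`; division by `0` gives `0`).  For the window
`fun t => y (i m + t)` (`IsPath.shift`) take `a, a'` from `pair_exists`,
`x = y (i m + a) - y (i m)`, `x'` likewise (`IsPath.diff_mem`), `U' i` = image of the good pairs
under `(o,o') ↦ (x,x',o,o')`; its mass is `≥ exp(-2σ)/2/(2mD+1)^4 ≥ exp (-1000Λσ/ζ)`.
Gain: `log Q' = log Q + log Q' - log corr` (all positive, `corr_pos`). -/
theorem amp_step {ι : Type} [Fintype ι] (S : Sys ι) {w : ι → ℝ} {ω Λ : ℝ} (hw : Wt S w ω Λ)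
    {σ γ ζ : ℝ} {n n' : ℕ} (hζ : 0 < ζ) (hζΛ : ζ ≤ Λ) (hζσ : ζ ≤ σ) (hσ : 10 ≤ σ)
    (hω : 200 * ω * σ * Λ ≤ ζ ^ 2) (hn : (n' : ℝ) * Real.exp (300 * Λ / ζ * σ) ≤ n)
    (h : Gain S w n σ γ) : Gain S w n' (1000 * Λ / ζ * σ) (2 * γ - ζ) := by
  classical
  obtain ⟨y, D, Ω, _, μ, Q, U, hy, hD, hμ0, hμ1, hQ0, hQ1, hU⟩ := h
  set τ := Λ / ζ * σ with hτ
  have hτσ : σ ≤ τ := le_mul_of_one_le_left (by linarith) ((one_le_div hζ).2 hζΛ)
  have eτ : ∀ k : ℝ, k * Λ / ζ * σ = k * τ := fun k => by rw [hτ]; ring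
  rw [eτ] at hn ⊢
  set m := ⌈Real.exp (200 * τ)⌉₊ with hm
  have hm1 : Real.exp (200 * τ) ≤ m := Nat.le_ceil _
  have hm0 : 0 < m := Nat.ceil_pos.2 (Real.exp_pos _)
  have hm2 : (m : ℝ) ≤ Real.exp (201 * τ) := by
    have h1 := (Nat.ceil_lt_add_one (Real.exp_pos (200 * τ)).le).le
    have h2 : 1 ≤ Real.exp (200 * τ) := Real.one_le_exp (by linarith)
    have h3 := Real.add_one_le_exp τ
    rw [show 201 * τ = 200 * τ + τ by ring, Real.exp_add]
    nlinarith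
  have hnm : n' * m ≤ n := by
    have h1 : (m : ℝ) ≤ Real.exp (300 * τ) := hm2.trans (Real.exp_le_exp.2 (by linarith))
    have h2 : (n' : ℝ) * m ≤ n := (mul_le_mul_of_nonneg_left h1 (Nat.cast_nonneg _)).trans hn
    exact_mod_cast h2
  have hwin : ∀ i, i < n' → i * m + m ≤ n := fun i hi =>
    le_trans (by rw [← Nat.succ_mul]; exact Nat.mul_le_mul_right _ hi) hnm
  have hR : (4 * ((m * D : ℕ) : ℝ) + 1) ≤ Real.exp (202 * τ) := by
    have h1 : (1 : ℝ) ≤ m := by exact_mod_cast hm0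
    have h2 : (4 * D + 1 : ℝ) ≤ Real.exp τ := hD.trans (Real.exp_le_exp.2 hτσ)
    rw [show 202 * τ = 201 * τ + τ by ring, Real.exp_add]
    refine le_trans ?_ (mul_le_mul hm2 h2 (by positivity) (by positivity))
    push_cast
    nlinarith
  set N : ℝ := ((box (m * D)).card : ℝ) with hN
  have hN0 : 0 < N := Nat.cast_pos.2 (card_pos.2 ⟨0, zero_mem_box _⟩)
  have hN1 : N ^ 2 ≤ Real.exp (808 * τ) := by
    have h1 : (2 * ((m * D : ℕ) : ℝ) + 1) ≤ Real.exp (202 * τ) :=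
      le_trans (by linarith [(Nat.cast_nonneg (m * D) : (0 : ℝ) ≤ _)]) hR
    rw [hN, card_box, show 808 * τ = (4 : ℕ) * (202 * τ) by push_cast; ring, Real.exp_nat_mul,
      Nat.cast_pow, ← pow_mul, Nat.cast_add, Nat.cast_mul, Nat.cast_one, Nat.cast_ofNat]
    exact pow_le_pow_left₀ (by positivity) h1 4
  let Ω' := (box (m * D) × box (m * D)) × Ω × Ω
  let μ' : Ω' → ℝ := fun z => μ z.2.1 * μ z.2.2 / N ^ 2
  let Q' : Ω' → ∀ i, ZMod (S.q i) → ℝ := fun z i u =>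
    Q z.2.1 i (u + S.ρ i z.1.1) * Q z.2.2 i (u + S.ρ i z.1.2) /
      corr (Q z.2.1 i) (Q z.2.2 i) (S.ρ i z.1.1 - S.ρ i z.1.2)
  have key : ∀ j, ∃ U' : Finset Ω', j < n' → Real.exp (-(1000 * τ)) ≤ ∑ o ∈ U', μ' o ∧
      ∀ o ∈ U', (∀ i, 0 < Q' o i (S.ρ i (y (j * m)))) ∧
        2 * γ - ζ ≤ ∑ i, w i * Real.log (Q' o i (S.ρ i (y (j * m)))) := by
    intro j
    by_cases hj : j < n'
    swap
    · exact ⟨∅, fun h => absurd h hj⟩
    have hw' := hwin j hj
    obtain ⟨a, ha, a', ha', hmass⟩ := pair_exists S hw hζ hζΛ hζσ hσ hω (hy.shift (j * m) m hw') hD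
      (by rw [eτ]; exact hm1) μ Q (fun t => U (j * m + t)) hμ0 hμ1 hQ0 hQ1
      (fun t ht => (hU _ (by omega)).1) fun t ht o ho => ((hU _ (by omega)).2 o ho).1
    have hx : ∀ t, t < m → y (j * m + t) - y (j * m) ∈ box (m * D) := fun t ht =>
      hy.diff_mem (by omega) (by omega) (by omega) (by omega)
    let e : Ω × Ω ↪ Ω' := ⟨fun oo => ((⟨_, hx a ha⟩, ⟨_, hx a' ha'⟩), oo),
      fun _ _ h => (Prod.mk.inj h).2⟩
    refine ⟨((U (j * m + a) ×ˢ U (j * m + a')).filter (fun oo =>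
      ∑ i, w i * Real.log (corr (Q oo.1 i) (Q oo.2 i)
        (S.ρ i (y (j * m + a) - y (j * m + a')))) ≤ ζ)).map e, fun _ => ⟨?_, fun z hz => ?_⟩⟩
    · rw [sum_map]
      change _ ≤ ∑ oo ∈ (_ : Finset (Ω × Ω)), μ oo.1 * μ oo.2 / N ^ 2
      rw [← sum_div, le_div_iff₀ (by positivity)]
      refine le_trans ?_ hmass
      have h1 : Real.exp (-(1000 * τ)) * N ^ 2 ≤ Real.exp (-(1000 * τ)) * Real.exp (808 * τ) := by
        gcongr
      have h2 : Real.exp (-(1000 * τ) + 808 * τ) * Real.exp 1 ≤ Real.exp (-(2 * σ)) := by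
        rw [← Real.exp_add]
        exact Real.exp_le_exp.2 (by linarith)
      have h3 := Real.add_one_le_exp 1
      have h4 := Real.exp_pos (-(1000 * τ) + 808 * τ)
      rw [← Real.exp_add] at h1
      nlinarith
    · obtain ⟨⟨o, o'⟩, hoo, rfl⟩ := mem_map.1 hz
      obtain ⟨h1, h2⟩ := mem_filter.1 hoo
      obtain ⟨p1, g1⟩ := (hU (j * m + a) (by omega)).2 o (mem_product.1 h1).1
      obtain ⟨p2, g2⟩ := (hU (j * m + a') (by omega)).2 o' (mem_product.1 h1).2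
      have hc : ∀ i, 0 < corr (Q o i) (Q o' i) (S.ρ i (y (j * m + a) - y (j * m + a'))) := fun i => by
        rw [map_sub]
        exact corr_pos (hQ0 o i) (hQ0 o' i) (p1 i) (p2 i)
      have hQ : ∀ i, Q' (e (o, o')) i (S.ρ i (y (j * m))) =
          Q o i (S.ρ i (y (j * m + a))) * Q o' i (S.ρ i (y (j * m + a'))) /
            corr (Q o i) (Q o' i) (S.ρ i (y (j * m + a) - y (j * m + a'))) := fun i => by
        change Q o i (_ + S.ρ i (y (j * m + a) - y (j * m))) *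
          Q o' i (_ + S.ρ i (y (j * m + a') - y (j * m))) /
          corr (Q o i) (Q o' i) (S.ρ i (y (j * m + a) - y (j * m)) -
            S.ρ i (y (j * m + a') - y (j * m))) = _
        simp only [map_sub, add_sub_cancel, sub_sub_sub_cancel_right]
      simp only [hQ]
      refine ⟨fun i => div_pos (mul_pos (p1 i) (p2 i)) (hc i), ?_⟩
      rw [sum_congr rfl fun i _ => by
        rw [Real.log_div (mul_pos (p1 i) (p2 i)).ne' (hc i).ne', Real.log_mul (p1 i).ne' (p2 i).ne',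
          mul_sub, mul_add], sum_sub_distrib, sum_add_distrib]
      dsimp only at h2
      linarith
  choose U' hU' using key
  refine ⟨fun j => y (j * m), m * D, Ω', inferInstance, μ', Q', U', ?_,
    hR.trans (Real.exp_le_exp.2 (by linarith)), fun z => ?_, ?_, fun z i u => ?_, fun z i => ?_, hU'⟩
  · refine hy.comp (fun j => j * m) n' m (fun j hj => ?_)
      (fun i _ j _ e => Nat.eq_of_mul_eq_mul_right hm0 e) fun j _ => ?_
    · have := hwin j hj
      omega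
    · simp only [add_mul, one_mul]
      omega
  · exact div_nonneg (mul_nonneg (hμ0 _) (hμ0 _)) (by positivity)
  · have h1 : ∑ z : Ω', μ' z = (∑ o, μ o) * ∑ o, μ o := by
      rw [Fintype.sum_prod_type]
      change ∑ _x : box (m * D) × box (m * D), ∑ oo : Ω × Ω, μ oo.1 * μ oo.2 / N ^ 2 = _
      rw [sum_const, card_univ, Fintype.card_prod, Fintype.card_coe, nsmul_eq_mul, Nat.cast_mul,
        ← hN, ← sum_div, Fintype.sum_prod_type, sum_mul_sum]
      field_simp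
    rw [h1]
    exact mul_le_one₀ hμ1 (sum_nonneg fun o _ => hμ0 o) hμ1
  · exact div_nonneg (mul_nonneg (hQ0 _ _ _) (hQ0 _ _ _)) (corr_nonneg (hQ0 _ _) (hQ0 _ _) _)
  · simp only [Q']
    rw [← sum_div, sum_mul_shift, mul_div_assoc]
    exact mul_le_of_le_one_right (Nat.cast_nonneg _) (div_self_le_one _)

end Crest.Agent.R002
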