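import Crest.Agent.R002.Basic

set_option autoImplicit false

namespace Crest.Agent.R002

open Finset

theorem apdense_dir (u : V) (ℓ N : ℕ) (hℓ : |u.1| = ℓ) (hu : |u.2| ≤ ℓ) (hN : 1 ≤ N) (h0 : 0 < ℓ) :
    ∃ v : V, 0 < v.1 ∧ v.1 ≤ N ∧ |v.2| ≤ 2 * N ∧ |det u v| * N ≤ ℓ := by
  obtain ⟨j, k, hk0, hkN, h⟩ := Real.exists_int_int_abs_mul_sub_le ((u.2 : ℝ) / u.1) hN
  have hl : (0 : ℤ) < ℓ := by exact_mod_cast h0
  have hu1 : (u.1 : ℝ) ≠ 0 := by
    have : u.1 ≠ 0 := abs_pos.1 (hℓ ▸ hl)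
    exact_mod_cast this
  have h1 : |det u (k, j)| * (N + 1) ≤ ℓ := by
    have e : ((det u (k, j) : ℤ) : ℝ) = -(u.1 * (k * ((u.2 : ℝ) / u.1) - j)) := by
      simp only [det]
      push_cast
      field_simp
      ring
    have h2 : ((|det u (k, j)| * (N + 1) : ℤ) : ℝ) ≤ ((|u.1| : ℤ) : ℝ) := by
      rw [le_div_iff₀ (by positivity)] at h
      rw [Int.cast_mul, Int.cast_abs, e, Int.cast_abs, abs_neg, abs_mul, mul_assoc]
      push_cast
      exact mul_le_of_le_one_right (abs_nonneg _) h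
    rw [← hℓ]
    exact_mod_cast h2
  have h2 := abs_nonneg (det u (k, j))
  have hN' : (1 : ℤ) ≤ N := by exact_mod_cast hN
  refine ⟨(k, j), hk0, hkN, ?_, by nlinarith⟩
  have h3 : (ℓ : ℤ) * |j| ≤ |det u (k, j)| + ℓ * N := by
    have e : u.1 * j = det u (k, j) + u.2 * k := by simp [det]
    rw [← hℓ, ← abs_mul, e]
    refine (abs_add_le _ _).trans (add_le_add le_rfl ?_)
    rw [abs_mul, abs_of_pos hk0, hℓ]
    exact mul_le_mul hu hkN hk0.le hl.le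
  have h4 : (ℓ : ℤ) * |j| ≤ ℓ * (2 * N) := by nlinarith
  exact le_of_mul_le_mul_left h4 hl

theorem apdense_card (B : Finset V) (u : V) (ℓ Δ : ℕ) (hℓ : |u.1| = ℓ) (h0 : 0 < ℓ)
    (hB : ∀ c ∈ B, |c.1| ≤ 2 * ℓ ∧ |det u c| ≤ Δ + ℓ) : B.card ≤ 5 * ℓ * (2 * (Δ / ℓ) + 5) := by
  have hl : (0 : ℤ) < ℓ := by exact_mod_cast h0
  have h1 : B.card ≤ (Icc (-(2 * ℓ : ℤ)) (2 * ℓ) ×ˢ Ico (0 : ℤ) (2 * (Δ / ℓ : ℕ) + 4)).card := by
    refine card_le_card_of_injOn (fun c => (c.1, (det u c + Δ + ℓ) / ℓ)) (fun c hc => ?_)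
      fun c _ c' _ h => ?_
    · obtain ⟨h1, h2⟩ := hB c hc
      rw [abs_le] at h1 h2
      simp only [coe_product, coe_Icc, coe_Ico, Set.mem_prod, Set.mem_Icc, Set.mem_Ico]
      refine ⟨h1, Int.ediv_nonneg (by linarith [h2.1]) hl.le, Int.ediv_lt_of_lt_mul hl ?_⟩
      have h3 : Δ < (Δ / ℓ + 1) * ℓ := by
        rw [mul_comm]
        exact Nat.lt_mul_div_succ Δ h0
      have h4 : (Δ : ℤ) < ((Δ / ℓ : ℕ) + 1) * ℓ := by exact_mod_cast h3
      linarith [h2.2]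
    · simp only [Prod.mk.injEq] at h
      refine Prod.ext h.1 ?_
      have e : det u c + Δ + ℓ = det u c' + Δ + ℓ + u.1 * (c.2 - c'.2) := by
        simp only [det, h.1]
        ring
      have h2 := h.2
      rw [e] at h2
      rcases (abs_eq hl.le).1 hℓ with h3 | h3
      · rw [h3, Int.add_mul_ediv_left _ _ hl.ne'] at h2
        linarith
      · rw [h3, neg_mul_comm, Int.add_mul_ediv_left _ _ hl.ne'] at h2
        linarith
  rw [card_product, Int.card_Icc, Int.card_Ico] at h1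
  refine h1.trans (Nat.mul_le_mul (by omega) ?_)
  generalize Δ / ℓ = m
  omega

/-- **A dense progression.**  Plan: Dirichlet (`Real.exists_int_int_abs_mul_sub_le` with
`ξ = u.2 / u.1`) gives `1 ≤ k ≤ N`, `|k ξ - j| ≤ 1/(N+1)`; `v = (k, j)` has `|j| ≤ N`,
`|det u v| * (N+1) ≤ ℓ`.  Let `B = {c : |c.1| ≤ 2ℓ, |det u c| ≤ Δ + ℓ}` (finite; as a `biUnion`
over `x ∈ Icc (-2ℓ) (2ℓ)`; for fixed `x` at most `2 (Δ/ℓ) + 5` values of `c.2`, since
`det u (x,t) = u.1 t - u.2 x` lies in an interval of length `2(Δ+ℓ) < (2(Δ/ℓ)+4) ℓ`), so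
`|B| ≤ 5 ℓ (2 (Δ/ℓ) + 5)`.  Every `d - t v` (`d ∈ S`, `t < N`) lies in `B`, hence
`∑ c ∈ B, #{t < N : c + t v ∈ S} = N |S|`; take `c` maximising the count (`B ∋ 0`). -/
theorem ap_dense (S : Finset V) (u : V) (ℓ Δ N : ℕ) (hℓ : u.1.natAbs = ℓ) (hu : u.2.natAbs ≤ ℓ)
    (hN : 1 ≤ N) (hNℓ : N ^ 2 ≤ ℓ) (hS : ∀ d ∈ S, d.1.natAbs ≤ ℓ ∧ (det u d).natAbs ≤ Δ) :
    ∃ c v : V, v ≠ 0 ∧ nrm v ≤ 5 * (N : ℤ) ^ 2 ∧
      N * S.card ≤ 5 * ℓ * (2 * (Δ / ℓ) + 5) *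
        ((range N).filter (fun t : ℕ => c + (t : ℤ) • v ∈ S)).card := by
  have h0 : 0 < ℓ := lt_of_lt_of_le (by positivity) hNℓ
  have hℓ' : |u.1| = ℓ := by rw [← hℓ, Int.natCast_natAbs]
  have hu' : |u.2| ≤ ℓ := by rw [← Int.natCast_natAbs]; exact_mod_cast hu
  obtain ⟨v, hv0, hv1, hv2, hv3⟩ := apdense_dir u ℓ N hℓ' hu' hN h0
  have hne : v ≠ 0 := fun h => by simp [h] at hv0
  have hnrm : nrm v ≤ 5 * (N : ℤ) ^ 2 := by
    have h1 := sq_le_sq' (abs_le.1 hv2).1 (abs_le.1 hv2).2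
    unfold nrm
    nlinarith
  rcases S.eq_empty_or_nonempty with rfl | hSne
  · exact ⟨0, v, hne, hnrm, by simp⟩
  have hcard := apdense_card ((S ×ˢ range N).image fun p => p.1 - (p.2 : ℤ) • v) u ℓ Δ hℓ' h0
    fun c hc => by
      obtain ⟨⟨d, t⟩, hp, rfl⟩ := mem_image.1 hc
      obtain ⟨hd, ht⟩ := mem_product.1 hp
      have h1 : |d.1| ≤ ℓ := by rw [← Int.natCast_natAbs]; exact_mod_cast (hS d hd).1
      have h2 : |det u d| ≤ Δ := by rw [← Int.natCast_natAbs]; exact_mod_cast (hS d hd).2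
      have h3 : (t : ℤ) ≤ N := by exact_mod_cast (mem_range.1 ht).le
      have h4 : (N : ℤ) ^ 2 ≤ ℓ := by exact_mod_cast hNℓ
      have h5 : (0 : ℤ) ≤ t := Nat.cast_nonneg _
      constructor
      · refine (abs_sub _ _).trans ?_
        have h6 := mul_le_mul h3 hv1 hv0.le (Nat.cast_nonneg _)
        simp only [Prod.smul_fst, smul_eq_mul]
        rw [abs_of_nonneg (mul_nonneg h5 hv0.le)]
        linarith
      · have e : det u (d - (t : ℤ) • v) = det u d - t * det u v := by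
          simp only [det, Prod.fst_sub, Prod.snd_sub, Prod.smul_fst, Prod.smul_snd, smul_eq_mul]
          ring
        rw [e]
        refine (abs_sub _ _).trans ?_
        have h6 := mul_le_mul_of_nonneg_right h3 (abs_nonneg (det u v))
        rw [abs_mul, abs_of_nonneg h5]
        linarith
  obtain ⟨c, -, hc⟩ := exists_max_image ((S ×ˢ range N).image fun p => p.1 - (p.2 : ℤ) • v)
    (fun c => ((range N).filter (fun t : ℕ => c + (t : ℤ) • v ∈ S)).card)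
    ((hSne.product ⟨0, mem_range.2 hN⟩).image _)
  refine ⟨c, v, hne, hnrm, ?_⟩
  have h1 := card_le_mul_card_image (f := fun p : V × ℕ => p.1 - (p.2 : ℤ) • v) (S ×ˢ range N) _
    fun b hb => le_trans (card_le_card_of_injOn Prod.snd (fun p hp => by
      obtain ⟨h1, h2⟩ := mem_filter.1 hp
      obtain ⟨h3, h4⟩ := mem_product.1 h1
      exact mem_filter.2 ⟨h4, by rwa [← h2, sub_add_cancel]⟩) fun p hp p' hp' h => by
      have h1 := (mem_filter.1 hp).2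
      have h2 := (mem_filter.1 hp').2
      rw [← h2, h] at h1
      exact Prod.ext (sub_left_inj.1 h1) h) (hc b hb)
  rw [card_product, card_range, mul_comm] at h1
  rw [mul_comm (5 * ℓ * _)]
  exact h1.trans (Nat.mul_le_mul_left _ hcard)

end Crest.Agent.R002
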