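import Crest.Agent.R002.Defs

set_option autoImplicit false

namespace Crest.Agent.R002

open Finset

/-! Basic facts on `corr` and `adm`. -/

section Corr

variable {p : ℕ} [NeZero p] {f g : ZMod p → ℝ}

theorem corr_nonneg (hf : ∀ u, 0 ≤ f u) (hg : ∀ u, 0 ≤ g u) (d : ZMod p) : 0 ≤ corr f g d :=
  div_nonneg (sum_nonneg fun u _ => mul_nonneg (hf _) (hg _)) (Nat.cast_nonneg _)

theorem corr_pos (hf : ∀ u, 0 ≤ f u) (hg : ∀ u, 0 ≤ g u) {a b : ZMod p} (ha : 0 < f a)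
    (hb : 0 < g b) : 0 < corr f g (a - b) := by
  have hp : (0 : ℝ) < p := by exact_mod_cast Nat.pos_of_ne_zero (NeZero.ne p)
  refine div_pos (sum_pos' (fun u _ => mul_nonneg (hf _) (hg _)) ⟨b, mem_univ _, ?_⟩) hp
  rw [add_sub_cancel]
  exact mul_pos ha hb

theorem sum_shift (f : ZMod p → ℝ) (d : ZMod p) : ∑ u, f (u + d) = ∑ u, f u :=
  Fintype.sum_equiv (Equiv.addRight d) _ _ (fun _ => rfl)

theorem sum_corr (f g : ZMod p → ℝ) : ∑ d, corr f g d = (∑ u, f u) * (∑ u, g u) / p := by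
  unfold corr
  rw [← sum_div, sum_comm, mul_sum]
  congr 1
  refine sum_congr rfl fun u _ => ?_
  rw [← sum_mul]
  congr 1
  simpa [add_comm] using sum_shift f u

theorem sum_corr_le (hg : ∀ u, 0 ≤ g u) (hf1 : ∑ u, f u ≤ p) (hg1 : ∑ u, g u ≤ p) :
    ∑ d, corr f g d ≤ p := by
  have hp : (0 : ℝ) < p := by exact_mod_cast Nat.pos_of_ne_zero (NeZero.ne p)
  rw [sum_corr, div_le_iff₀ hp]
  exact mul_le_mul hf1 hg1 (sum_nonneg fun u _ => hg u) hp.le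

theorem corr_le (hf : ∀ u, 0 ≤ f u) (hg : ∀ u, 0 ≤ g u) (hf1 : ∑ u, f u ≤ p)
    (hg1 : ∑ u, g u ≤ p) (d : ZMod p) : corr f g d ≤ p :=
  (single_le_sum (fun d _ => corr_nonneg hf hg d) (mem_univ d)).trans (sum_corr_le hg hf1 hg1)

theorem sum_mul_shift (f g : ZMod p → ℝ) (x x' : ZMod p) :
    ∑ u, f (u + x) * g (u + x') = p * corr f g (x - x') := by
  have hp : (p : ℝ) ≠ 0 := by exact_mod_cast NeZero.ne p
  unfold corr
  rw [mul_div_cancel₀ _ hp, ← sum_shift (fun u => f (u + (x - x')) * g u) x']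
  refine sum_congr rfl fun u _ => ?_
  congr 2
  ring

end Corr

section Adm

variable {ι : Type} [Fintype ι] [DecidableEq ι] (S : Sys ι) (rg : ι → ℕ) (𝒞 : Finset (Finset V))

theorem mem_adm {j : ℕ} {z : V} {C : Finset V} :
    C ∈ adm S rg 𝒞 j z ↔ C ∈ 𝒞 ∧ ∀ i, rg i < j → ∀ c ∈ C, S.ρ i (z + c) ≠ 0 := mem_filter

theorem adm_subset (j : ℕ) (z : V) : adm S rg 𝒞 j z ⊆ 𝒞 := filter_subset _ _

theorem adm_anti {j j' : ℕ} (h : j ≤ j') (z : V) : adm S rg 𝒞 j' z ⊆ adm S rg 𝒞 j z := by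
  intro C hC
  rw [mem_adm] at *
  exact ⟨hC.1, fun i hi => hC.2 i (by omega)⟩

theorem adm_zero (z : V) : adm S rg 𝒞 0 z = 𝒞 := by
  ext C; simp [mem_adm]

/-- Coordinatewise reduction modulo `Q`. -/
def red (Q : ℕ) (z : V) : V := (z.1 % Q, z.2 % Q)

/-- The fundamental domain `[0,Q)²`. -/
noncomputable def dom (Q : ℕ) : Finset V := Finset.Ico (0 : ℤ) Q ×ˢ Finset.Ico (0 : ℤ) Q

theorem card_dom (Q : ℕ) : (dom Q).card = Q ^ 2 := by
  simp [dom, Finset.card_product, Int.card_Ico, sq]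

theorem red_mem_dom {Q : ℕ} (hQ : 0 < Q) (z : V) : red Q z ∈ dom Q := by
  have h : (0 : ℤ) < Q := by exact_mod_cast hQ
  simp only [red, dom, mem_product, mem_Ico]
  exact ⟨⟨Int.emod_nonneg _ h.ne', Int.emod_lt_of_pos _ h⟩,
    ⟨Int.emod_nonneg _ h.ne', Int.emod_lt_of_pos _ h⟩⟩

omit [Fintype ι] [DecidableEq ι] in
theorem rho_red {Q : ℕ} {i : ι} (h : S.q i ∣ Q) (z : V) : S.ρ i (red Q z) = S.ρ i z := by
  have e : z = red Q z + (Q : ℤ) • ((z.1 / Q, z.2 / Q) : V) := by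
    ext
    · simp [red, Int.emod_add_mul_ediv]
    · simp [red, Int.emod_add_mul_ediv]
  conv_rhs => rw [e]
  rw [map_add, map_zsmul, zsmul_eq_mul, Int.cast_natCast, (ZMod.natCast_eq_zero_iff _ _).mpr h]
  simp

theorem adm_red {j Q : ℕ} (hQ : ∀ i, rg i < j → S.q i ∣ Q) (z x : V) :
    adm S rg 𝒞 j (red Q z + x) = adm S rg 𝒞 j (z + x) := by
  ext C
  simp only [mem_adm, map_add]
  refine and_congr_right fun _ => forall₂_congr fun i hi => ?_
  rw [rho_red S (hQ i hi)]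

end Adm

end Crest.Agent.R002
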