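import Crest.Agent.R002.Basic

set_option autoImplicit false

namespace Crest.Agent.R002

open Finset

variable {ι : Type} [Fintype ι] [DecidableEq ι]

/-- Remove the residues covered by the cluster `x + C`. -/
def cut (S : Sys ι) (A : St S) (x : V) (C : Finset V) : St S :=
  fun i => (A i).filter (fun u => ∀ c ∈ C, u + S.ρ i (x + c) ≠ 0)

omit [Fintype ι] [DecidableEq ι] in
/-- hits minus collisions are removed -/
theorem prog_count (S : Sys ι) (A : St S) (x : V) (C : Finset V) (i : ι) :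
    (C.filter fun c => -S.ρ i (x + c) ∈ A i).card + (cut S A x C i).card ≤ (A i).card +
      ((C ×ˢ C).filter fun p => p.1 ≠ p.2 ∧ S.ρ i (p.1 - p.2) = 0).card := by
  classical
  have h1 := card_filter_add_card_filter_not (s := A i) fun u => ∀ c ∈ C, u + S.ρ i (x + c) ≠ 0
  have h2 := card_filter_add_card_filter_not (s := C.filter fun c => -S.ρ i (x + c) ∈ A i)
    fun c => ∃ c' ∈ C, c ≠ c' ∧ S.ρ i (c - c') = 0
  have h3 : ((C.filter fun c => -S.ρ i (x + c) ∈ A i).filter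
      fun c => ∃ c' ∈ C, c ≠ c' ∧ S.ρ i (c - c') = 0).card ≤
      ((C ×ˢ C).filter fun p => p.1 ≠ p.2 ∧ S.ρ i (p.1 - p.2) = 0).card := by
    refine le_trans (card_le_card fun c hc => ?_) (card_image_le (f := Prod.fst))
    obtain ⟨hc, c', h1, h2⟩ := mem_filter.1 hc
    exact mem_image.2 ⟨(c, c'), mem_filter.2 ⟨mem_product.2 ⟨(mem_filter.1 hc).1, h1⟩, h2⟩, rfl⟩
  have h4 : ((C.filter fun c => -S.ρ i (x + c) ∈ A i).filter
      fun c => ¬ ∃ c' ∈ C, c ≠ c' ∧ S.ρ i (c - c') = 0).card ≤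
      ((A i).filter fun u => ¬ ∀ c ∈ C, u + S.ρ i (x + c) ≠ 0).card := by
    refine card_le_card_of_injOn (fun c => -S.ρ i (x + c)) (fun c hc => ?_) fun c hc c' hc' e => ?_
    · obtain ⟨h1, h2⟩ := mem_filter.1 (mem_filter.1 hc).1
      exact mem_filter.2 ⟨h2, fun h => h c h1 (neg_add_cancel _)⟩
    · by_contra hne
      refine (mem_filter.1 hc).2 ⟨c', (mem_filter.1 (mem_filter.1 hc').1).1, hne, ?_⟩
      have e' : S.ρ i (x + c) = S.ρ i (x + c') := neg_injective e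
      rw [map_add, map_add, add_right_inj] at e'
      rw [map_sub, e', sub_self]
  unfold cut
  omega

omit [DecidableEq ι] in
/-- few primes kill a short vector -/
theorem prog_few (S : Sys ι) {ℓ R : ℕ} (hR : (2 * R + 1 : ℝ) ≤ Real.exp ℓ) (hℓ : 1 ≤ ℓ) {v : V}
    (hv : v ≠ 0) (hb : v ∈ box (R + R)) : ((univ.filter fun i => S.ρ i v = 0).card : ℝ) ≤ 6 * ℓ := by
  have h1 := S.sum_log_le hv
  have h2 : ((univ.filter fun i => S.ρ i v = 0).card : ℝ) * Real.log 2 ≤
      ∑ i with S.ρ i v = 0, Real.log (S.q i) := by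
    rw [← nsmul_eq_mul]
    exact card_nsmul_le_sum _ _ _ fun i _ =>
      Real.log_le_log (by norm_num) (by exact_mod_cast (S.prime i).two_le)
  have h3 : (nrm v : ℝ) ≤ 2 * ((R : ℝ) + R) ^ 2 := by exact_mod_cast nrm_le_of_mem_box hb
  have h4 : (0 : ℝ) < nrm v := by exact_mod_cast nrm_pos hv
  have hR0 : (0 : ℝ) ≤ R := Nat.cast_nonneg _
  have h5 : (nrm v : ℝ) ≤ 2 * Real.exp ℓ ^ 2 := h3.trans (by gcongr; linarith)
  have h6 := Real.log_le_log h4 h5
  rw [Real.log_mul (by norm_num) (by positivity), Real.log_pow, Real.log_exp] at h6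
  have h7 := Real.log_two_gt_d9
  have h8 := Real.log_two_lt_d9
  have h9 : (1 : ℝ) ≤ ℓ := by exact_mod_cast hℓ
  have h0 : (0 : ℝ) ≤ (univ.filter fun i => S.ρ i v = 0).card := Nat.cast_nonneg _
  push_cast at h6
  nlinarith

/-- **Progress of one cluster.**

Plan.  For `i ∈ rng`, `1 ≤ |cut i| ≤ |A i|`, so `log |cut i| ≤ log |A i| - (|A i| - |cut i|)/|A i|`
(`log x ≤ x - 1`); drop the inactive `i`.  With `hit i = #{c ∈ C : -ρ i (x+c) ∈ A i}` and
`coll i = #{(c,c') ∈ C ×ˢ C : c ≠ c', ρ i (c - c') = 0}` one has `|A i| - |cut i| ≥ hit i - coll i`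
(the hit points that are not first coordinates of a colliding pair map injectively, by
`c ↦ -ρ i (x+c)`, into `A i \ cut i`).  Main term: `hit i / |A i| = ∑ c, dens / q i ≥ ∑ c, dens / (2H)`,
so the sum over active `i` is `≥ L (1/16+θ) |act| / (2H) ≥ L (1/16+θ) |rng| / (4H)`.
Collisions: for active `i`, `|A i| ≥ q i / ℓ ≥ H / ℓ`; for `c ≠ c'`,
`log 2 * #{i : ρ i (c-c') = 0} ≤ log (nrm (c-c')) ≤ log (8R²) ≤ log 2 + 2ℓ` (`Sys.sum_log_le`,
`sub_mem_box`, `nrm_le_of_mem_box`), so that number is `≤ 6ℓ` and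
`∑ coll i / |A i| ≤ 6 ℓ² L² / H ≤ |rng| L / (128 H)`. -/
theorem prog (S : Sys ι) (rg : ι → ℕ) (ℓ L R j : ℕ) (H θ : ℝ) (A : St S) (x : V) (C : Finset V)
    (hC : C.card = L) (hCR : C ⊆ box R) (hH : 0 < H)
    (hq : ∀ i, rg i = j → H ≤ S.q i ∧ (S.q i : ℝ) ≤ 2 * H)
    (hR : (2 * R + 1 : ℝ) ≤ Real.exp ℓ) (hℓ : 1 ≤ ℓ) (hP : 768 * ℓ ^ 2 * L ≤ (rng rg j).card)
    (hact : (rng rg j).card ≤ 2 * (act S rg ℓ j A).card) (hθ : 0 ≤ θ)
    (hc : ∀ c ∈ C, (1 / 16 + θ) * (act S rg ℓ j A).card ≤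
      ∑ i ∈ act S rg ℓ j A, dens S A i (S.ρ i (x + c)))
    (hne : ∀ i, rg i = j → (cut S A x C i).Nonempty) :
    ∑ i ∈ rng rg j, Real.log (cut S A x C i).card ≤
      ∑ i ∈ rng rg j, Real.log (A i).card -
        (rng rg j).card * (L / (128 * H) + L * θ / (4 * H)) := by
  classical
  have hsub : ∀ i, cut S A x C i ⊆ A i := fun i => filter_subset _ _
  have hcp : ∀ i, rg i = j → (0 : ℝ) < (cut S A x C i).card := fun i hi => by
    exact_mod_cast (hne i hi).card_pos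
  have hcl : ∀ i, ((cut S A x C i).card : ℝ) ≤ (A i).card := fun i => by
    exact_mod_cast card_le_card (hsub i)
  have hact' : act S rg ℓ j A ⊆ rng rg j := fun i hi =>
    mem_filter.2 ⟨mem_univ _, (mem_filter.1 hi).2.1⟩
  set col : ι → ℕ := fun i =>
    ((C ×ˢ C).filter fun p => p.1 ≠ p.2 ∧ S.ρ i (p.1 - p.2) = 0).card with hcol
  -- one active prime
  have h1 : ∀ i ∈ act S rg ℓ j A, (∑ c ∈ C, dens S A i (S.ρ i (x + c))) / (2 * H) -
      col i * (ℓ / H) ≤ Real.log (A i).card - Real.log (cut S A x C i).card := by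
    intro i hi
    obtain ⟨-, hi1, hi2⟩ := mem_filter.1 hi
    have a1 := hcp i hi1
    have a2 := a1.trans_le (hcl i)
    have a3 := Real.log_le_sub_one_of_pos (div_pos a1 a2)
    rw [Real.log_div a1.ne' a2.ne'] at a3
    have a4 : (((C.filter fun c => -S.ρ i (x + c) ∈ A i).card : ℝ) + (cut S A x C i).card) ≤
        (A i).card + col i := by exact_mod_cast prog_count S A x C i
    have a5 : ∑ c ∈ C, dens S A i (S.ρ i (x + c)) =
        (C.filter fun c => -S.ρ i (x + c) ∈ A i).card * ((S.q i : ℝ) / (A i).card) := by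
      unfold dens
      rw [← sum_filter, sum_const, nsmul_eq_mul]
    obtain ⟨a6, a7⟩ := hq i hi1
    have a8 : (S.q i : ℝ) ≤ ℓ * (A i).card := by exact_mod_cast hi2
    rw [a5]
    set h : ℝ := ((C.filter fun c => -S.ρ i (x + c) ∈ A i).card : ℝ)
    have hh : 0 ≤ h := Nat.cast_nonneg _
    have b1 : h * ((S.q i : ℝ) / (A i).card) / (2 * H) ≤ h / (A i).card := by
      rw [div_le_iff₀ (by positivity), mul_div_assoc', div_mul_eq_mul_div]
      gcongr
    have b2 : (col i : ℝ) / (A i).card ≤ col i * (ℓ / H) := by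
      rw [div_eq_mul_one_div]
      refine mul_le_mul_of_nonneg_left ?_ (Nat.cast_nonneg _)
      rw [div_le_div_iff₀ a2 hH]
      linarith
    have b3 : h / (A i).card + (cut S A x C i).card / (A i).card ≤ 1 + (col i : ℝ) / (A i).card := by
      rw [← add_div, one_add_div a2.ne']
      gcongr
    linarith
  have h2 := (sum_le_sum h1).trans (sum_le_sum_of_subset_of_nonneg hact' fun i hi _ =>
    sub_nonneg.2 (Real.log_le_log (hcp i (mem_filter.1 hi).2) (hcl i)))
  rw [sum_sub_distrib, sum_sub_distrib, ← sum_div, ← sum_mul, sum_comm] at h2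
  -- the main term
  have h3 : L * ((1 / 16 + θ) * (act S rg ℓ j A).card) ≤
      ∑ c ∈ C, ∑ i ∈ act S rg ℓ j A, dens S A i (S.ρ i (x + c)) := by
    rw [← hC, ← nsmul_eq_mul]
    exact card_nsmul_le_sum _ _ _ hc
  -- the collisions
  have h4 : ∑ i ∈ act S rg ℓ j A, (col i : ℝ) ≤ L * L * (6 * ℓ) := by
    refine (sum_le_sum_of_subset_of_nonneg (subset_univ _) fun i _ _ => Nat.cast_nonneg _).trans ?_
    simp only [hcol, card_filter, Nat.cast_sum]
    rw [sum_comm, ← hC, ← Nat.cast_mul, ← card_product, ← nsmul_eq_mul]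
    refine sum_le_card_nsmul _ _ _ fun p hp => ?_
    obtain ⟨p1, p2⟩ := mem_product.1 hp
    by_cases hp : p.1 = p.2
    · simp [hp]
    · have := prog_few S hR hℓ (sub_ne_zero.2 hp) (sub_mem_box (hCR p1) (hCR p2))
      rw [card_filter, Nat.cast_sum] at this
      simpa only [ne_eq, hp, not_false_eq_true, true_and] using this
  have h5 : (768 * ℓ ^ 2 * L : ℝ) ≤ (rng rg j).card := by exact_mod_cast hP
  have h6 : ((rng rg j).card : ℝ) ≤ 2 * (act S rg ℓ j A).card := by exact_mod_cast hact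
  have hL : (0 : ℝ) ≤ L := Nat.cast_nonneg _
  have h7 : (∑ i ∈ act S rg ℓ j A, (col i : ℝ)) * (ℓ / H) ≤ (rng rg j).card * (L / (128 * H)) := by
    calc _ ≤ L * L * (6 * ℓ) * (ℓ / H) := by gcongr
      _ = 768 * ℓ ^ 2 * L * (L / (128 * H)) := by field_simp; ring
      _ ≤ _ := by gcongr
  have h8 : (rng rg j).card * (L / (64 * H) + L * θ / (4 * H)) ≤
      (∑ c ∈ C, ∑ i ∈ act S rg ℓ j A, dens S A i (S.ρ i (x + c))) / (2 * H) := by
    calc _ ≤ 2 * (act S rg ℓ j A).card * (L / (64 * H) + L * θ / (4 * H)) := by gcongr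
      _ = L * ((1 / 16 + θ) * (act S rg ℓ j A).card) / (2 * H) := by field_simp; ring
      _ ≤ _ := by gcongr
  have h9 : (L : ℝ) / (64 * H) = 2 * (L / (128 * H)) := by field_simp; ring
  rw [h9] at h8
  linarith

end Crest.Agent.R002
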