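import Crest.Agent.R002.Tree
import Crest.Agent.R002.Prog

set_option autoImplicit false

namespace Crest.Agent.R002

open Finset

variable {ι : Type} [Fintype ι] [DecidableEq ι]

/-- Final states of a successful covering of range `j` seen from the base point `Y`. -/
def good (S : Sys ι) (rg : ι → ℕ) (ℓ j : ℕ) (Y : V) : Finset (St S) :=
  univ.filter (fun A => (∀ i, rg i = j → S.ρ i Y ∈ A i) ∧
    2 * (act S rg ℓ j A).card < (rng rg j).card)

/-- The reference law of the moves. -/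
noncomputable def coverMu (S : Sys ι) (rg : ι → ℕ) (𝒞 : Finset (Finset V)) (Rx j : ℕ) (z : V)
    (e : V × Finset V) : ℝ :=
  if e.2 ∈ adm S rg 𝒞 j (z + e.1) then
    1 / (((box Rx).card : ℝ) * (adm S rg 𝒞 j (z + e.1)).card) else 0

theorem coverMu_nonneg (S : Sys ι) (rg : ι → ℕ) (𝒞 : Finset (Finset V)) (Rx j : ℕ) (z : V)
    (e : V × Finset V) : 0 ≤ coverMu S rg 𝒞 Rx j z e := by
  unfold coverMu
  split_ifs <;> positivity

theorem coverMu_sum (S : Sys ι) (rg : ι → ℕ) (𝒞 : Finset (Finset V)) (Rx j : ℕ) (z : V) :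
    ∑ e ∈ box Rx ×ˢ 𝒞, coverMu S rg 𝒞 Rx j z e ≤ 1 := by
  have hb : (0 : ℝ) < (box Rx).card := by exact_mod_cast card_pos.2 ⟨0, zero_mem_box Rx⟩
  rw [sum_product]
  have h : ∀ x ∈ box Rx, ∑ C ∈ 𝒞, coverMu S rg 𝒞 Rx j z (x, C) ≤ 1 / (box Rx).card := by
    intro x _
    simp only [coverMu]
    rw [← sum_filter, filter_mem_eq_inter, inter_eq_right.2 (adm_subset S rg 𝒞 j _), sum_const,
      nsmul_eq_mul, ← one_div_mul_one_div, mul_left_comm, mul_one_div]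
    exact mul_le_of_le_one_right (by positivity) (div_self_le_one _)
  refine (sum_le_card_nsmul _ _ _ h).trans ?_
  rw [nsmul_eq_mul, mul_one_div_cancel hb.ne']

/-- **Covering.**

Plan.  For each `z` apply `tree` with moves `E = box Rx ×ˢ 𝒞`, `step A (x,C) = cut S A x C`,
`μ (x,C) = if C ∈ adm j (z+x) then 1 / (|box Rx| |adm j (z+x)|) else 0` (total `≤ 1`),
`A₀ = fun _ => univ`; `choose` the measures `ν z`.  Then use it with
`Inv A = ∀ i, rg i = j → ρ i (y 0) ∈ A i`, `Done A = 2|act| < |rng|`, `G = good ..`,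
`Ψ A = (∑ i ∈ rng, log |A i|) / |rng|` (`Ψ A₀ ≤ Λ`, `ZMod.card`), `u = L/(128H)`,
`κ = 4H/(Lη)`, `b = log ((2Rx+1)^2)`.  If not done, `NeverStuck` gives `a`; put `x = y a - y 0`,
`δ = log |adm j (y a)| - log |adm (j+1) (y a)| ≥ 0` (`adm_anti`), `Δ = Lηδ/(4H)` (`κΔ = δ`),
`E' = {x} ×ˢ adm (j+1) (y a)` of mass `|adm (j+1)| / (|box| |adm j|) = exp (-(b+δ))`
(`adm j (z+x) = adm j (y a)`); `prog` with `θ = ηδ` gives the decrease, and
`ρ (y 0) + ρ (x + c) = ρ (y a + c) ≠ 0` keeps the invariant. -/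
theorem cover (S : Sys ι) (rg : ι → ℕ) (𝒞 : Finset (Finset V)) (ℓ L R Rx T j M : ℕ) (H Λ η : ℝ)
    (hL : ∀ C ∈ 𝒞, C.card = L ∧ C ⊆ box R) (hL1 : 0 < L) (hH : 0 < H)
    (hq : ∀ i, rg i = j → H ≤ S.q i ∧ (S.q i : ℝ) ≤ 2 * H) (hΛ : ∀ i, Real.log (S.q i) ≤ Λ)
    (hR : (2 * R + 1 : ℝ) ≤ Real.exp ℓ) (hℓ : 1 ≤ ℓ) (hP : 768 * ℓ ^ 2 * L ≤ (rng rg j).card)
    (hη : 0 < η) (hM : 128 * H * Λ < M * L) :
    ∃ ν : V → St S → ℝ, (∀ z A, 0 ≤ ν z A) ∧ (∀ z, ∑ A, ν z A ≤ 1) ∧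
      ∀ (y : ℕ → V) (z : V), (∀ x, adm S rg 𝒞 j (z + x) = adm S rg 𝒞 j (y 0 + x)) →
        (∀ a, a < T → y a - y 0 ∈ box Rx) →
        (∀ a, a < T → (adm S rg 𝒞 (j + 1) (y a)).Nonempty) → NeverStuck S rg 𝒞 ℓ R T η j y →
        Real.exp (-(M * Real.log (2 * (2 * Rx + 1) ^ 2) + 4 * H * Λ / (L * η))) ≤
          ∑ A ∈ good S rg ℓ j (y 0), ν z A := by
  have h := fun z : V => tree (σ := St S) (box Rx ×ˢ 𝒞) (fun A e => cut S A e.1 e.2)
    (coverMu S rg 𝒞 Rx j z) (coverMu_nonneg S rg 𝒞 Rx j z) (coverMu_sum S rg 𝒞 Rx j z) M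
    (fun _ => univ)
  choose ν h0 h1 h2 using h
  refine ⟨ν, h0, h1, fun y z hz hy hne hns => ?_⟩
  have hP0 : (0 : ℝ) < (rng rg j).card := by
    have : 0 < 768 * ℓ ^ 2 * L := by positivity
    exact_mod_cast this.trans_le hP
  have hL0 : (0 : ℝ) < L := by exact_mod_cast hL1
  have hb0 : (0 : ℝ) < (2 * Rx + 1) ^ 2 := by positivity
  have hbox : ((box Rx).card : ℝ) = (2 * Rx + 1) ^ 2 := by rw [card_box]; push_cast; rfl
  have hΨ0 : (∑ i ∈ rng rg j, Real.log ((univ : Finset (ZMod (S.q i))).card)) /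
      (rng rg j).card ≤ Λ := by
    rw [div_le_iff₀ hP0, mul_comm, ← nsmul_eq_mul]
    refine sum_le_card_nsmul _ _ _ fun i _ => ?_
    rw [card_univ, ZMod.card]
    exact hΛ i
  refine le_trans ?_ (h2 z (fun A => ∀ i, rg i = j → S.ρ i (y 0) ∈ A i)
    (fun A => 2 * (act S rg ℓ j A).card < (rng rg j).card) (good S rg ℓ j (y 0))
    (fun A => (∑ i ∈ rng rg j, Real.log (A i).card) / (rng rg j).card) (L / (128 * H))
    (4 * H / (L * η)) (Real.log ((2 * Rx + 1) ^ 2)) (by positivity) (by positivity)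
    (Real.log_nonneg (one_le_pow₀ (by linarith [(Nat.cast_nonneg Rx : (0 : ℝ) ≤ Rx)])))
    (fun A hA hD => mem_filter.2 ⟨mem_univ _, hA, hD⟩)
    (fun A _ => div_nonneg (sum_nonneg fun i _ => Real.log_natCast_nonneg _) hP0.le) ?_
    (fun _ _ => mem_univ _) ?_)
  · rw [Real.exp_le_exp, Real.log_mul two_ne_zero hb0.ne', add_comm (Real.log 2), neg_le_neg_iff]
    have := mul_le_mul_of_nonneg_left hΨ0 (show 0 ≤ 4 * H / (L * η) by positivity)
    rw [div_mul_eq_mul_div (4 * H) _ Λ] at this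
    linarith
  · intro A hA hD
    obtain ⟨a, ha, hc⟩ := hns A (not_lt.1 hD)
    have hsub := adm_anti S rg 𝒞 (Nat.le_succ j) (y a)
    have p1 : (0 : ℝ) < (adm S rg 𝒞 (j + 1) (y a)).card := by exact_mod_cast card_pos.2 (hne a ha)
    have p2 : ((adm S rg 𝒞 (j + 1) (y a)).card : ℝ) ≤ (adm S rg 𝒞 j (y a)).card := by
      exact_mod_cast card_le_card hsub
    set δ := Real.log (adm S rg 𝒞 j (y a)).card - Real.log (adm S rg 𝒞 (j + 1) (y a)).card
      with hδ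
    have hδ0 : 0 ≤ δ := sub_nonneg.2 (Real.log_le_log p1 p2)
    have hzx : adm S rg 𝒞 j (z + (y a - y 0)) = adm S rg 𝒞 j (y a) := by
      rw [hz, add_sub_cancel]
    refine ⟨L * (η * δ) / (4 * H), by positivity, {y a - y 0} ×ˢ adm S rg 𝒞 (j + 1) (y a),
      product_subset_product (singleton_subset_iff.2 (hy a ha)) (adm_subset _ _ _ _ _), ?_, ?_⟩
    · have e1 : 4 * H / (L * η) * (L * (η * δ) / (4 * H)) = δ := by field_simp
      have e2 : ∀ C ∈ adm S rg 𝒞 (j + 1) (y a), coverMu S rg 𝒞 Rx j z (y a - y 0, C) =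
          1 / ((2 * Rx + 1) ^ 2 * (adm S rg 𝒞 j (y a)).card) := by
        intro C hC
        simp only [coverMu, hzx, hbox]
        rw [if_pos (hsub hC)]
      rw [e1, sum_product, sum_singleton, sum_congr rfl e2, sum_const, nsmul_eq_mul, hδ,
        Real.exp_neg, Real.exp_add, Real.exp_sub, Real.exp_log hb0, Real.exp_log p1,
        Real.exp_log (p1.trans_le p2)]
      refine le_of_eq ?_
      field_simp
    · rintro ⟨x, C⟩ he
      obtain ⟨hx, hC⟩ := mem_product.1 he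
      obtain rfl : x = y a - y 0 := mem_singleton.1 hx
      obtain ⟨hC1, hC2⟩ := (mem_adm _ _ _).1 hC
      have hI : ∀ i, rg i = j → S.ρ i (y 0) ∈ cut S A (y a - y 0) C i := by
        intro i hi
        refine mem_filter.2 ⟨hA i hi, fun c hc => ?_⟩
        rw [← map_add, ← add_assoc, add_sub_cancel]
        exact hC2 i (by omega) c hc
      refine ⟨hI, ?_⟩
      have := prog S rg ℓ L R j H (η * δ) A (y a - y 0) C (hL C hC1).1 (hL C hC1).2 hH hq hR hℓ hP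
        (not_lt.1 hD) (by positivity) (fun c hc' => by
          rw [sub_add_eq_add_sub]
          exact hc c ((hL C hC1).2 hc')) fun i hi => ⟨_, hI i hi⟩
      refine (div_le_div_of_nonneg_right this hP0.le).trans (le_of_eq ?_)
      rw [sub_div, mul_div_cancel_left₀ _ hP0.ne', sub_sub]
  · refine hΨ0.trans_lt ?_
    rw [← mul_div_assoc, lt_div_iff₀ (by positivity)]
    linarith

end Crest.Agent.R002
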