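import Crest.Agent.R002.Basic
import Crest.Agent.Lib.Brouwer.Basic

set_option autoImplicit false

namespace Crest.Agent.R002

open Finset

/-- Piecewise linear interpolation of `z 0, …, z m`. -/
noncomputable def crossInterp (z : ℕ → ℝ × ℝ) (m : ℕ) (x : ℝ) : ℝ × ℝ :=
  z 0 + ∑ k ∈ range m, max 0 (min 1 (x - k)) • (z (k + 1) - z k)

theorem crossInterp_continuous (z : ℕ → ℝ × ℝ) (m : ℕ) : Continuous (crossInterp z m) := by
  unfold crossInterp
  fun_prop

theorem crossInterp_succ (z : ℕ → ℝ × ℝ) (m : ℕ) (x : ℝ) :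
    crossInterp z (m + 1) x = crossInterp z m x + max 0 (min 1 (x - m)) • (z (m + 1) - z m) := by
  simp only [crossInterp, sum_range_succ, add_assoc]

theorem crossInterp_of_ge (z : ℕ → ℝ × ℝ) (m : ℕ) : ∀ x : ℝ, (m : ℝ) ≤ x →
    crossInterp z m x = z m := by
  induction m with
  | zero => intro x _; simp [crossInterp]
  | succ m ih =>
    intro x hx
    push_cast at hx
    rw [crossInterp_succ, ih x (by linarith), min_eq_left (by linarith), max_eq_right zero_le_one]
    simp

theorem crossInterp_zero (z : ℕ → ℝ × ℝ) (m : ℕ) : crossInterp z m 0 = z 0 := by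
  induction m with
  | zero => simp [crossInterp]
  | succ m ih =>
    rw [crossInterp_succ, ih, max_eq_left (min_le_of_right_le (by simp))]
    simp

theorem crossInterp_near (z : ℕ → ℝ × ℝ) {D : ℝ} (hD : 0 ≤ D) (m : ℕ)
    (h : ∀ i, i < m → ‖z (i + 1) - z i‖ ≤ D) (x : ℝ) :
    ∃ k, k ≤ m ∧ ‖crossInterp z m x - z k‖ ≤ D := by
  induction m with
  | zero => exact ⟨0, le_rfl, by simpa [crossInterp] using hD⟩
  | succ m ih =>
    rw [crossInterp_succ]
    rcases le_total x m with hx | hx
    · obtain ⟨k, hk, hk'⟩ := ih fun i hi => h i (by omega)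
      refine ⟨k, by omega, ?_⟩
      rw [max_eq_left (min_le_of_right_le (by linarith))]
      simpa using hk'
    · refine ⟨m, by omega, ?_⟩
      rw [crossInterp_of_ge z m x hx, add_sub_cancel_left, norm_smul, Real.norm_eq_abs,
        abs_of_nonneg (le_max_left _ _)]
      exact (mul_le_of_le_one_left (norm_nonneg _)
        (max_le zero_le_one (min_le_left _ _))).trans (h m (by omega))

theorem cross_real (α β : ℕ → ℝ × ℝ) (m m' : ℕ)
    (hdet : (α m - α 0).1 * (β m' - β 0).2 - (α m - α 0).2 * (β m' - β 0).1 ≠ 0) (e : ℝ × ℝ) :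
    ∃ (x x' : ℝ) (k k' : ℤ), crossInterp α m x - crossInterp β m' x' + (k : ℝ) • (α m - α 0) +
      (k' : ℝ) • (β m' - β 0) - e = 0 := by
  set u := α m - α 0 with hu
  set u' := β m' - β 0 with hu'
  set δ := u.1 * u'.2 - u.2 * u'.1 with hδ
  let A : ℝ → ℝ × ℝ := fun s => crossInterp α m (m * s) - s • u
  let B : ℝ → ℝ × ℝ := fun s => crossInterp β m' (m' * s) - s • u'
  have hA : Continuous A := by
    have := crossInterp_continuous α m
    fun_prop
  have hB : Continuous B := by
    have := crossInterp_continuous β m'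
    fun_prop
  have hA01 : A 0 = A 1 := by
    simp only [A, mul_zero, mul_one, crossInterp_zero, crossInterp_of_ge α m m le_rfl, hu]
    simp
  have hB01 : B 0 = B 1 := by
    simp only [B, mul_zero, mul_one, crossInterp_zero, crossInterp_of_ge β m' m' le_rfl, hu']
    simp
  have hAf : Continuous (A ∘ Int.fract) := hA.continuousOn.comp_fract'' hA01
  have hBf : Continuous (B ∘ Int.fract) := hB.continuousOn.comp_fract'' hB01
  let L : ℝ × ℝ → ℝ × ℝ := fun w => ((w.1 * u'.2 - w.2 * u'.1) / δ, -(u.1 * w.2 - u.2 * w.1) / δ)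
  have hL : Continuous L := by fun_prop
  have hLs : ∀ w, (L w).1 • u - (L w).2 • u' = w := by
    intro w
    ext
    · simp only [L, Prod.fst_sub, Prod.smul_fst, smul_eq_mul]
      field_simp
      rw [hδ]; ring
    · simp only [L, Prod.snd_sub, Prod.smul_snd, smul_eq_mul]
      field_simp
      rw [hδ]; ring
  obtain ⟨C, hC⟩ := ((isCompact_Icc (a := (0 : ℝ)) (b := 1)).prod
    (isCompact_Icc (a := (0 : ℝ)) (b := 1))).exists_bound_of_continuousOn
    (f := fun p : ℝ × ℝ => L (e - A p.1 + B p.2)) (by fun_prop)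
  obtain ⟨p, hp⟩ := Crest.Agent.Lib.Brouwer.exists_fixed_of_bounded
    (fun p : ℝ × ℝ => L (e - (A ∘ Int.fract) p.1 + (B ∘ Int.fract) p.2))
    (hL.comp ((continuous_const.sub (hAf.comp continuous_fst)).add (hBf.comp continuous_snd))) C
    (fun p => hC (Int.fract p.1, Int.fract p.2)
      ⟨⟨Int.fract_nonneg _, (Int.fract_lt_one _).le⟩, ⟨Int.fract_nonneg _, (Int.fract_lt_one _).le⟩⟩)
  have h1 := hLs (e - (A ∘ Int.fract) p.1 + (B ∘ Int.fract) p.2)
  rw [hp] at h1
  refine ⟨m * Int.fract p.1, m' * Int.fract p.2, ⌊p.1⌋, -⌊p.2⌋, ?_⟩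
  simp only [Function.comp, A, B] at h1
  have e1 : (⌊p.1⌋ : ℝ) = p.1 - Int.fract p.1 := by rw [Int.self_sub_fract]
  have e2 : (⌊p.2⌋ : ℝ) = p.2 - Int.fract p.2 := by rw [Int.self_sub_fract]
  rw [Int.cast_neg, e1, e2]
  linear_combination (norm := module) h1

/-- **Crossing lemma.**  Two lattice paths with linearly independent chords `u`, `u'`: their
differences cover everything modulo the lattice `⟨u, u'⟩`, up to `box (2D)`.

Plan.  In `ℝ × ℝ` put `interp z m x = z 0 + ∑ k < m, clamp (x - k) • (z (k+1) - z k)` with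
`clamp t = max 0 (min 1 t)` (continuous, finite sum).  By induction on `m`: for `x ≥ m`,
`interp z m x = z m`; for every `x` there is `k ≤ m` with both coordinates of
`interp z m x - z k` at most `D` in absolute value; `interp z m 0 = z 0`.
`A s = interp α m (m s) - s • u` has `A 0 = A 1`, so `A ∘ Int.fract` is continuous
(`ContinuousOn.comp_fract''`) and bounded (compactness of `[0,1]`); same for `B`.  Solve
`s • u + t • u' = e - A (fract s) + B (fract (-t))` (Cramer, `det ≠ 0`) by
`Crest.Agent.Lib.Brouwer.exists_fixed_of_bounded` on `ℝ × ℝ`.  Then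
`interp α m (m fract s) + ⌊s⌋ • u - interp β m' (m' fract (-t)) - ⌊-t⌋ • u' = e`; round both
interpolated points and cast back to `ℤ`. -/
theorem cross (α β : ℕ → V) (m m' D : ℕ) (hα : ∀ i, i < m → α (i + 1) - α i ∈ box D)
    (hβ : ∀ i, i < m' → β (i + 1) - β i ∈ box D)
    (hdet : det (α m - α 0) (β m' - β 0) ≠ 0) (e : V) :
    ∃ i, i ≤ m ∧ ∃ j, j ≤ m' ∧ ∃ k k' : ℤ,
      α i - β j + k • (α m - α 0) + k' • (β m' - β 0) - e ∈ box (2 * D) := by
  let cst : V → ℝ × ℝ := fun v => ((v.1 : ℝ), (v.2 : ℝ))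
  have hn : ∀ (R : ℕ) (v : V), v ∈ box R ↔ ‖cst v‖ ≤ R := by
    intro R v
    rw [mem_box, Prod.norm_def, max_le_iff, Real.norm_eq_abs, Real.norm_eq_abs]
    simp only [cst]
    norm_cast
  have hsub : ∀ v w, cst (v - w) = cst v - cst w := fun v w => by simp [cst]
  have hadd : ∀ v w, cst (v + w) = cst v + cst w := fun v w => by simp [cst]
  have hsmul : ∀ (k : ℤ) v, cst (k • v) = (k : ℝ) • cst v := fun k v => by simp [cst]
  obtain ⟨x, x', k, k', h⟩ := cross_real (fun i => cst (α i)) (fun i => cst (β i)) m m' (by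
    simp only [← hsub]
    simp only [cst]
    exact_mod_cast hdet) (cst e)
  obtain ⟨i, hi, hi'⟩ := crossInterp_near (fun i => cst (α i)) (Nat.cast_nonneg D) m
    (fun i hi => by rw [← hsub, ← hn]; exact hα i hi) x
  obtain ⟨j, hj, hj'⟩ := crossInterp_near (fun i => cst (β i)) (Nat.cast_nonneg D) m'
    (fun i hi => by rw [← hsub, ← hn]; exact hβ i hi) x'
  refine ⟨i, hi, j, hj, k, k', (hn _ _).mpr ?_⟩
  simp only [hsub, hadd, hsmul]
  have e1 : cst (α i) - cst (β j) + (k : ℝ) • (cst (α m) - cst (α 0)) +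
      (k' : ℝ) • (cst (β m') - cst (β 0)) - cst e =
      (crossInterp (fun i => cst (β i)) m' x' - cst (β j)) -
        (crossInterp (fun i => cst (α i)) m x - cst (α i)) := by
    linear_combination (exp := 1) h
  rw [e1]
  push_cast
  linarith [norm_sub_le (crossInterp (fun i => cst (β i)) m' x' - cst (β j))
    (crossInterp (fun i => cst (α i)) m x - cst (α i))]

end Crest.Agent.R002
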