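import Mathlib

/-!
# Gaussian moat (row 2): definitions and basic facts

`V = ℤ × ℤ` is the lattice of Gaussian integers; `box R` the sup-norm ball; an `IsPath y n D` is an
injective sequence `y 0, …, y (n-1)` with sup-norm steps at most `D`.  A `Sys ι` is a finite family
of distinct primes `q i` with additive maps `ρ i : V →+ ZMod (q i)` (reduction modulo a Gaussian
prime above `q i`).
-/

set_option autoImplicit false

namespace Crest.Agent.R002

open Finset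

abbrev V := ℤ × ℤ

/-- sup-norm ball of radius `R`. -/
noncomputable def box (R : ℕ) : Finset V := Finset.Icc (-(R : ℤ)) R ×ˢ Finset.Icc (-(R : ℤ)) R

theorem mem_box {R : ℕ} {v : V} : v ∈ box R ↔ |v.1| ≤ R ∧ |v.2| ≤ R := by
  simp [box, abs_le]

theorem card_box (R : ℕ) : (box R).card = (2 * R + 1) ^ 2 := by
  have : ((R : ℤ) + 1 + (R : ℤ)).toNat = 2 * R + 1 := by omega
  simp [box, Finset.card_product, Int.card_Icc, this, sq]

theorem box_mono {R R' : ℕ} (h : R ≤ R') : box R ⊆ box R' := by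
  intro v hv
  rw [mem_box] at *
  have : (R : ℤ) ≤ R' := by exact_mod_cast h
  exact ⟨hv.1.trans this, hv.2.trans this⟩

theorem zero_mem_box (R : ℕ) : (0 : V) ∈ box R := by simp [mem_box]

theorem neg_mem_box {R : ℕ} {v : V} (h : v ∈ box R) : -v ∈ box R := by
  simpa [mem_box] using h

theorem add_mem_box {R R' : ℕ} {v w : V} (h : v ∈ box R) (h' : w ∈ box R') :
    v + w ∈ box (R + R') := by
  rw [mem_box] at *
  simp only [Prod.fst_add, Prod.snd_add, Nat.cast_add]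
  exact ⟨(abs_add_le _ _).trans (add_le_add h.1 h'.1), (abs_add_le _ _).trans (add_le_add h.2 h'.2)⟩

theorem sub_mem_box {R R' : ℕ} {v w : V} (h : v ∈ box R) (h' : w ∈ box R') :
    v - w ∈ box (R + R') := by
  rw [sub_eq_add_neg]; exact add_mem_box h (neg_mem_box h')

/-- The norm `x² + y²`. -/
def nrm (v : V) : ℤ := v.1 ^ 2 + v.2 ^ 2

theorem nrm_pos {v : V} (hv : v ≠ 0) : 0 < nrm v := by
  unfold nrm
  by_contra h
  apply hv
  have h1 : v.1 = 0 := by nlinarith [sq_nonneg v.1, sq_nonneg v.2]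
  have h2 : v.2 = 0 := by nlinarith [sq_nonneg v.1, sq_nonneg v.2]
  exact Prod.ext h1 h2

theorem nrm_le_of_mem_box {R : ℕ} {v : V} (h : v ∈ box R) : nrm v ≤ 2 * (R : ℤ) ^ 2 := by
  rw [mem_box] at h
  unfold nrm
  have h1 := sq_le_sq' (abs_le.mp h.1).1 (abs_le.mp h.1).2
  have h2 := sq_le_sq' (abs_le.mp h.2).1 (abs_le.mp h.2).2
  linarith

/-- The determinant of two lattice vectors. -/
def det (u v : V) : ℤ := u.1 * v.2 - u.2 * v.1

/-- `y 0, …, y (n-1)` are distinct and consecutive points differ by an element of `box D`. -/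
structure IsPath (y : ℕ → V) (n D : ℕ) : Prop where
  inj : ∀ i, i < n → ∀ j, j < n → y i = y j → i = j
  step : ∀ i, i + 1 < n → y (i + 1) - y i ∈ box D

theorem IsPath.mono {y : ℕ → V} {n D n' D' : ℕ} (h : IsPath y n D) (hn : n' ≤ n) (hD : D ≤ D') :
    IsPath y n' D' :=
  ⟨fun i hi j hj => h.inj i (by omega) j (by omega),
    fun i hi => box_mono hD (h.step i (by omega))⟩

theorem IsPath.add_sub_mem {y : ℕ → V} {n D : ℕ} (h : IsPath y n D) (j : ℕ) :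
    ∀ k, j + k < n → y (j + k) - y j ∈ box (k * D) := by
  intro k
  induction k with
  | zero => intro _; simpa using zero_mem_box 0
  | succ k ih =>
    intro hk
    have h1 := add_mem_box (h.step (j + k) (by omega)) (ih (by omega))
    have e : y (j + k + 1) - y (j + k) + (y (j + k) - y j) = y (j + (k + 1)) - y j := by
      rw [← add_assoc j k 1]; abel
    rw [e] at h1
    exact box_mono (by rw [Nat.succ_mul]; omega) h1

theorem IsPath.diff_mem {y : ℕ → V} {n D : ℕ} (h : IsPath y n D) {i j m : ℕ} (hi : i < n)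
    (hj : j < n) (h1 : i ≤ j + m) (h2 : j ≤ i + m) : y i - y j ∈ box (m * D) := by
  rcases le_total j i with hji | hij
  · obtain ⟨k, rfl⟩ := Nat.exists_eq_add_of_le hji
    exact box_mono (Nat.mul_le_mul_right _ (by omega)) (h.add_sub_mem j k hi)
  · obtain ⟨k, rfl⟩ := Nat.exists_eq_add_of_le hij
    have := neg_mem_box (h.add_sub_mem i k hj)
    rw [neg_sub] at this
    exact box_mono (Nat.mul_le_mul_right _ (by omega)) this

theorem IsPath.comp {y : ℕ → V} {n D : ℕ} (h : IsPath y n D) (φ : ℕ → ℕ) (n' g : ℕ)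
    (hφ : ∀ i, i < n' → φ i < n) (hinj : ∀ i, i < n' → ∀ j, j < n' → φ i = φ j → i = j)
    (hstep : ∀ i, i + 1 < n' → φ (i + 1) ≤ φ i + g ∧ φ i ≤ φ (i + 1) + g) :
    IsPath (fun i => y (φ i)) n' (g * D) :=
  ⟨fun i hi j hj e => hinj i hi j hj (h.inj _ (hφ i hi) _ (hφ j hj) e),
    fun i hi => h.diff_mem (hφ _ hi) (hφ _ (by omega)) (hstep i hi).1 (hstep i hi).2⟩

theorem IsPath.shift {y : ℕ → V} {n D : ℕ} (h : IsPath y n D) (a m : ℕ) (ha : a + m ≤ n) :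
    IsPath (fun i => y (a + i)) m D := by
  have := h.comp (fun i => a + i) m 1 (fun i hi => by omega) (fun i _ j _ e => by omega)
    (fun i _ => by omega)
  simpa using this

/-- One index in each of `n'` consecutive blocks of length `g` starting at `s`. -/
theorem IsPath.blocks {y : ℕ → V} {n D : ℕ} (h : IsPath y n D) (φ : ℕ → ℕ) (s n' g : ℕ)
    (hn : s + n' * g ≤ n) (hφ : ∀ i, i < n' → s + i * g ≤ φ i ∧ φ i < s + (i + 1) * g) :
    IsPath (fun i => y (φ i)) n' (2 * g * D) := by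
  refine h.comp φ n' (2 * g) (fun i hi => ?_) (fun i hi j hj e => ?_) (fun i hi => ?_)
  · have := (hφ i hi).2
    have h2 : (i + 1) * g ≤ n' * g := Nat.mul_le_mul_right _ hi
    omega
  · by_contra hne
    rcases Nat.lt_or_gt_of_ne hne with hl | hl
    · have h2 : (i + 1) * g ≤ j * g := Nat.mul_le_mul_right _ hl
      have := (hφ i hi).2; have := (hφ j hj).1; omega
    · have h2 : (j + 1) * g ≤ i * g := Nat.mul_le_mul_right _ hl
      have := (hφ j hj).2; have := (hφ i hi).1; omega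
  · have h1 := hφ i (by omega)
    have h2 := hφ (i + 1) hi
    simp only [add_mul, one_mul] at h1 h2
    omega

/-- The difference set of the first `n` points. -/
def diffs (y : ℕ → V) (n : ℕ) : Finset V :=
  (range n ×ˢ range n).image (fun p => y p.1 - y p.2)

theorem mem_diffs {y : ℕ → V} {n : ℕ} {d : V} :
    d ∈ diffs y n ↔ ∃ a, a < n ∧ ∃ a', a' < n ∧ y a - y a' = d := by
  simp only [diffs, mem_image, mem_product, mem_range, Prod.exists]
  constructor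
  · rintro ⟨a, a', ⟨h1, h2⟩, h⟩; exact ⟨a, h1, a', h2, h⟩
  · rintro ⟨a, h1, a', h2, h⟩; exact ⟨a, a', ⟨h1, h2⟩, h⟩

/-- A finite system of distinct primes with reduction maps. -/
structure Sys (ι : Type) where
  q : ι → ℕ
  prime : ∀ i, (q i).Prime
  inj : Function.Injective q
  ρ : ∀ i, V →+ ZMod (q i)
  ker : ∀ i v, ρ i v = 0 → (q i : ℤ) ∣ nrm v

instance {ι : Type} (S : Sys ι) (i : ι) : Fact (S.q i).Prime := ⟨S.prime i⟩

theorem Sys.q_pos {ι : Type} (S : Sys ι) (i : ι) : (0 : ℝ) < S.q i := by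
  exact_mod_cast (S.prime i).pos

/-- The primes killing a nonzero vector multiply to at most its norm. -/
theorem Sys.sum_log_le {ι : Type} [Fintype ι] (S : Sys ι) {v : V} (hv : v ≠ 0) :
    ∑ i with S.ρ i v = 0, Real.log (S.q i) ≤ Real.log (nrm v) := by
  classical
  have hpos := nrm_pos hv
  have hd : (∏ i with S.ρ i v = 0, (S.q i : ℤ)) ∣ nrm v := by
    refine Finset.prod_dvd_of_coprime ?_ (fun i hi => S.ker i v (mem_filter.mp hi).2)
    intro i _ j _ hij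
    have : Nat.Coprime (S.q i) (S.q j) :=
      (Nat.coprime_primes (S.prime i) (S.prime j)).mpr (fun e => hij (S.inj e))
    exact Nat.isCoprime_iff_coprime.mpr this
  have hle := Int.le_of_dvd hpos hd
  rw [← Real.log_prod (fun i _ => (S.q_pos i).ne')]
  refine Real.log_le_log (prod_pos fun i _ => S.q_pos i) ?_
  exact_mod_cast hle

/-- Admissible weights: nonnegative, total at most one, each at most `ω`; `log q ≤ Λ`. -/
structure Wt {ι : Type} [Fintype ι] (S : Sys ι) (w : ι → ℝ) (ω Λ : ℝ) : Prop where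
  nonneg : ∀ i, 0 ≤ w i
  sum_le : ∑ i, w i ≤ 1
  le : ∀ i, w i ≤ ω
  ω_nonneg : 0 ≤ ω
  log_le : ∀ i, Real.log (S.q i) ≤ Λ

/-- A path of length `n` (steps `D`, `4D+1 ≤ e^σ`) with a label space `Ω` of total mass `≤ 1`,
densities `Q o i` of mean `≤ 1`, such that every point has a set of labels of mass `≥ e^{-σ}`
each of which gains at least `γ`. -/
def Gain {ι : Type} [Fintype ι] (S : Sys ι) (w : ι → ℝ) (n : ℕ) (σ γ : ℝ) : Prop :=
  ∃ (y : ℕ → V) (D : ℕ) (Ω : Type) (_ : Fintype Ω) (μ : Ω → ℝ)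
    (Q : Ω → ∀ i, ZMod (S.q i) → ℝ) (U : ℕ → Finset Ω),
    IsPath y n D ∧ (4 * D + 1 : ℝ) ≤ Real.exp σ ∧ (∀ o, 0 ≤ μ o) ∧ ∑ o, μ o ≤ 1 ∧
    (∀ o i u, 0 ≤ Q o i u) ∧ (∀ o i, ∑ u, Q o i u ≤ S.q i) ∧
    ∀ a, a < n → Real.exp (-σ) ≤ ∑ o ∈ U a, μ o ∧
      ∀ o ∈ U a, (∀ i, 0 < Q o i (S.ρ i (y a))) ∧
        γ ≤ ∑ i, w i * Real.log (Q o i (S.ρ i (y a)))

/-- Normalised correlation of two functions on `ZMod p`. -/
noncomputable def corr {p : ℕ} [NeZero p] (f g : ZMod p → ℝ) (d : ZMod p) : ℝ :=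
  (∑ u, f (u + d) * g u) / p

/-! ### The stage -/

section Stage

variable {ι : Type} [Fintype ι] [DecidableEq ι]

/-- Shapes of `𝒞` that, placed at `z`, avoid `0` modulo all primes of the ranges `< j`. -/
def adm (S : Sys ι) (rg : ι → ℕ) (𝒞 : Finset (Finset V)) (j : ℕ) (z : V) : Finset (Finset V) :=
  𝒞.filter (fun C => ∀ i, rg i < j → ∀ c ∈ C, S.ρ i (z + c) ≠ 0)

/-- States: one set of (still uncovered) residues per prime. -/
abbrev St (S : Sys ι) := ∀ i, Finset (ZMod (S.q i))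

/-- The primes of range `j`. -/
def rng (rg : ι → ℕ) (j : ℕ) : Finset ι := univ.filter (fun i => rg i = j)

/-- Active primes of range `j`: the uncovered set still has density `≥ 1/ℓ`. -/
def act (S : Sys ι) (rg : ι → ℕ) (ℓ j : ℕ) (A : St S) : Finset ι :=
  univ.filter (fun i => rg i = j ∧ S.q i ≤ ℓ * (A i).card)

/-- The normalised indicator of `-A i`. -/
noncomputable def dens (S : Sys ι) (A : St S) (i : ι) (u : ZMod (S.q i)) : ℝ :=
  if -u ∈ A i then (S.q i : ℝ) / (A i).card else 0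

/-- The greedy covering of range `j` never gets stuck in the window `y 0, …, y (T-1)`. -/
def NeverStuck (S : Sys ι) (rg : ι → ℕ) (𝒞 : Finset (Finset V)) (ℓ R T : ℕ) (η : ℝ) (j : ℕ)
    (y : ℕ → V) : Prop :=
  ∀ A : St S, (rng rg j).card ≤ 2 * (act S rg ℓ j A).card →
    ∃ a, a < T ∧ ∀ c ∈ box R,
      (1 / 16 + η * (Real.log (adm S rg 𝒞 j (y a)).card -
          Real.log (adm S rg 𝒞 (j + 1) (y a)).card)) * (act S rg ℓ j A).card ≤
        ∑ i ∈ act S rg ℓ j A, dens S A i (S.ρ i (y a + c - y 0))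

/-- Window lengths of the colour induction. -/
def gg (nn : ℕ → ℕ) : ℕ → ℕ
  | 0 => 1
  | j + 1 => gg nn j * nn j

/-- All numeric requirements of one stage (`L = ℓ^3`, `Λ = 8 log ℓ`, `ℓ^24` clusters merged). -/
structure Par (S : Sys ι) (rg : ι → ℕ) (ℓ J r T : ℕ) (H σ : ℕ → ℝ) (M Qm nn : ℕ → ℕ)
    (η ω c : ℝ) : Prop where
  hℓ : 5 ≤ ℓ
  hJ : 0 < J
  hΛ : ∀ i, Real.log (S.q i) ≤ 8 * Real.log ℓ
  hr : 48 * (8 * Real.log ℓ) < 2 ^ r
  hω1 : ∀ j, j < J → 2 ≤ ω * (rng rg j).card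
  hω2 : 200 * ω * (9 * ℓ * ((48000 * (8 * Real.log ℓ)) ^ r) ^ 2 * (2 * J * ℓ)) *
    (8 * Real.log ℓ) ≤ (1 / 48) ^ 2
  hT : Real.exp (22 * ℓ * ((48000 * (8 * Real.log ℓ)) ^ r) ^ 2 * (2 * J * ℓ)) ≤ T
  hη : 0 < η
  hκ : 16 * η * (2 * c * (ℓ : ℝ) ^ 3) ≤ J
  hH : ∀ j, j < J → 0 < H j
  hq : ∀ i, rg i < J → H (rg i) ≤ S.q i ∧ (S.q i : ℝ) ≤ 2 * H (rg i)
  hP : ∀ j, j < J → 768 * ℓ ^ 2 * ℓ ^ 3 ≤ (rng rg j).card
  hM : ∀ j, j < J → 128 * H j * (8 * Real.log ℓ) < M j * (ℓ : ℝ) ^ 3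
  hQ0 : ∀ j, j ≤ J → 0 < Qm j
  hQd : ∀ j, j ≤ J → ∀ i, rg i < j → S.q i ∣ Qm j
  hσ1 : ∀ j, j < J → 10 ≤ σ j
  hσ2 : ∀ j, j < J → 8 * Real.log ℓ / 32 ≤ σ j
  hD : ∀ j, j < J → 4 * (gg nn j : ℝ) * (ℓ : ℝ) ^ 24 * T * Real.exp ℓ ≤ Real.exp (σ j)
  hb : ∀ j, j < J → 2 * Real.log (Qm j) + M j * (Real.log 2 + 2 * Real.log T + 2 * ℓ) +
    4 * H j * (8 * Real.log ℓ) / ((ℓ : ℝ) ^ 3 * η) ≤ σ j
  hω3 : ∀ j, j < J → 204800 * 32000 ^ 6 * σ j ≤ 8 * Real.log ℓ * (rng rg j).card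
  hn : ∀ j, j < J → Real.exp (2 * 32000 ^ 6 * σ j) ≤ nn j
  hG : 2 * ((gg nn J : ℝ) * (ℓ : ℝ) ^ 24 * T) * Real.exp ℓ ≤ Real.exp ((ℓ : ℝ) ^ 9)
  hcost : 2 * Real.log (Qm J) + (ℓ : ℝ) ^ 24 * (2 * (Real.log ((ℓ : ℝ) ^ 24 * T) + ℓ)) ≤
    c * (ℓ : ℝ) ^ 27

end Stage

/-! ### The concrete reduction maps -/

open Classical in
/-- `(x, y) ↦ x + s y` with `s² = -1` in `ZMod p`. -/
noncomputable def rho (p : ℕ) : V →+ ZMod p :=
  if h : ∃ s : ZMod p, s ^ 2 = -1 then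
    { toFun := fun v => (v.1 : ZMod p) + h.choose * (v.2 : ZMod p)
      map_zero' := by simp
      map_add' := fun v w => by simp only [Prod.fst_add, Prod.snd_add, Int.cast_add]; ring }
  else 0

theorem rho_ker {p : ℕ} (hp : p.Prime) (h4 : p % 4 = 1) {v : V} (hv : rho p v = 0) :
    (p : ℤ) ∣ nrm v := by
  have := Fact.mk hp
  have h : ∃ s : ZMod p, s ^ 2 = -1 := by
    obtain ⟨s, hs⟩ := ZMod.exists_sq_eq_neg_one_iff.mpr (show p % 4 ≠ 3 by omega)
    exact ⟨s, by rw [sq, hs]⟩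
  rw [rho, dif_pos h] at hv
  have hv' : (v.1 : ZMod p) + h.choose * (v.2 : ZMod p) = 0 := hv
  have hs := h.choose_spec
  rw [← ZMod.intCast_zmod_eq_zero_iff_dvd, nrm]
  push_cast
  linear_combination ((v.1 : ZMod p) - h.choose * (v.2 : ZMod p)) * hv' + (v.2 : ZMod p) ^ 2 * hs

/-- The system attached to a finite set of primes `≡ 1 mod 4`. -/
noncomputable def sysOf (P : Finset ℕ) (hP : ∀ p ∈ P, p.Prime ∧ p % 4 = 1) : Sys P where
  q := fun p => p.1
  prime := fun p => (hP p.1 p.2).1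
  inj := Subtype.val_injective
  ρ := fun p => rho p.1
  ker := fun p _ hv => rho_ker (hP p.1 p.2).1 (hP p.1 p.2).2 hv

/-- `z` avoids `0` modulo all primes `p ≡ 1 mod 4` up to `X`. -/
def Avoid (X : ℕ) (z : V) : Prop := ∀ p : ℕ, p.Prime → p % 4 = 1 → p ≤ X → rho p z ≠ 0

/-- There are arbitrarily long `D`-paths surviving arbitrarily many primes. -/
def Long (D : ℕ) : Prop :=
  ∀ X n : ℕ, ∃ y : ℕ → V, IsPath y n D ∧ ∀ a, a < n → Avoid X (y a)

/-- Level structure: a family `𝒞` of at most `exp (h ℓ³)` shapes with `ℓ³` points, and arbitrarily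
long paths of pairwise disjoint surviving clusters with shapes in `𝒞`. -/
def Level (ℓ : ℕ) (h : ℝ) : Prop :=
  ∃ (𝒞 : Finset (Finset V)) (D R : ℕ),
    (4 * D + 1 : ℝ) ≤ Real.exp ℓ ∧ (2 * R + 1 : ℝ) ≤ Real.exp ℓ ∧
    (𝒞.card : ℝ) ≤ Real.exp (h * (ℓ : ℝ) ^ 3) ∧ (∀ C ∈ 𝒞, C.card = ℓ ^ 3 ∧ C ⊆ box R) ∧
    ∀ X n : ℕ, ∃ (y : ℕ → V) (lab : ℕ → Finset V), IsPath y n D ∧
      (∀ a, a < n → lab a ∈ 𝒞 ∧ ∀ c ∈ lab a, Avoid X (y a + c)) ∧
      ∀ a, a < n → ∀ a', a' < n → ∀ c ∈ lab a, ∀ c' ∈ lab a', y a + c = y a' + c' → a = a'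

end Crest.Agent.R002
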