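import Crest.Agent.R002.Cross

set_option autoImplicit false

namespace Crest.Agent.R002

open Finset

theorem diffcard_count {ι : Type*} (E : Finset ι) (S B : Finset V) (P : ι → V → V → Prop)
    (h1 : ∀ x ∈ E, ∃ d ∈ S, ∃ b ∈ B, P x d b)
    (h2 : ∀ x ∈ E, ∀ x' ∈ E, ∀ d b, P x d b → P x' d b → x = x') :
    E.card ≤ B.card * S.card := by
  choose! d hd b hb hP using h1
  rw [← card_product]
  refine card_le_card_of_injOn (fun x => (b x, d x))
    (fun x hx => mem_coe.2 (mem_product.2 ⟨hb x hx, hd x hx⟩)) fun x hx x' hx' h => ?_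
  obtain ⟨e1, e2⟩ := Prod.mk.inj h
  exact h2 x hx x' hx' _ _ (hP x hx) (e1 ▸ e2 ▸ hP x' hx')

theorem diffcard_ivt {y : ℕ → V} {n D : ℕ} (hy : IsPath y n D) (a : ℕ) (x : ℤ) :
    ∀ m, a + m < n → min (y a).1 (y (a + m)).1 ≤ x → x ≤ max (y a).1 (y (a + m)).1 →
      ∃ c, c < n ∧ |(y c).1 - x| ≤ D := by
  intro m
  induction m with
  | zero =>
    intro h h1 h2
    simp only [add_zero, min_self, max_self] at h1 h2
    exact ⟨a, h, by rw [abs_le]; omega⟩
  | succ m ih =>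
    intro h h1 h2
    by_cases h3 : min (y a).1 (y (a + m)).1 ≤ x ∧ x ≤ max (y a).1 (y (a + m)).1
    · exact ih (by omega) h3.1 h3.2
    · have h4 := (mem_box.1 (hy.step (a + m) h)).1
      rw [Prod.fst_sub, abs_le] at h4
      rw [← add_assoc] at h1 h2
      exact ⟨a + m, by omega, by rw [abs_le]; omega⟩

theorem diffcard_cross {y : ℕ → V} {n D : ℕ} (hy : IsPath y n D) {i₀ i₁ j₀ j₁ : ℕ} (h₀ : i₀ < n)
    (h₁ : i₁ < n) (h₂ : j₀ < n) (h₃ : j₁ < n) (hdet : det (y i₁ - y i₀) (y j₁ - y j₀) ≠ 0)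
    (e : V) : ∃ d ∈ diffs y n, ∃ k k' : ℤ,
      d + k • (y i₁ - y i₀) + k' • (y j₁ - y j₀) - e ∈ box (2 * D) := by
  wlog hi : i₀ ≤ i₁ generalizing i₀ i₁
  · obtain ⟨d, hd, k, k', h⟩ := this h₁ h₀ (fun h => hdet (by
      simp only [det, Prod.fst_sub, Prod.snd_sub] at h ⊢
      linear_combination -h)) (by omega)
    exact ⟨d, hd, -k, k', by rwa [neg_smul, ← smul_neg, neg_sub]⟩
  wlog hj : j₀ ≤ j₁ generalizing j₀ j₁
  · obtain ⟨d, hd, k, k', h⟩ := this h₃ h₂ (fun h => hdet (by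
      simp only [det, Prod.fst_sub, Prod.snd_sub] at h ⊢
      linear_combination -h)) (by omega)
    exact ⟨d, hd, k, -k', by rwa [neg_smul, ← smul_neg, neg_sub]⟩
  obtain ⟨m, rfl⟩ := Nat.exists_eq_add_of_le hi
  obtain ⟨m', rfl⟩ := Nat.exists_eq_add_of_le hj
  obtain ⟨i, hi, j, hj, k, k', h⟩ := cross (fun i => y (i₀ + i)) (fun j => y (j₀ + j)) m m' D
    (fun i hi => hy.step (i₀ + i) (by omega)) (fun j hj => hy.step (j₀ + j) (by omega)) hdet e
  exact ⟨_, mem_diffs.2 ⟨i₀ + i, by omega, j₀ + j, by omega, rfl⟩, k, k', h⟩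

theorem diffcard_eq_zero {a c : ℤ} (h : |a * c| < |c|) : a = 0 := by
  by_contra ha
  have h1 : 1 ≤ |a| := Int.one_le_abs ha
  rw [abs_mul] at h
  nlinarith [abs_nonneg c]

/-- One-dimensional lower bound.  Plan: WLOG `i₀ < i₁` (swap).  For each integer `x` between
`0` and `u.1` (there are `|u.1|+1` of them) some index `a ∈ [i₀,i₁]` has
`|(y a - y i₀).1 - x| ≤ D` (discrete intermediate value, induction).  So the set of such `x` is
covered by `|diffs|` intervals with `2D+1 ≤ (4D+1)^2` points (`card_le_mul_card_image` or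
`card_biUnion_le`). -/
theorem diff_card_one {y : ℕ → V} {n D : ℕ} (hy : IsPath y n D) {i₀ i₁ : ℕ} (h₀ : i₀ < n)
    (h₁ : i₁ < n) : (y i₁ - y i₀).1.natAbs ≤ (4 * D + 1) ^ 2 * (diffs y n).card := by
  have hb : (box (2 * D)).card = (4 * D + 1) ^ 2 := by
    rw [card_box]
    ring
  rw [← hb]
  refine le_trans ?_ (diffcard_count (Icc (min 0 (y i₁ - y i₀).1) (max 0 (y i₁ - y i₀).1))
    (diffs y n) (box (2 * D)) (fun x d b => x = d.1 + b.1) (fun x hx => ?_)
    fun x _ x' _ d b h h' => h.trans h'.symm)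
  · rw [Int.card_Icc]
    omega
  · rw [mem_Icc, Prod.fst_sub] at hx
    obtain ⟨c, hc, h⟩ : ∃ c, c < n ∧ |(y c).1 - ((y i₀).1 + x)| ≤ D := by
      rcases le_total i₀ i₁ with h | h
      · obtain ⟨m, rfl⟩ := Nat.exists_eq_add_of_le h
        exact diffcard_ivt hy i₀ _ m h₁ (by omega) (by omega)
      · obtain ⟨m, rfl⟩ := Nat.exists_eq_add_of_le h
        exact diffcard_ivt hy i₁ _ m h₀ (by omega) (by omega)
    refine ⟨_, mem_diffs.2 ⟨c, hc, i₀, h₀, rfl⟩, (x - (y c - y i₀).1, 0), ?_, by simp⟩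
    rw [abs_le] at h
    simp only [mem_box, Prod.fst_sub, abs_le]
    omega

/-- Two-dimensional lower bound.  Plan: `u = y i₁ - y i₀`, `u' = y j₁ - y j₀`, `ℓ = |u.1|`,
`Δ = |det u u'|`; trivial if `Δ = 0`.  WLOG `i₀ < i₁`, `j₀ < j₁` (swapping only changes signs;
both sides use `natAbs`).  Let `E = {z : 0 ≤ z.1 < ℓ, 0 ≤ det u z < Δ}`; it has at least
`ℓ (Δ/ℓ)` points (for each `x` the values `det u (x, t) = u.1 t - u.2 x` form a progression with
gap `ℓ`; e.g. an explicit injection `(x,k) ↦ (x, t₀ x ± k)`, `k < Δ/ℓ`).  By `cross` (paths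
`α i = y (i₀+i)`, `β j = y (j₀+j)`) every `e ∈ E` is `d + k u + k' u' - b` with `d ∈ diffs`,
`b ∈ box (2D)`; the map `e ↦ (d, b)` is injective on `E` (if `e - e' = k u + k' u'` then
`det u (e - e') = k' det u u'` forces `k' = 0`, then the first coordinate forces `k = 0`).
`card_box` gives `(4D+1)^2`. -/
theorem diff_card_two {y : ℕ → V} {n D : ℕ} (hy : IsPath y n D) {i₀ i₁ j₀ j₁ : ℕ} (h₀ : i₀ < n)
    (h₁ : i₁ < n) (h₂ : j₀ < n) (h₃ : j₁ < n) :
    (y i₁ - y i₀).1.natAbs * ((det (y i₁ - y i₀) (y j₁ - y j₀)).natAbs / (y i₁ - y i₀).1.natAbs)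
      ≤ (4 * D + 1) ^ 2 * (diffs y n).card := by
  have hb : (box (2 * D)).card = (4 * D + 1) ^ 2 := by
    rw [card_box]
    ring
  rw [← hb]
  by_cases hdet : det (y i₁ - y i₀) (y j₁ - y j₀) = 0
  · simp [hdet]
  have hc := diffcard_cross hy h₀ h₁ h₂ h₃ hdet
  generalize y i₁ - y i₀ = u at *
  generalize y j₁ - y j₀ = u' at *
  by_cases hu : u.1 = 0
  · simp [hu]
  have hℓ : (0 : ℤ) < |u.1| := abs_pos.2 hu
  have ht : ∀ x k : ℕ, ∃ t : ℤ, det u (x, t) = (-(u.2 * x)) % |u.1| + k * |u.1| := by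
    intro x k
    obtain ⟨t, ht⟩ : u.1 ∣ u.2 * x + (-(u.2 * x)) % |u.1| + k * |u.1| := by
      rw [← abs_dvd]
      refine dvd_add ?_ (dvd_mul_left _ _)
      have := Int.emod_add_mul_ediv (-(u.2 * x)) |u.1|
      exact ⟨-(-(u.2 * x) / |u.1|), by linear_combination this⟩
    exact ⟨t, by simp only [det]; linear_combination -ht⟩
  choose t ht using ht
  have hr : ∀ x k : ℕ, k < (det u u').natAbs / u.1.natAbs →
      0 ≤ det u (x, t x k) ∧ det u (x, t x k) < |det u u'| := by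
    intro x k hk
    have h1 := Int.emod_nonneg (-(u.2 * x)) hℓ.ne'
    have h2 := Int.emod_lt_of_pos (-(u.2 * x)) hℓ
    have h3 : (k + 1) * u.1.natAbs ≤ (det u u').natAbs :=
      (Nat.mul_le_mul_right _ hk).trans (Nat.div_mul_le_self _ _)
    zify at h3
    rw [ht]
    constructor
    · positivity
    · linarith
  refine le_trans ?_ (diffcard_count (range u.1.natAbs ×ˢ range ((det u u').natAbs / u.1.natAbs))
    (diffs y n) (box (2 * D))
    (fun x d b => ∃ k k' : ℤ, d + k • u + k' • u' - ((x.1 : ℤ), t x.1 x.2) = b) (fun x _ => ?_) ?_)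
  · rw [card_product, card_range, card_range]
  · obtain ⟨d, hd, k, k', h⟩ := hc ((x.1 : ℤ), t x.1 x.2)
    exact ⟨d, hd, _, h, k, k', rfl⟩
  · rintro ⟨x, k⟩ hx ⟨x', k'⟩ hx' d b ⟨a, c, h⟩ ⟨a', c', h'⟩
    simp only [mem_product, mem_range] at hx hx'
    have h1 := congrArg Prod.fst (h.trans h'.symm)
    have h2 := congrArg Prod.snd (h.trans h'.symm)
    simp only [Prod.fst_sub, Prod.fst_add, Prod.snd_sub, Prod.snd_add, Prod.smul_fst,
      Prod.smul_snd, smul_eq_mul] at h1 h2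
    have h3 := hr x k hx.2
    have h4 := hr x' k' hx'.2
    have h5 : (c - c') * det u u' = det u (x, t x k) - det u (x', t x' k') := by
      simp only [det]
      linear_combination u.1 * h2 - u.2 * h1
    have h6 : c - c' = 0 := diffcard_eq_zero (c := det u u') (by rw [h5, abs_lt]; omega)
    have h7 : (a - a') * u.1 = x - x' := by linear_combination h1 - u'.1 * h6
    have h8 : a - a' = 0 := diffcard_eq_zero (c := u.1) (by
      rw [h7, abs_lt, ← Int.natCast_natAbs]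
      omega)
    have h9 : x = x' := by
      rw [h8, zero_mul] at h7
      omega
    subst h9
    rw [h6, zero_mul, ht, ht] at h5
    have h10 : (k : ℤ) = k' := mul_right_cancel₀ hℓ.ne' (by linear_combination -h5)
    rw [Int.natCast_inj.1 h10]

end Crest.Agent.R002
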