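import Crest.Agent.R002.DiffCard
import Crest.Agent.R002.ApDense

set_option autoImplicit false

namespace Crest.Agent.R002

open Finset

theorem geom_core {y : ℕ → V} {n D : ℕ} (hy : IsPath y n D) (N ℓ : ℕ) (hN : 1 ≤ N)
    (hNℓ : N ^ 2 ≤ ℓ) {i₀ i₁ : ℕ} (h₀ : i₀ < n) (h₁ : i₁ < n) (hℓ : (y i₁ - y i₀).1.natAbs = ℓ)
    (hS : ∀ d ∈ diffs y n, d.1.natAbs ≤ ℓ ∧ d.2.natAbs ≤ ℓ) :
    ∃ c v : V, v ≠ 0 ∧ nrm v ≤ 5 * (N : ℤ) ^ 2 ∧
      N ≤ 100 * (4 * D + 1) ^ 2 *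
        ((range N).filter (fun t : ℕ => c + (t : ℤ) • v ∈ diffs y n)).card := by
  have hu : y i₁ - y i₀ ∈ diffs y n := mem_diffs.2 ⟨i₁, h₁, i₀, h₀, rfl⟩
  obtain ⟨d₀, hd₀, hmax⟩ :=
    exists_max_image (diffs y n) (fun d => (det (y i₁ - y i₀) d).natAbs) ⟨_, hu⟩
  obtain ⟨j₁, hj₁, j₀, hj₀, rfl⟩ := mem_diffs.1 hd₀
  obtain ⟨c, v, hv, hnv, hc⟩ := ap_dense (diffs y n) (y i₁ - y i₀) ℓ
    (det (y i₁ - y i₀) (y j₁ - y j₀)).natAbs N hℓ (hS _ hu).2 hN hNℓ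
    (fun d hd => ⟨(hS d hd).1, hmax d hd⟩)
  refine ⟨c, v, hv, hnv, ?_⟩
  have e1 := diff_card_one hy h₀ h₁
  have e2 := diff_card_two hy h₀ h₁ hj₀ hj₁
  rw [hℓ] at e1 e2
  have hpos : 0 < (diffs y n).card := card_pos.2 ⟨_, hu⟩
  generalize (det (y i₁ - y i₀) (y j₁ - y j₀)).natAbs / ℓ = m at hc e2
  generalize ((range N).filter (fun t : ℕ => c + (t : ℤ) • v ∈ diffs y n)).card = K at hc ⊢
  generalize (diffs y n).card = s at hc e1 e2 hpos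
  generalize (4 * D + 1) ^ 2 = W at e1 e2 ⊢
  have e3 : 5 * ℓ * (2 * m + 5) ≤ 100 * (W * s) := by
    have : 5 * ℓ * (2 * m + 5) = 10 * (ℓ * m) + 25 * ℓ := by ring
    omega
  refine Nat.le_of_mul_le_mul_right ?_ hpos
  calc N * s ≤ 5 * ℓ * (2 * m + 5) * K := hc
    _ ≤ 100 * (W * s) * K := Nat.mul_le_mul_right _ e3
    _ = 100 * W * K * s := by ring

theorem geom_swap_path {y : ℕ → V} {n D : ℕ} (hy : IsPath y n D) :
    IsPath (fun i => (y i).swap) n D := by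
  refine ⟨fun i hi j hj e => hy.inj i hi j hj (Prod.swap_injective e), fun i hi => ?_⟩
  have := hy.step i hi
  rw [mem_box] at this ⊢
  exact ⟨this.2, this.1⟩

theorem geom_swap_diffs {y : ℕ → V} {n : ℕ} {d : V} :
    d ∈ diffs (fun i => (y i).swap) n ↔ d.swap ∈ diffs y n := by
  simp only [mem_diffs]
  constructor
  · rintro ⟨a, ha, a', ha', rfl⟩
    exact ⟨a, ha, a', ha', rfl⟩
  · rintro ⟨a, ha, a', ha', h⟩
    refine ⟨a, ha, a', ha', ?_⟩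
    rw [← Prod.swap_swap d, ← h]
    rfl

/-- **Geometry lemma.**  Plan: let `ℓ` be the maximum of `max |d.1| |d.2|` over `diffs y n`.
All `y a - y 0` lie in `box ℓ`, so `n ≤ (2ℓ+1)^2` and `N^2 ≤ ℓ`.  First the case that the
maximum is `|u.1|`, `u = y i₁ - y i₀`: let `Δ` be the maximum of `|det u d|` over `diffs`
(attained at `y j₁ - y j₀`); `ap_dense` with `S = diffs y n`, and
`5ℓ(2(Δ/ℓ)+5) ≤ 35 ℓ max 1 (Δ/ℓ) ≤ 35 (4D+1)^2 |diffs|` by `diff_card_one/two`; cancel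
`|diffs| > 0`.  The other case: apply the first case to `Prod.swap ∘ y` and swap `c`, `v` back. -/
theorem geom {y : ℕ → V} {n D : ℕ} (hy : IsPath y n D) (N : ℕ) (hN : 1 ≤ N) (hn : 4 * N ^ 4 < n) :
    ∃ c v : V, v ≠ 0 ∧ nrm v ≤ 5 * (N : ℤ) ^ 2 ∧
      N ≤ 100 * (4 * D + 1) ^ 2 *
        ((range N).filter (fun t : ℕ => c + (t : ℤ) • v ∈ diffs y n)).card := by
  have hn0 : 0 < n := by omega
  obtain ⟨d₀, hd₀, hmax⟩ :=
    exists_max_image (diffs y n) (fun d => max d.1.natAbs d.2.natAbs)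
      ⟨_, mem_diffs.2 ⟨0, hn0, 0, hn0, rfl⟩⟩
  obtain ⟨i₁, h₁, i₀, h₀, rfl⟩ := mem_diffs.1 hd₀
  generalize hℓ : max (y i₁ - y i₀).1.natAbs (y i₁ - y i₀).2.natAbs = ℓ at hmax
  have hS : ∀ d ∈ diffs y n, d.1.natAbs ≤ ℓ ∧ d.2.natAbs ≤ ℓ := fun d hd =>
    max_le_iff.1 (hmax d hd)
  have hcard : n ≤ (2 * ℓ + 1) ^ 2 := by
    rw [← card_box, ← card_range n]
    refine card_le_card_of_injOn (fun a => y a - y 0) (fun a ha => ?_) (fun a ha b hb e => ?_)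
    · have := hS _ (mem_diffs.2 ⟨a, by simpa using ha, 0, hn0, rfl⟩)
      rw [mem_coe, mem_box, Int.abs_eq_natAbs, Int.abs_eq_natAbs]
      exact ⟨by exact_mod_cast this.1, by exact_mod_cast this.2⟩
    · exact hy.inj a (by simpa using ha) b (by simpa using hb) (sub_left_injective e)
  have hNℓ : N ^ 2 ≤ ℓ := by
    have h1 : (2 * N ^ 2) ^ 2 < (2 * ℓ + 1) ^ 2 := by
      calc (2 * N ^ 2) ^ 2 = 4 * N ^ 4 := by ring
        _ < _ := hn.trans_le hcard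
    have := lt_of_pow_lt_pow_left₀ 2 (Nat.zero_le _) h1
    omega
  rcases max_choice (y i₁ - y i₀).1.natAbs (y i₁ - y i₀).2.natAbs with h | h
  · exact geom_core hy N ℓ hN hNℓ h₀ h₁ (h.symm.trans hℓ) hS
  · obtain ⟨c, v, hv, hnv, hc⟩ := geom_core (geom_swap_path hy) N ℓ hN hNℓ h₀ h₁
      (h.symm.trans hℓ) (fun d hd => (hS _ (geom_swap_diffs.1 hd)).symm)
    refine ⟨c.swap, v.swap, fun e => hv (Prod.swap_injective e), ?_, ?_⟩
    · simpa [nrm, add_comm] using hnv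
    · simp only [geom_swap_diffs] at hc
      exact hc

end Crest.Agent.R002
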