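import Crest.Agent.R002.Basic

set_option autoImplicit false

namespace Crest.Agent.R002

open Finset

/-- **Initial level**: contiguous blocks of `L = ℓ^3` points.  Plan: `𝒞` = the images of
`range L` under the partial sums `k ↦ ∑ s < k, e s` of step sequences
`e ∈ Fintype.piFinset (fun _ : Fin L => box D)` (or `k ↦ ∑ s : Fin L with s < k, e s`), filtered by
`card = L ∧ ⊆ box (L D)`; `|𝒞| ≤ ((2D+1)^2)^L`.  Step and radius `L D`; `4ℓ³D + 1 ≤ exp ℓ`
eventually.  For `X, n` take a path of length `n L + 1`, base points `y (i L)` (`IsPath.comp`),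
labels `(range L).image (fun k => y (iL + k) - y (iL))`. -/
theorem level_init {D : ℕ} (h : Long D) :
    ∃ ℓ₀ : ℕ, ∀ ℓ : ℕ, ℓ₀ ≤ ℓ → Level ℓ (Real.log ((2 * D + 1) ^ 2)) := by
  refine ⟨24 * (4 * D + 1), fun ℓ hℓ => ?_⟩
  have hℓ1 : 1 ≤ ℓ := by omega
  have hexp : (4 * ((ℓ ^ 3 * D : ℕ) : ℝ) + 1) ≤ Real.exp ℓ := by
    refine le_trans ?_ (Real.pow_div_factorial_le_exp (ℓ : ℝ) (Nat.cast_nonneg ℓ) 4)
    have h1 : (24 * (4 * D + 1) : ℝ) ≤ ℓ := by exact_mod_cast hℓ
    have h2 : (1 : ℝ) ≤ (ℓ : ℝ) ^ 3 := one_le_pow₀ (by exact_mod_cast hℓ1)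
    have h3 := mul_le_mul_of_nonneg_right h1 (zero_le_one.trans h2)
    rw [le_div_iff₀ (by positivity)]
    norm_num [Nat.factorial]
    nlinarith
  have hL : 0 < ℓ ^ 3 := by positivity
  have hL' : ((ℓ ^ 3 : ℕ) : ℝ) = (ℓ : ℝ) ^ 3 := by push_cast; rfl
  unfold Level
  rw [← hL']
  generalize ℓ ^ 3 = L at *
  let sh : (Fin L → V) → Finset V := fun e =>
    (range L).image fun k => ∑ s ∈ range k, if h : s < L then e ⟨s, h⟩ else 0
  refine ⟨((Fintype.piFinset fun _ : Fin L => box D).image sh).filter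
    fun C => C.card = L ∧ C ⊆ box (L * D), L * D, L * D, hexp,
    le_trans (by linarith [Nat.cast_nonneg (α := ℝ) (L * D)]) hexp, ?_,
    fun C hC => (mem_filter.1 hC).2, fun X n => ?_⟩
  · rw [mul_comm (Real.log _), Real.exp_nat_mul, Real.exp_log (by positivity)]
    have := (card_filter_le _ fun C => C.card = L ∧ C ⊆ box (L * D)).trans
      (card_image_le (s := Fintype.piFinset fun _ : Fin L => box D) (f := sh))
    rw [Fintype.card_piFinset, prod_const, card_univ, Fintype.card_fin, card_box] at this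
    exact_mod_cast this
  obtain ⟨y, hy, hX⟩ := h X (n * L + 1)
  have hlt : ∀ a, a < n → ∀ k, k < L → a * L + k + 1 < n * L + 1 := fun a ha k hk => by
    have : (a + 1) * L ≤ n * L := Nat.mul_le_mul_right _ ha
    rw [add_mul] at this
    omega
  refine ⟨fun i => y (i * L), fun i => (range L).image fun k => y (i * L + k) - y (i * L),
    hy.comp (fun i => i * L) n L (fun i hi => by have := hlt i hi 0 hL; omega)
      (fun i _ j _ e => Nat.eq_of_mul_eq_mul_right hL e)
      (fun i _ => by rw [add_mul]; omega), fun a ha => ⟨mem_filter.2 ⟨mem_image.2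
        ⟨fun s => y (a * L + s + 1) - y (a * L + s),
          Fintype.mem_piFinset.2 fun s => hy.step _ (hlt a ha s s.2), ?_⟩, ?_, ?_⟩, ?_⟩, ?_⟩
  · refine image_congr fun k hk => ?_
    have hk' : k < L := mem_range.1 (mem_coe.1 hk)
    exact (sum_congr rfl fun s hs => dif_pos ((mem_range.1 hs).trans hk')).trans
      (sum_range_sub (fun s => y (a * L + s)) k)
  · rw [card_image_of_injOn, card_range]
    intro k hk k' hk' e
    have h1 := hlt a ha k (mem_range.1 (mem_coe.1 hk))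
    have h2 := hlt a ha k' (mem_range.1 (mem_coe.1 hk'))
    have := hy.inj _ (by omega) _ (by omega) (sub_left_injective e)
    omega
  · intro c hc
    obtain ⟨k, hk, rfl⟩ := mem_image.1 hc
    have h1 := hlt a ha k (mem_range.1 hk)
    exact box_mono (Nat.mul_le_mul_right _ (mem_range.1 hk).le) (hy.add_sub_mem _ k (by omega))
  · intro c hc
    obtain ⟨k, hk, rfl⟩ := mem_image.1 hc
    have h1 := hlt a ha k (mem_range.1 hk)
    rw [add_sub_cancel]
    exact hX _ (by omega)
  · intro a ha a' ha' c hc c' hc' e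
    obtain ⟨k, hk, rfl⟩ := mem_image.1 hc
    obtain ⟨k', hk', rfl⟩ := mem_image.1 hc'
    have h1 := hlt a ha k (mem_range.1 hk)
    have h2 := hlt a' ha' k' (mem_range.1 hk')
    rw [add_sub_cancel, add_sub_cancel] at e
    have h3 := congrArg (· / L) (hy.inj _ (by omega) _ (by omega) e)
    simp only [add_comm (_ * L), Nat.add_mul_div_right _ _ hL, Nat.div_eq_of_lt (mem_range.1 hk),
      Nat.div_eq_of_lt (mem_range.1 hk'), zero_add] at h3
    exact h3

theorem level_nonneg {ℓ : ℕ} {h : ℝ} (hℓ : 1 ≤ ℓ) (hL : Level ℓ h) : 0 ≤ h := by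
  obtain ⟨𝒞, D, R, -, -, h1, -, h2⟩ := hL
  obtain ⟨y, lab, -, h3, -⟩ := h2 0 1
  have h4 : (1 : ℝ) ≤ 𝒞.card := by exact_mod_cast card_pos.2 ⟨_, (h3 0 one_pos).1⟩
  exact nonneg_of_mul_nonneg_left (Real.one_le_exp_iff.1 (h4.trans h1)) (by positivity)

end Crest.Agent.R002
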