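import Crest.Agent.R002.U3

set_option autoImplicit false

namespace Crest.Agent.R002

open Finset

variable {ι : Type} [Fintype ι] [DecidableEq ι]

theorem lemmaw_mem_act {S : Sys ι} {rg : ι → ℕ} {ℓ j : ℕ} {A : St S} {i : ι} :
    i ∈ act S rg ℓ j A ↔ rg i = j ∧ S.q i ≤ ℓ * (A i).card := by
  simp [act]

theorem lemmaw_sum (S : Sys ι) (rg : ι → ℕ) (ℓ J : ℕ) (A : ℕ → St S) (G : ι → ℝ) :
    ∑ i, (if rg i < J ∧ i ∈ act S rg ℓ (rg i) (A (rg i)) then G i else 0) =
      ∑ j ∈ range J, ∑ i ∈ act S rg ℓ j (A j), G i := by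
  have e : ∀ j, ∑ i ∈ act S rg ℓ j (A j), G i =
      ∑ i, if i ∈ act S rg ℓ j (A j) then G i else 0 := fun j => by
    rw [sum_ite_mem, univ_inter]
  simp only [e]
  rw [sum_comm]
  refine sum_congr rfl fun i _ => ?_
  by_cases h : rg i < J
  · rw [sum_eq_single_of_mem (rg i) (mem_range.2 h) fun j _ hj =>
      if_neg fun h' => hj (lemmaw_mem_act.1 h').1.symm]
    simp only [h, true_and]
  · rw [if_neg fun h' => h h'.1]
    refine (sum_eq_zero fun j hj => if_neg fun h' => h ?_).symm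
    rw [(lemmaw_mem_act.1 h').1]
    exact mem_range.1 hj

omit [Fintype ι] [DecidableEq ι] in
theorem lemmaw_sum_dens (S : Sys ι) (A : St S) (i : ι) (h : 0 < (A i).card) :
    ∑ u, dens S A i u = S.q i := by
  have hc : ((A i).card : ℝ) ≠ 0 := by exact_mod_cast h.ne'
  rw [← Fintype.sum_equiv (Equiv.neg (ZMod (S.q i))) (fun u => dens S A i (-u)) _ fun _ => rfl]
  simp only [dens, neg_neg]
  rw [sum_ite_mem, univ_inter, sum_const, nsmul_eq_mul, mul_div_cancel₀ _ hc]

/-- **In a window of bad points some range is never stuck.**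

Plan.  Otherwise choose for each `j < J` a stuck state `A j` and for each `a < T` a point
`c j a ∈ box R` with `∑_{act} dens < (1/16 + η Δ_j (y a)) |act|`.  `act_j` is nonempty
(`|rng j| > 0` by `hP`).  Apply `lemmaU` with `w i = 1/(J |act_{rg i}|)` if `rg i < J` and
`i ∈ act (rg i) (A (rg i))`, else `0` (`∑ w = 1` by `sum_fiberwise`/`card`; `w ≤ 2/|rng| ≤ ω`),
`σ = 2Jℓ`, `F = ℓ`, `Ω₀ = Fin J → ↥(box R)`, `lab a = fun j => c j a`,
`f o i u = dens S (A (rg i)) i (u + ρ i (o (rg i) - y 0))` for active `i` and `1` otherwise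
(`∑ u, dens (u + d) = q i` since `|A i| > 0`; `dens ≤ q/|A| ≤ ℓ`).  At the point `a` it gives,
`1/8 < (1/J) ∑ j, (1/16 + η Δ_j) = 1/16 + (η/J)(log |𝒞| - log |adm J|) ≤ 1/8`
(telescoping `sum_range_sub'`, `adm_zero`). -/
theorem lemmaW (S : Sys ι) (rg : ι → ℕ) (𝒞 : Finset (Finset V)) (ℓ R D T J r : ℕ)
    (Λ ω η κ : ℝ) (hJ : 0 < J) (hℓ : 5 ≤ ℓ) (hΛ : ∀ i, Real.log (S.q i) ≤ Λ) (hΛ1 : 1 ≤ Λ)
    (hP : ∀ j, j < J → 2 ≤ ω * (rng rg j).card)
    (hR : (2 * R + 1 : ℝ) ≤ Real.exp ℓ) (hD : (4 * D + 1 : ℝ) ≤ Real.exp ℓ)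
    (hr : 48 * Λ < 2 ^ r)
    (hω : 200 * ω * (9 * ℓ * ((48000 * Λ) ^ r) ^ 2 * (2 * J * ℓ)) * Λ ≤ (1 / 48) ^ 2)
    (hT : Real.exp (22 * ℓ * ((48000 * Λ) ^ r) ^ 2 * (2 * J * ℓ)) ≤ T)
    (hη : 0 ≤ η) (hκ : 16 * η * κ ≤ J) {y : ℕ → V} (hy : IsPath y T D)
    (hbad : ∀ a, a < T → Real.log 𝒞.card - Real.log (adm S rg 𝒞 J (y a)).card ≤ κ) :
    ∃ j, j < J ∧ NeverStuck S rg 𝒞 ℓ R T η j y := by
  classical
  by_contra hcon
  have hst : ∀ j, j < J → ∃ A : St S, (rng rg j).card ≤ 2 * (act S rg ℓ j A).card ∧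
      ∀ a, a < T → ∃ c ∈ box R, ∑ i ∈ act S rg ℓ j A, dens S A i (S.ρ i (y a + c - y 0)) <
        (1 / 16 + η * (Real.log (adm S rg 𝒞 j (y a)).card -
          Real.log (adm S rg 𝒞 (j + 1) (y a)).card)) * (act S rg ℓ j A).card := by
    intro j hj
    by_contra h
    refine hcon ⟨j, hj, fun A hA => ?_⟩
    by_contra h'
    refine h ⟨A, hA, fun a ha => ?_⟩
    by_contra h''
    refine h' ⟨a, ha, fun c hc => ?_⟩
    by_contra h3
    exact h'' ⟨c, hc, not_le.1 h3⟩
  choose! A hA c hc hlt using hst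
  have hJ' : (1 : ℝ) ≤ J := by exact_mod_cast hJ
  have hℓ' : (5 : ℝ) ≤ ℓ := by exact_mod_cast hℓ
  have hω0 : 0 ≤ ω := by
    by_contra h
    have h1 := hP 0 hJ
    have h2 : ω * (rng rg 0).card ≤ 0 :=
      mul_nonpos_of_nonpos_of_nonneg (not_le.1 h).le (Nat.cast_nonneg _)
    linarith
  have hact : ∀ j, j < J → 1 ≤ ω * (act S rg ℓ j (A j)).card := by
    intro j hj
    have h1 := hP j hj
    have h2 : ((rng rg j).card : ℝ) ≤ 2 * (act S rg ℓ j (A j)).card := by exact_mod_cast hA j hj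
    nlinarith
  have hpos : ∀ j, j < J → (0 : ℝ) < (act S rg ℓ j (A j)).card := by
    intro j hj
    refine (Nat.cast_nonneg _).lt_of_ne fun h => ?_
    have := hact j hj
    rw [← h] at this
    linarith
  let w : ι → ℝ := fun i => if rg i < J ∧ i ∈ act S rg ℓ (rg i) (A (rg i)) then
    1 / (J * (act S rg ℓ (rg i) (A (rg i))).card) else 0
  let f : (Fin J → ↥(box R)) → ∀ i, ZMod (S.q i) → ℝ := fun o i u =>
    if h : rg i < J ∧ i ∈ act S rg ℓ (rg i) (A (rg i)) then
      dens S (A (rg i)) i (u + S.ρ i ((o ⟨rg i, h.1⟩ : V) - y 0)) else 1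
  let lab : ℕ → Fin J → ↥(box R) := fun a j =>
    if h : a < T then ⟨c j a, hc j j.2 a h⟩ else ⟨0, zero_mem_box R⟩
  have hw1 : ∑ i, w i = 1 := by
    rw [lemmaw_sum, sum_congr rfl (g := fun _ => (1 : ℝ) / J) fun j hj => ?_]
    · rw [sum_const, card_range, nsmul_eq_mul]
      field_simp
    · rw [sum_congr rfl (g := fun _ => (1 : ℝ) / (J * (act S rg ℓ j (A j)).card)) fun i hi => by
        rw [(lemmaw_mem_act.1 hi).1], sum_const, nsmul_eq_mul]
      have := hpos j (mem_range.1 hj)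
      field_simp
  have hw : Wt S w ω Λ := by
    refine ⟨fun i => ?_, hw1.le, fun i => ?_, hω0, hΛ⟩
    · simp only [w]
      split_ifs <;> positivity
    · simp only [w]
      split_ifs with h
      · have h1 := hact _ h.1
        have h2 := hpos _ h.1
        rw [div_le_iff₀ (by positivity)]
        nlinarith [mul_nonneg hω0 h2.le]
      · exact hω0
  have hAc : ∀ i j, i ∈ act S rg ℓ j (A j) → 0 < (A j i).card := by
    intro i j hi
    have h1 := (lemmaw_mem_act.1 hi).2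
    have h2 := (S.prime i).pos
    by_contra h
    rw [Nat.eq_zero_of_not_pos h] at h1
    omega
  have hσ : (ℓ : ℝ) ≤ 2 * J * ℓ := by nlinarith
  obtain ⟨a, ha, hgain⟩ := lemmaU S hw hw1 hΛ1 r hr (σ := 2 * J * ℓ) (by nlinarith) ℓ (by omega)
    hω hy (hD.trans (Real.exp_le_exp.2 hσ)) hT (Ω₀ := Fin J → ↥(box R)) (by
      rw [Fintype.card_fun, Fintype.card_coe, Fintype.card_fin, card_box, ← pow_mul,
        show 2 * (J : ℝ) * ℓ = ((2 * J : ℕ) : ℝ) * ℓ by push_cast; ring, Real.exp_nat_mul]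
      push_cast
      exact pow_le_pow_left₀ (by positivity) hR _) lab f
    (fun o i u => by
      simp only [f, dens]
      split_ifs <;> positivity)
    (fun o i u => by
      simp only [f, dens]
      split_ifs with h h'
      · have h1 : (0 : ℝ) < (A (rg i) i).card := by exact_mod_cast hAc i _ h.2
        rw [div_le_iff₀ h1]
        exact_mod_cast (lemmaw_mem_act.1 h.2).2
      · positivity
      · linarith)
    (fun o i => by
      simp only [f]
      split_ifs with h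
      · rw [sum_shift, lemmaw_sum_dens S _ i (hAc i _ h.2)]
      · simp [ZMod.card])
  have e1 : ∑ i, w i * f (lab a) i (S.ρ i (y a)) =
      ∑ j ∈ range J, (∑ i ∈ act S rg ℓ j (A j), dens S (A j) i (S.ρ i (y a + c j a - y 0))) /
        (J * (act S rg ℓ j (A j)).card) := by
    rw [sum_congr rfl (g := fun i => if rg i < J ∧ i ∈ act S rg ℓ (rg i) (A (rg i)) then
      dens S (A (rg i)) i (S.ρ i (y a + c (rg i) a - y 0)) /
        (J * (act S rg ℓ (rg i) (A (rg i))).card) else 0) fun i _ => ?_, lemmaw_sum]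
    · refine sum_congr rfl fun j _ => ?_
      rw [sum_div]
      refine sum_congr rfl fun i hi => ?_
      rw [(lemmaw_mem_act.1 hi).1]
    · simp only [w, f, lab]
      split_ifs with h
      · rw [← map_add, add_sub_assoc]
        ring
      · simp
  have e2 : ∑ j ∈ range J,
      (∑ i ∈ act S rg ℓ j (A j), dens S (A j) i (S.ρ i (y a + c j a - y 0))) /
        (J * (act S rg ℓ j (A j)).card) ≤
      ∑ j ∈ range J, (1 / 16 + η * (Real.log (adm S rg 𝒞 j (y a)).card -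
          Real.log (adm S rg 𝒞 (j + 1) (y a)).card)) / J := by
    refine sum_le_sum fun j hj => ?_
    have h1 := hpos j (mem_range.1 hj)
    rw [mul_comm (J : ℝ), ← div_div]
    refine div_le_div_of_nonneg_right ?_ (Nat.cast_nonneg _)
    rw [div_le_iff₀ h1]
    exact (hlt j (mem_range.1 hj) a ha).le
  rw [← sum_div, sum_add_distrib, ← mul_sum,
    sum_range_sub' (fun j => Real.log (adm S rg 𝒞 j (y a)).card), adm_zero, sum_const, card_range,
    nsmul_eq_mul, ← e1, le_div_iff₀ (by linarith)] at e2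
  have h1 := mul_le_mul_of_nonneg_left (hbad a ha) hη
  nlinarith

end Crest.Agent.R002
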