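import Crest.Agent.R002.Basic
import Crest.Agent.Lib.PNT.Basic

set_option autoImplicit false

namespace Crest.Agent.R002

open Finset

/-- **Primes `≡ 1 mod 4` in dyadic intervals.**  Plan: `Crest.Agent.Lib.PNT.tendsto_residueClass_div`
(`q = 4`, `a = 1`, limit `1/2`) gives `∑_{H < k ≤ 2H, k ≡ 1} Λ(k) ≥ 0.45 H` eventually; the proper
prime powers contribute at most `ψ(2H) - θ(2H) = o(H)` (`tendsto_psi_div`, `tendsto_theta_div`);
each prime contributes at most `log (2H) ≤ 1.1 log H`. -/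
theorem primes_count : ∃ H₀ : ℕ, ∀ H : ℕ, H₀ ≤ H → (H : ℝ) ≤ 4 * Real.log H *
    ((Finset.Ioc H (2 * H)).filter (fun p => p.Prime ∧ p % 4 = 1)).card := by
  classical
  open Filter Topology ArithmeticFunction ArithmeticFunction.vonMangoldt in
  have h2 : Tendsto (fun n : ℕ => ((2 * n : ℕ) : ℝ)) atTop atTop :=
    tendsto_natCast_atTop_atTop.comp (tendsto_id.const_mul_atTop' two_pos)
  have hF := Lib.PNT.tendsto_residueClass_div (q := 4) (a := 1) isUnit_one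
  have ht : ((Nat.totient 4 : ℕ) : ℝ)⁻¹ = 1 / 2 := by
    rw [show Nat.totient 4 = 2 by decide]; norm_num
  rw [ht] at hF
  have lim := (((hF.comp h2).const_mul 2).sub (hF.comp tendsto_natCast_atTop_atTop)).sub
    (((Lib.PNT.tendsto_psi_div.comp h2).sub (Lib.PNT.tendsto_theta_div.comp h2)).const_mul 2)
  have ev := lim.eventually (lt_mem_nhds (show (2 / 5 : ℝ) < 2 * (1 / 2) - 1 / 2 - 2 * (1 - 1) by
    norm_num))
  obtain ⟨H₀, hH₀⟩ := Filter.eventually_atTop.1 (ev.and (Filter.eventually_ge_atTop 4))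
  refine ⟨H₀, fun H hH => ?_⟩
  obtain ⟨h, h4⟩ := hH₀ H hH
  simp only [Function.comp, Nat.floor_natCast] at h
  have hH4 : (4 : ℝ) ≤ H := by exact_mod_cast h4
  have hH0 : (0 : ℝ) < H := by linarith
  set F : ℕ → ℝ := fun k => ArithmeticFunction.vonMangoldt.residueClass (1 : ZMod 4) k with hFdef
  have hsplit : ∑ k ∈ Icc 1 (2 * H), F k = ∑ k ∈ Icc 1 H, F k + ∑ k ∈ Ioc H (2 * H), F k := by
    have e : ∀ n, Icc 1 n = Ioc 0 n := fun n => rfl
    rw [e, e, sum_Ioc_consecutive _ (Nat.zero_le _) (by omega)]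
  have hnp := Chebyshev.psi_sub_theta_eq_sum_not_prime ((2 * H : ℕ) : ℝ)
  rw [Nat.floor_natCast] at hnp
  have hle : ∑ k ∈ Ioc H (2 * H), F k ≤
      ((Finset.Ioc H (2 * H)).filter (fun p => p.Prime ∧ p % 4 = 1)).card * Real.log (2 * H) +
        ∑ n ∈ Ioc 0 (2 * H) with ¬n.Prime, ArithmeticFunction.vonMangoldt n := by
    rw [← sum_filter_add_sum_filter_not (Ioc H (2 * H)) Nat.Prime]
    refine add_le_add ?_ ?_
    · rw [← nsmul_eq_mul, ← sum_const, sum_filter, sum_filter]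
      refine sum_le_sum fun k hk => ?_
      by_cases hp : k.Prime
      · by_cases h1 : k % 4 = 1
        · rw [if_pos hp, if_pos ⟨hp, h1⟩]
          refine (ArithmeticFunction.vonMangoldt.residueClass_le _ _).trans ?_
          rw [ArithmeticFunction.vonMangoldt_apply_prime hp]
          refine Real.log_le_log (by exact_mod_cast hp.pos) ?_
          exact_mod_cast (mem_Ioc.1 hk).2
        · rw [if_pos hp, if_neg fun h => h1 h.2]
          refine le_of_eq (Set.indicator_of_notMem (fun h => h1 ?_) _)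
          exact (ZMod.natCast_eq_natCast_iff' k 1 4).1 (by simpa using h)
      · rw [if_neg hp, if_neg fun h => hp h.1]
    · refine (sum_le_sum fun k _ => ArithmeticFunction.vonMangoldt.residueClass_le _ k).trans ?_
      exact sum_le_sum_of_subset_of_nonneg
        (filter_subset_filter _ (Ioc_subset_Ioc_left (Nat.zero_le _)))
        fun _ _ _ => ArithmeticFunction.vonMangoldt_nonneg
  have hlog : Real.log (2 * H) ≤ 3 / 2 * Real.log H := by
    rw [Real.log_mul (by norm_num) hH0.ne']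
    have : Real.log 4 ≤ Real.log H := Real.log_le_log (by norm_num) hH4
    rw [show (4 : ℝ) = 2 ^ 2 by norm_num, Real.log_pow] at this
    push_cast at this
    linarith
  have hl0 : 0 ≤ Real.log H := Real.log_nonneg (by linarith)
  rw [← hnp] at hle
  rw [hsplit] at h
  generalize (((Finset.Ioc H (2 * H)).filter (fun p => p.Prime ∧ p % 4 = 1)).card) = N at hle ⊢
  have hN : (0 : ℝ) ≤ N := Nat.cast_nonneg N
  generalize Chebyshev.psi _ = a at h hle
  generalize Chebyshev.theta _ = b at h hle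
  push_cast at h
  have e : 2 * ((∑ k ∈ Icc 1 H, F k + ∑ k ∈ Ioc H (2 * H), F k) / (2 * H)) -
      (∑ k ∈ Icc 1 H, F k) / H - 2 * (a / (2 * H) - b / (2 * H)) =
      (∑ k ∈ Ioc H (2 * H), F k - (a - b)) / H := by field_simp; ring
  rw [e, lt_div_iff₀ hH0] at h
  have := mul_le_mul_of_nonneg_left hlog hN
  have := mul_nonneg hN hl0
  nlinarith

/-- The ranges `(H₀ ρ^j, 2 H₀ ρ^j]`, `j < J`.  Plan: `P = (range J).biUnion ..`; the intervals are
disjoint as `ρ ≥ 2`; `rg p` = the unique index (choice); `card_bij`/`card_subtype`. -/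
theorem ranges_exist (H₀ ρ J : ℕ) (hH : 0 < H₀) (hρ : 2 ≤ ρ) :
    ∃ (P : Finset ℕ) (_ : ∀ p ∈ P, p.Prime ∧ p % 4 = 1) (rg : P → ℕ),
      (∀ p : P, rg p < J ∧ H₀ * ρ ^ rg p < p.1 ∧ p.1 ≤ 2 * (H₀ * ρ ^ rg p)) ∧
      ∀ j, j < J → (rng rg j).card = ((Finset.Ioc (H₀ * ρ ^ j) (2 * (H₀ * ρ ^ j))).filter
        (fun p => p.Prime ∧ p % 4 = 1)).card := by
  classical
  have hmono : ∀ i j, i < j → 2 * (H₀ * ρ ^ i) ≤ H₀ * ρ ^ j := fun i j hij => by
    have h1 : ρ ^ (i + 1) ≤ ρ ^ j := Nat.pow_le_pow_right (by omega) hij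
    have h2 : ρ ^ i * 2 ≤ ρ ^ i * ρ := Nat.mul_le_mul_left _ hρ
    rw [pow_succ] at h1
    calc 2 * (H₀ * ρ ^ i) = H₀ * (ρ ^ i * 2) := by ring
      _ ≤ H₀ * ρ ^ j := Nat.mul_le_mul_left _ (h2.trans h1)
  have huniq : ∀ p i j, H₀ * ρ ^ i < p → p ≤ 2 * (H₀ * ρ ^ i) → H₀ * ρ ^ j < p →
      p ≤ 2 * (H₀ * ρ ^ j) → i = j := fun p i j a b c d => by
    rcases lt_trichotomy i j with h | h | h
    · have := hmono i j h; omega
    · exact h
    · have := hmono j i h; omega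
  set I : ℕ → Finset ℕ := fun j => (Finset.Ioc (H₀ * ρ ^ j) (2 * (H₀ * ρ ^ j))).filter
    (fun p => p.Prime ∧ p % 4 = 1) with hI
  have ex : ∀ p : (range J).biUnion I, ∃ j, j < J ∧ p.1 ∈ I j := fun p => by
    obtain ⟨j, h1, h2⟩ := mem_biUnion.1 p.2
    exact ⟨j, mem_range.1 h1, h2⟩
  choose rg h1 h2 using ex
  refine ⟨(range J).biUnion I, fun p hp => ?_, rg,
    fun p => ⟨h1 p, mem_Ioc.1 (mem_filter.1 (h2 p)).1⟩, fun j hj => ?_⟩
  · obtain ⟨j, -, h⟩ := mem_biUnion.1 hp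
    exact (mem_filter.1 h).2
  · refine card_bij (fun p _ => p.1) (fun p hp => ?_) (fun p _ q _ e => Subtype.ext e)
      fun p hp => ?_
    · have := h2 p
      rwa [(mem_filter.1 hp).2] at this
    · refine ⟨⟨p, mem_biUnion.2 ⟨j, mem_range.2 hj, hp⟩⟩, mem_filter.2 ⟨mem_univ _, ?_⟩, rfl⟩
      have a := mem_Ioc.1 (mem_filter.1 (h2 ⟨p, mem_biUnion.2 ⟨j, mem_range.2 hj, hp⟩⟩)).1
      have b := mem_Ioc.1 (mem_filter.1 hp).1
      exact huniq p _ _ a.1 a.2 b.1 b.2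

/-- The cost of Lemma U is subpolynomial.  Plan: `x = log ℓ → ∞`, `r` minimal with
`384 x < 2^r` (e.g. `r = Nat.log 2 ⌈384x⌉₊ + 1`, `2^r ≤ 800 x`, `r ≤ 2 log (800 x)`), so the left
side is `≤ exp (log C + 3 log (8x) + 4 (log (384000 x))²)` and `(log x)² = o(x)`
(`Real.isLittleO_pow_log_id_atTop`). -/
theorem subpoly (C : ℝ) : ∃ ℓ₀ : ℕ, ∀ ℓ : ℕ, ℓ₀ ≤ ℓ → ∃ r : ℕ, 48 * (8 * Real.log ℓ) < 2 ^ r ∧
    C * (8 * Real.log ℓ) ^ 3 * ((48000 * (8 * Real.log ℓ)) ^ r) ^ 2 ≤ ℓ := by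
  open Filter in
  have hx : Tendsto (fun ℓ : ℕ => Real.log ℓ) atTop atTop :=
    Real.tendsto_log_atTop.comp tendsto_natCast_atTop_atTop
  have hc : (0 : ℝ) < 1 / ((|C| + 7) * 384000) := by positivity
  have ev := (hx.const_mul_atTop (show (0 : ℝ) < 384000 by norm_num)).eventually
    ((Real.isLittleO_pow_log_id_atTop (n := 2)).def hc)
  obtain ⟨ℓ₀, h₀⟩ := Filter.eventually_atTop.1
    ((ev.and (hx.eventually_ge_atTop 1)).and (Filter.eventually_gt_atTop 0))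
  refine ⟨ℓ₀, fun ℓ hℓ => ?_⟩
  obtain ⟨⟨h1, h2⟩, h3⟩ := h₀ ℓ hℓ
  have hℓ0 : (0 : ℝ) < ℓ := by exact_mod_cast h3
  rw [← Real.exp_log hℓ0, Real.log_exp]
  generalize Real.log ℓ = x at h1 h2
  set y := Real.log (384000 * x) with hy
  have hy1 : 1 ≤ y := by
    rw [hy, Real.le_log_iff_exp_le (by positivity)]
    linarith [Real.exp_one_lt_d9]
  simp only [id, Real.norm_eq_abs] at h1
  rw [abs_of_nonneg (sq_nonneg y), abs_of_nonneg (show 0 ≤ 384000 * x by positivity)] at h1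
  have h4 : (|C| + 7) * y ^ 2 ≤ x := by
    have := mul_le_mul_of_nonneg_left h1 (show 0 ≤ |C| + 7 by positivity)
    refine this.trans (le_of_eq ?_)
    field_simp
  have hn : ⌈384 * x⌉₊ ≠ 0 := (Nat.ceil_pos.2 (by positivity)).ne'
  have r1 : ((⌈384 * x⌉₊ : ℕ) : ℝ) < 2 ^ (Nat.log 2 ⌈384 * x⌉₊ + 1) := by
    exact_mod_cast Nat.lt_pow_succ_log_self one_lt_two _
  have r2 : (2 : ℝ) ^ (Nat.log 2 ⌈384 * x⌉₊) ≤ ((⌈384 * x⌉₊ : ℕ) : ℝ) := by
    exact_mod_cast Nat.pow_log_le_self 2 hn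
  have r3 := Nat.le_ceil (384 * x)
  have r4 := Nat.ceil_lt_add_one (show 0 ≤ 384 * x by positivity)
  refine ⟨Nat.log 2 ⌈384 * x⌉₊ + 1, by linarith, ?_⟩
  have r5 : (2 : ℝ) ^ (Nat.log 2 ⌈384 * x⌉₊ + 1) ≤ 384000 * x := by rw [pow_succ]; linarith
  generalize Nat.log 2 ⌈384 * x⌉₊ + 1 = r at r5
  have r6 : (r : ℝ) ≤ 2 * y := by
    have := Real.log_le_log (by positivity) r5
    rw [Real.log_pow, ← hy] at this
    have h5 := Real.log_two_gt_d9
    have h6 : (0 : ℝ) ≤ r := Nat.cast_nonneg r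
    nlinarith
  have e : 384000 * x = Real.exp y := (Real.exp_log (by positivity)).symm
  have a1 : C ≤ Real.exp |C| := (le_abs_self C).trans (by linarith [Real.add_one_le_exp |C|])
  have a2 : (8 * x) ^ 3 ≤ Real.exp (3 * y) := by
    rw [show 3 * y = (3 : ℕ) * y by norm_num, Real.exp_nat_mul, ← e]
    gcongr; norm_num
  have a3 : ((48000 * (8 * x)) ^ r) ^ 2 ≤ Real.exp (4 * y ^ 2) := by
    rw [show 48000 * (8 * x) = 384000 * x by ring, e, ← pow_mul, ← Real.exp_nat_mul]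
    refine Real.exp_le_exp.2 ?_
    push_cast
    nlinarith
  calc C * (8 * x) ^ 3 * ((48000 * (8 * x)) ^ r) ^ 2
      ≤ Real.exp |C| * Real.exp (3 * y) * Real.exp (4 * y ^ 2) := by gcongr
    _ ≤ Real.exp x := by
      rw [← Real.exp_add, ← Real.exp_add]
      refine Real.exp_le_exp.2 ?_
      have : 1 ≤ y ^ 2 := by nlinarith
      nlinarith [abs_nonneg C]

end Crest.Agent.R002
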