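import Crest.Agent.R002.Num1
import Crest.Agent.R002.Primes

set_option autoImplicit false

namespace Crest.Agent.R002

open Finset

/-- **The parameters exist.**  Plan: `ℓ₀` = max of `5`, `H₀` (`primes_count`) and the `ℓ₀` of
`subpoly (10^8 KK²)`; `ranges_exist (ℓ^6) (20 KK) (JJ ℓ)`; `H j = HH ℓ j`, `σ = sg ℓ`, `M = MM ℓ`,
`Qm = QQ ℓ`, `nn = NN ℓ`, `η = eta ℓ`, `ω = om ℓ`, `T = TT ℓ r`.  Key: for `j < JJ`,
`HH ≤ 4 log HH |rng j| ≤ 4 Λ |rng j|` (`HH ≤ ℓ^7`); this gives `hω1`, `hP` (`3072 Λ ≤ ℓ`), `hω3`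
(`KK_eq`).  `hΛ`: `q ≤ 2ℓ^7 ≤ ℓ^8`.  `hQd`: `q ≤ 2 HH (rg i) ≤ 2 HH j / (20 KK)` and a prime
`≤ n` divides `primorial n`.  The rest is `Num0`, `Num1`, `Nat.le_ceil`. -/
theorem par_exists : ∃ ℓ₀ : ℕ, ∀ ℓ : ℕ, ℓ₀ ≤ ℓ →
    ∃ (P : Finset ℕ) (hP : ∀ p ∈ P, p.Prime ∧ p % 4 = 1) (rg : P → ℕ) (J r T : ℕ) (H σ : ℕ → ℝ)
      (M Qm nn : ℕ → ℕ) (η ω : ℝ), Par (sysOf P hP) rg ℓ J r T H σ M Qm nn η ω cc := by
  obtain ⟨H₀, hH₀⟩ := primes_count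
  obtain ⟨ℓ₁, hℓ₁⟩ := subpoly (10 ^ 8 * (KK : ℝ) ^ 2)
  refine ⟨max 5 (max H₀ ℓ₁), fun ℓ hℓ => ?_⟩
  have h5 : 5 ≤ ℓ := (le_max_left _ _).trans hℓ
  have hH : H₀ ≤ ℓ := ((le_max_left _ _).trans (le_max_right _ _)).trans hℓ
  obtain ⟨r, hr, hbig⟩ := hℓ₁ ℓ (((le_max_right _ _).trans (le_max_right _ _)).trans hℓ)
  have hB : Big ℓ r := ⟨h5, hbig⟩
  have hK := KK_ge
  have hKr : (1000 : ℝ) ≤ KK := by exact_mod_cast hK
  have hl0 : 0 < ℓ := by omega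
  have hl0r : (0 : ℝ) < ℓ := by exact_mod_cast hl0
  obtain ⟨P, hP, rg, hrg, hcard⟩ := ranges_exist (ℓ ^ 6) (20 * KK) (JJ ℓ) (by positivity) (by omega)
  have hΛ := one_le_Lam h5
  have hHpos : ∀ j, 0 < HH ℓ j := fun j => lt_of_lt_of_le (by positivity) (le_HH ℓ j)
  have hH6 : ∀ j, (ℓ : ℝ) ^ 6 ≤ HH ℓ j := fun j => by exact_mod_cast le_HH ℓ j
  have key : ∀ j, j < JJ ℓ → (HH ℓ j : ℝ) ≤ 4 * (8 * Real.log ℓ) * (rng rg j).card := by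
    intro j hj
    have h1 := hH₀ (HH ℓ j) (hH.trans ((Nat.le_self_pow (by norm_num) ℓ).trans (le_HH ℓ j)))
    rw [hcard j hj]
    refine h1.trans (mul_le_mul_of_nonneg_right ?_ (Nat.cast_nonneg _))
    have h2 : (HH ℓ j : ℝ) ≤ (ℓ : ℝ) ^ 7 := by exact_mod_cast HH_le h5 hj
    have h3 := Real.log_le_log (by exact_mod_cast hHpos j) h2
    rw [Real.log_pow] at h3
    push_cast at h3
    linarith
  have h3072 : 3072 * (8 * Real.log ℓ) ≤ ℓ := by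
    refine le_trans ?_ hbig
    have a1 : (1 : ℝ) ≤ ((48000 * (8 * Real.log ℓ)) ^ r) ^ 2 :=
      one_le_pow₀ (one_le_pow₀ (by linarith))
    have a2 : 8 * Real.log ℓ ≤ (8 * Real.log ℓ) ^ 3 := le_self_pow₀ (by linarith) (by norm_num)
    have a3 : (3072 : ℝ) ≤ 10 ^ 8 * (KK : ℝ) ^ 2 := by nlinarith
    calc 3072 * (8 * Real.log ℓ) ≤ 10 ^ 8 * (KK : ℝ) ^ 2 * (8 * Real.log ℓ) ^ 3 :=
          mul_le_mul a3 a2 (by linarith) (by positivity)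
      _ ≤ _ := le_mul_of_one_le_right (mul_nonneg (by positivity) (by linarith)) a1
  refine ⟨P, hP, rg, JJ ℓ, r, TT ℓ r, fun j => HH ℓ j, sg ℓ, MM ℓ, QQ ℓ, NN ℓ, eta ℓ, om ℓ,
    { hℓ := h5
      hJ := Nat.succ_pos _
      hΛ := fun i => ?_
      hr := hr
      hω1 := fun j hj => ?_
      hω2 := num_hω2 hB
      hT := Nat.le_ceil _
      hη := ?_
      hκ := num_hκ h5
      hH := fun j _ => by exact_mod_cast hHpos j
      hq := fun i _ => ?_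
      hP := fun j hj => ?_
      hM := fun j _ => num_hM h5 j
      hQ0 := fun j _ => primorial_pos _
      hQd := fun j _ i hi => ?_
      hσ1 := fun j _ => num_hσ1 hB j
      hσ2 := fun j _ => num_hσ2 hB j
      hD := fun j _ => num_hD hB j
      hb := fun j _ => num_hb hB j
      hω3 := fun j hj => ?_
      hn := fun j _ => Nat.le_ceil _
      hG := num_hG hB
      hcost := num_hcost hB }⟩
  · obtain ⟨a1, -, a3⟩ := hrg i
    have a4 : i.1 ≤ ℓ ^ 8 := by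
      have := HH_le h5 a1
      unfold HH at this
      calc i.1 ≤ 2 * ℓ ^ 7 := by omega
        _ ≤ ℓ * ℓ ^ 7 := Nat.mul_le_mul_right _ (by omega)
        _ = ℓ ^ 8 := by ring
    have a5 : (i.1 : ℝ) ≤ (ℓ : ℝ) ^ 8 := by exact_mod_cast a4
    have a6 := Real.log_le_log (by exact_mod_cast (hP i.1 i.2).1.pos) a5
    rw [Real.log_pow] at a6
    exact_mod_cast a6
  · have a1 := (hH6 j).trans (key j hj)
    unfold om
    rw [div_mul_eq_mul_div, le_div_iff₀ (by positivity)]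
    linarith
  · unfold eta
    have : 0 < 8 * Real.log ℓ := by linarith
    positivity
  · obtain ⟨-, a2, a3⟩ := hrg i
    constructor
    · show ((HH ℓ (rg i) : ℕ) : ℝ) ≤ ((i.1 : ℕ) : ℝ)
      exact_mod_cast a2.le
    · show ((i.1 : ℕ) : ℝ) ≤ 2 * ((HH ℓ (rg i) : ℕ) : ℝ)
      exact_mod_cast a3
  · have a1 := (hH6 j).trans (key j hj)
    have a2 : (ℓ : ℝ) ^ 5 * (3072 * (8 * Real.log ℓ)) ≤ (ℓ : ℝ) ^ 5 * ℓ :=
      mul_le_mul_of_nonneg_left h3072 (by positivity)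
    have a3 : 768 * (ℓ : ℝ) ^ 2 * (ℓ : ℝ) ^ 3 * (4 * (8 * Real.log ℓ)) ≤
        (rng rg j).card * (4 * (8 * Real.log ℓ)) := by
      calc _ = (ℓ : ℝ) ^ 5 * (3072 * (8 * Real.log ℓ)) := by ring
        _ ≤ (ℓ : ℝ) ^ 5 * ℓ := a2
        _ = (ℓ : ℝ) ^ 6 := by ring
        _ ≤ _ := a1
        _ = _ := by ring
    exact_mod_cast le_of_mul_le_mul_right a3 (by linarith)
  · obtain ⟨-, -, a3⟩ := hrg i
    refine (hP i.1 i.2).1.dvd_primorial_iff.mpr ?_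
    show i.1 ≤ 2 * HH ℓ j / (20 * KK)
    rw [Nat.le_div_iff_mul_le (by omega)]
    have a4 : (20 * KK) ^ (rg i + 1) ≤ (20 * KK) ^ j := Nat.pow_le_pow_right (by omega) hi
    calc i.1 * (20 * KK) ≤ 2 * (ℓ ^ 6 * (20 * KK) ^ rg i) * (20 * KK) := Nat.mul_le_mul_right _ a3
      _ = 2 * (ℓ ^ 6 * (20 * KK) ^ (rg i + 1)) := by ring
      _ ≤ 2 * HH ℓ j := Nat.mul_le_mul_left _ (Nat.mul_le_mul_left _ a4)
  · have a1 := key j hj
    have e : 204800 * 32000 ^ 6 * sg ℓ j = HH ℓ j / 4 := by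
      unfold sg
      rw [KK_eq]
      field_simp
      ring
    rw [e]
    linarith

end Crest.Agent.R002
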