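import Crest.Agent.R002.Stage
import Crest.Agent.R002.ParExists
import Crest.Agent.R002.Init

set_option autoImplicit false

namespace Crest.Agent.R002

open Finset

/-- No arbitrarily long surviving paths. -/
theorem not_long (D : ℕ) : ¬ Long D := by
  intro h
  obtain ⟨ℓ₀, h₀⟩ := par_exists
  obtain ⟨ℓ₁, h₁⟩ := level_init h
  have key : ∀ s : ℕ, ∃ ℓ, max ℓ₀ 1 ≤ ℓ ∧ Level ℓ (Real.log ((2 * D + 1) ^ 2) - s * cc) := by
    intro s
    induction s with
    | zero =>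
      refine ⟨max (max ℓ₀ 1) ℓ₁, le_max_left _ _, ?_⟩
      rw [Nat.cast_zero, zero_mul, sub_zero]
      exact h₁ _ (le_max_right _ _)
    | succ s ih =>
      obtain ⟨ℓ, hℓ, hL⟩ := ih
      obtain ⟨P, hP, rg, J, r, T, H, σ, M, Qm, nn, η, ω, hp⟩ := h₀ ℓ (le_of_max_le_left hℓ)
      refine ⟨ℓ ^ 9, hℓ.trans (Nat.le_self_pow (by norm_num) ℓ), ?_⟩
      have := stage_of_par hp hL
      convert this using 1
      push_cast
      ring
  obtain ⟨s, hs⟩ := exists_nat_gt (Real.log ((2 * D + 1) ^ 2) / cc)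
  obtain ⟨ℓ, hℓ, hL⟩ := key s
  have := level_nonneg (le_of_max_le_right hℓ) hL
  rw [div_lt_iff₀ cc_pos] at hs
  linarith

end Crest.Agent.R002
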