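import Crest.Agent.R002.Basic

set_option autoImplicit false

namespace Crest.Agent.R002

open Finset

/-! Concrete parameters of a stage.  `Λ = 8 log ℓ`, `B = (48000 Λ)^r`, `ρ = 20 KK`. -/

/-- The constant `K`; use only `KK_eq`, `KK_ge` (never unfold). -/
irreducible_def KK : ℕ := 819200 * 32000 ^ 6

theorem KK_eq : (KK : ℝ) = 819200 * 32000 ^ 6 := by rw [KK_def]; norm_num

theorem KK_ge : 1000 ≤ KK := by rw [KK_def]; norm_num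

def JJ (ℓ : ℕ) : ℕ := Nat.log (20 * KK) ℓ + 1

def HH (ℓ j : ℕ) : ℕ := ℓ ^ 6 * (20 * KK) ^ j

noncomputable def cc : ℝ := 1 / (3072 * KK * Real.log (20 * KK))

noncomputable def sg (ℓ j : ℕ) : ℝ := HH ℓ j / KK

noncomputable def MM (ℓ j : ℕ) : ℕ :=
  ⌊128 * (HH ℓ j : ℝ) * (8 * Real.log ℓ) / (ℓ : ℝ) ^ 3⌋₊ + 1

def QQ (ℓ j : ℕ) : ℕ := primorial (2 * HH ℓ j / (20 * KK))

noncomputable def NN (ℓ j : ℕ) : ℕ := ⌈Real.exp (2 * 32000 ^ 6 * sg ℓ j)⌉₊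

noncomputable def eta (ℓ : ℕ) : ℝ := 12 * KK * (8 * Real.log ℓ) / (ℓ : ℝ) ^ 3

noncomputable def om (ℓ : ℕ) : ℝ := 8 * (8 * Real.log ℓ) / (ℓ : ℝ) ^ 6

noncomputable def TT (ℓ r : ℕ) : ℕ :=
  ⌈Real.exp (22 * ℓ * ((48000 * (8 * Real.log ℓ)) ^ r) ^ 2 * (2 * JJ ℓ * ℓ))⌉₊

/-- `ℓ` is large compared with the cost of Lemma U. -/
def Big (ℓ r : ℕ) : Prop :=
  5 ≤ ℓ ∧ 10 ^ 8 * (KK : ℝ) ^ 2 * (8 * Real.log ℓ) ^ 3 * ((48000 * (8 * Real.log ℓ)) ^ r) ^ 2 ≤ ℓ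

theorem num0_KK : (1000 : ℝ) ≤ KK := by exact_mod_cast KK_ge

theorem num0_log : 1 ≤ Real.log (20 * KK) := by
  have := num0_KK
  rw [Real.le_log_iff_exp_le (by linarith)]
  linarith [Real.exp_one_lt_d9]

theorem num0_ceil_exp {x : ℝ} (hx : 0 ≤ x) : (⌈Real.exp x⌉₊ : ℝ) ≤ Real.exp (x + 1) := by
  have h1 := Nat.ceil_lt_add_one (Real.exp_pos x).le
  have h2 := Real.one_le_exp hx
  have h3 := Real.exp_one_gt_d9
  rw [Real.exp_add]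
  nlinarith

theorem cc_pos : 0 < cc := by
  have h1 := num0_KK
  have h2 := num0_log
  unfold cc
  positivity

/-- `log 5 > 3/2`. -/
theorem one_le_Lam {ℓ : ℕ} (hℓ : 5 ≤ ℓ) : 12 ≤ 8 * Real.log ℓ := by
  have h1 : Real.log 5 ≤ Real.log ℓ := Real.log_le_log (by norm_num) (by exact_mod_cast hℓ)
  have h2 : Real.log 5 = 2 * Real.log 2 + Real.log (5 / 4) := by
    rw [show (5 : ℝ) = 2 ^ 2 * (5 / 4) by norm_num, Real.log_mul (by norm_num) (by norm_num),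
      Real.log_pow]
    norm_num
  have h3 := Real.one_sub_inv_le_log_of_pos (show (0 : ℝ) < 5 / 4 by norm_num)
  have h4 := Real.log_two_gt_d9
  norm_num at h3
  linarith

/-- `Nat.log (20 KK) ℓ ≤ Nat.log 2 ℓ ≤ log ℓ / log 2`. -/
theorem JJ_le {ℓ : ℕ} (hℓ : 5 ≤ ℓ) : (JJ ℓ : ℝ) ≤ 8 * Real.log ℓ := by
  have h1 : (20 * KK) ^ Nat.log (20 * KK) ℓ ≤ ℓ := Nat.pow_log_le_self _ (by omega)
  have h2 : ((20 : ℝ) * KK) ^ Nat.log (20 * KK) ℓ ≤ ℓ := by exact_mod_cast h1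
  have hK := num0_KK
  have h3 := Real.log_le_log (by positivity) h2
  rw [Real.log_pow] at h3
  have h4 := one_le_Lam hℓ
  have h5 := mul_le_mul_of_nonneg_left num0_log (Nat.cast_nonneg (Nat.log (20 * KK) ℓ))
  unfold JJ
  push_cast
  linarith

/-- `ℓ < (20 KK)^JJ` (`Nat.lt_pow_succ_log_self`). -/
theorem log_le_JJ {ℓ : ℕ} (hℓ : 5 ≤ ℓ) : Real.log ℓ ≤ JJ ℓ * Real.log (20 * KK) := by
  have hK := KK_ge
  have h1 : ℓ < (20 * KK) ^ (Nat.log (20 * KK) ℓ + 1) := Nat.lt_pow_succ_log_self (by omega) _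
  have h2 : (ℓ : ℝ) ≤ ((20 : ℝ) * KK) ^ JJ ℓ := by exact_mod_cast h1.le
  have h3 := Real.log_le_log (by exact_mod_cast (show 0 < ℓ by omega)) h2
  rwa [Real.log_pow] at h3

/-- `(20 KK)^j ≤ ℓ` (`Nat.pow_log_le_self`). -/
theorem HH_le {ℓ j : ℕ} (hℓ : 5 ≤ ℓ) (hj : j < JJ ℓ) : HH ℓ j ≤ ℓ ^ 7 := by
  have hK := KK_ge
  have h1 : (20 * KK) ^ Nat.log (20 * KK) ℓ ≤ ℓ := Nat.pow_log_le_self _ (by omega)
  have h2 : (20 * KK) ^ j ≤ ℓ :=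
    (Nat.pow_le_pow_right (by omega) (by unfold JJ at hj; omega)).trans h1
  unfold HH
  rw [pow_succ ℓ 6]
  exact Nat.mul_le_mul_left _ h2

theorem le_HH (ℓ j : ℕ) : ℓ ^ 6 ≤ HH ℓ j := by
  have hK := KK_ge
  exact Nat.le_mul_of_pos_right _ (Nat.pow_pos (by omega))

theorem one_le_TT (ℓ r : ℕ) : 1 ≤ TT ℓ r := by
  exact Nat.ceil_pos.2 (Real.exp_pos _)

/-- `⌈exp x⌉ ≤ exp (x + 1)`, and `1 ≤ J B² ℓ²`. -/
theorem log_TT_le {ℓ : ℕ} (r : ℕ) (hℓ : 5 ≤ ℓ) : Real.log (TT ℓ r) ≤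
    45 * JJ ℓ * ((48000 * (8 * Real.log ℓ)) ^ r) ^ 2 * (ℓ : ℝ) ^ 2 := by
  have h1 := one_le_Lam hℓ
  have h2 : (1 : ℝ) ≤ ((48000 * (8 * Real.log ℓ)) ^ r) ^ 2 :=
    one_le_pow₀ (one_le_pow₀ (by linarith))
  have h3 : (1 : ℝ) ≤ JJ ℓ := by
    unfold JJ
    exact_mod_cast Nat.le_add_left 1 _
  have h4 : (1 : ℝ) ≤ (ℓ : ℝ) ^ 2 := one_le_pow₀ (by exact_mod_cast (show 1 ≤ ℓ by omega))
  have h5 : (0 : ℝ) < TT ℓ r := by exact_mod_cast one_le_TT ℓ r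
  rw [Real.log_le_iff_le_exp h5]
  unfold TT
  generalize ((48000 * (8 * Real.log ℓ)) ^ r) ^ 2 = B at h2
  refine (num0_ceil_exp (by positivity)).trans (Real.exp_le_exp.2 ?_)
  have h6 : (1 : ℝ) ≤ JJ ℓ * B * (ℓ : ℝ) ^ 2 := one_le_mul_of_one_le_of_one_le
    (one_le_mul_of_one_le_of_one_le h3 h2) h4
  nlinarith

/-- Induction: `NN ℓ j ≤ exp (HH/409600) + 1 ≤ exp HH`, `HH ℓ (j+1) = 20 KK * HH ℓ j`. -/
theorem gg_le {ℓ : ℕ} (hℓ : 5 ≤ ℓ) (j : ℕ) :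
    (gg (NN ℓ) j : ℝ) ≤ Real.exp (2 * HH ℓ j / (20 * KK)) := by
  have hK := num0_KK
  induction j with
  | zero =>
    simp only [gg, Nat.cast_one]
    exact Real.one_le_exp (by positivity)
  | succ j ih =>
    have h1 : (15625 : ℝ) ≤ HH ℓ j := by
      have := (Nat.pow_le_pow_left hℓ 6).trans (le_HH ℓ j)
      exact_mod_cast this
    have h2 : 2 * 32000 ^ 6 * sg ℓ j = HH ℓ j / 409600 := by
      rw [sg, KK_eq]
      ring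
    have h3 : (NN ℓ j : ℝ) ≤ Real.exp (HH ℓ j / 409600 + 1) := by
      rw [NN, h2]
      exact num0_ceil_exp (by positivity)
    have h4 : 2 * (HH ℓ (j + 1) : ℝ) / (20 * KK) = 2 * HH ℓ j := by
      unfold HH
      push_cast
      field_simp
      ring
    have h5 : 2 * (HH ℓ j : ℝ) / (20 * KK) ≤ HH ℓ j / 2 := by
      rw [div_le_div_iff₀ (by positivity) (by norm_num)]
      nlinarith
    rw [gg, Nat.cast_mul, h4]
    refine (mul_le_mul ih h3 (Nat.cast_nonneg _) (Real.exp_pos _).le).trans ?_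
    rw [← Real.exp_add]
    exact Real.exp_le_exp.2 (by linarith)

/-- `primorial_le_4_pow`, `log 4 ≤ 1.4`. -/
theorem log_QQ_le (ℓ j : ℕ) : Real.log (QQ ℓ j) ≤ 1.4 * (2 * HH ℓ j / (20 * KK)) := by
  have h1 : (QQ ℓ j : ℝ) ≤ 4 ^ (2 * HH ℓ j / (20 * KK)) := by
    exact_mod_cast primorial_le_four_pow _
  have h0 : (0 : ℝ) < QQ ℓ j := by exact_mod_cast primorial_pos _
  have h2 := Real.log_le_log h0 h1
  rw [Real.log_pow] at h2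
  have h3 : ((2 * HH ℓ j / (20 * KK) : ℕ) : ℝ) ≤ 2 * HH ℓ j / (20 * KK) := by
    have := Nat.cast_div_le (α := ℝ) (m := 2 * HH ℓ j) (n := 20 * KK)
    push_cast at this
    exact this
  have h4 : Real.log 4 ≤ 1.4 := by
    rw [show (4 : ℝ) = 2 ^ 2 by norm_num, Real.log_pow]
    have := Real.log_two_lt_d9
    push_cast
    linarith
  refine h2.trans ?_
  rw [mul_comm]
  exact mul_le_mul h4 h3 (Nat.cast_nonneg _) (by norm_num)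

end Crest.Agent.R002
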