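import Crest.Agent.R002.Num0

set_option autoImplicit false

namespace Crest.Agent.R002

open Finset

lemma num1_K : (1000 : ℝ) ≤ KK := by exact_mod_cast KK_ge

lemma num1_J (ℓ : ℕ) : (1 : ℝ) ≤ JJ ℓ := by
  have : 1 ≤ JJ ℓ := Nat.le_add_left 1 _
  exact_mod_cast this

lemma num1_B {ℓ : ℕ} (r : ℕ) (hℓ : 5 ≤ ℓ) :
    (1 : ℝ) ≤ ((48000 * (8 * Real.log ℓ)) ^ r) ^ 2 := by
  have := one_le_Lam hℓ
  exact one_le_pow₀ (one_le_pow₀ (by linarith))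

lemma num1_real {K Λ B J x : ℝ} (hK : 1000 ≤ K) (hΛ : 12 ≤ Λ) (hB : 1 ≤ B) (hJ1 : 1 ≤ J)
    (hJ : J ≤ Λ) (h : 10 ^ 8 * K ^ 2 * Λ ^ 3 * B ≤ x) :
    10 ^ 8 * (Λ ^ 2 * J * B) ≤ x ∧ 10 ^ 8 * (J * B) ≤ x ∧ 10 ^ 8 * K ≤ x ∧
      10 ^ 8 * (K * Λ) ≤ x ∧ 10 ^ 8 * (K * Λ * J * B) ≤ x ∧ 10 ^ 8 * (K ^ 2 * J * B) ≤ x := by
  have hK1 : (1 : ℝ) ≤ K := by linarith
  have hΛ1 : (1 : ℝ) ≤ Λ := by linarith
  have e : 10 ^ 8 * K ^ 2 * Λ ^ 3 * B = 10 ^ 8 * (K * K * Λ * Λ * Λ * B) := by ring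
  rw [e] at h
  refine ⟨le_trans ?_ h, le_trans ?_ h, le_trans ?_ h, le_trans ?_ h, le_trans ?_ h,
    le_trans ?_ h⟩
  · calc 10 ^ 8 * (Λ ^ 2 * J * B) = 10 ^ 8 * (1 * 1 * Λ * Λ * J * B) := by ring
      _ ≤ _ := by gcongr
  · calc 10 ^ 8 * (J * B) = 10 ^ 8 * (1 * 1 * 1 * 1 * J * B) := by ring
      _ ≤ _ := by gcongr
  · calc 10 ^ 8 * K = 10 ^ 8 * (K * 1 * 1 * 1 * 1 * 1) := by ring
      _ ≤ _ := by gcongr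
  · calc 10 ^ 8 * (K * Λ) = 10 ^ 8 * (K * 1 * Λ * 1 * 1 * 1) := by ring
      _ ≤ _ := by gcongr
  · calc 10 ^ 8 * (K * Λ * J * B) = 10 ^ 8 * (K * 1 * Λ * 1 * J * B) := by ring
      _ ≤ _ := by gcongr
  · calc 10 ^ 8 * (K ^ 2 * J * B) = 10 ^ 8 * (K * K * 1 * 1 * J * B) := by ring
      _ ≤ _ := by gcongr

lemma num1_pack {ℓ r : ℕ} (h : Big ℓ r) :
    10 ^ 8 * ((8 * Real.log ℓ) ^ 2 * JJ ℓ * ((48000 * (8 * Real.log ℓ)) ^ r) ^ 2) ≤ (ℓ : ℝ) ∧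
      10 ^ 8 * (JJ ℓ * ((48000 * (8 * Real.log ℓ)) ^ r) ^ 2) ≤ (ℓ : ℝ) ∧
      10 ^ 8 * (KK : ℝ) ≤ (ℓ : ℝ) ∧ 10 ^ 8 * (KK * (8 * Real.log ℓ)) ≤ (ℓ : ℝ) ∧
      10 ^ 8 * (KK * (8 * Real.log ℓ) * JJ ℓ * ((48000 * (8 * Real.log ℓ)) ^ r) ^ 2) ≤ (ℓ : ℝ) ∧
      10 ^ 8 * ((KK : ℝ) ^ 2 * JJ ℓ * ((48000 * (8 * Real.log ℓ)) ^ r) ^ 2) ≤ (ℓ : ℝ) :=
  num1_real num1_K (one_le_Lam h.1) (num1_B r h.1) (num1_J ℓ) (JJ_le h.1) h.2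

lemma num1_H (ℓ j : ℕ) : (ℓ : ℝ) ^ 6 ≤ HH ℓ j := by exact_mod_cast le_HH ℓ j

lemma num1_H1 {ℓ : ℕ} (hℓ : 5 ≤ ℓ) (j : ℕ) : (ℓ : ℝ) ≤ HH ℓ j := by
  have hx : (5 : ℝ) ≤ ℓ := by exact_mod_cast hℓ
  refine le_trans ?_ (num1_H ℓ j)
  exact le_self_pow₀ (by linarith) (by norm_num)

lemma num1_rest {ℓ r : ℕ} (h : Big ℓ r) :
    4 * (ℓ : ℝ) ^ 24 * TT ℓ r * Real.exp ℓ ≤ Real.exp ((ℓ : ℝ) ^ 3) := by
  have hx : (5 : ℝ) ≤ ℓ := by exact_mod_cast h.1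
  obtain ⟨-, h2, h3, -⟩ := num1_pack h
  have hK := num1_K
  have hT := log_TT_le r h.1
  have hT1 : (1 : ℝ) ≤ TT ℓ r := by exact_mod_cast one_le_TT ℓ r
  set B := ((48000 * (8 * Real.log ℓ)) ^ r) ^ 2
  set x := (ℓ : ℝ)
  have e4 : (4 : ℝ) ≤ Real.exp 3 := by linarith [Real.add_one_le_exp 3]
  have ex : x ^ 24 ≤ Real.exp (24 * x) := by
    have : x ≤ Real.exp x := by linarith [Real.add_one_le_exp x]
    calc x ^ 24 ≤ (Real.exp x) ^ 24 := by gcongr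
      _ = Real.exp (24 * x) := by rw [← Real.exp_nat_mul]; norm_num
  have eT : (TT ℓ r : ℝ) = Real.exp (Real.log (TT ℓ r)) := (Real.exp_log (by linarith)).symm
  have h5 : 45 * (JJ ℓ : ℝ) * B * x ^ 2 ≤ x ^ 3 / 2 := by
    have : 45 * (JJ ℓ : ℝ) * B ≤ x / 2 := by linarith
    calc 45 * (JJ ℓ : ℝ) * B * x ^ 2 ≤ x / 2 * x ^ 2 := by gcongr
      _ = x ^ 3 / 2 := by ring
  have h6 : 3 + 25 * x ≤ x ^ 3 / 2 := by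
    have : 100 ≤ x := by linarith
    have h7 : 100 * 100 * x ≤ x * x * x := by gcongr
    nlinarith
  calc 4 * x ^ 24 * TT ℓ r * Real.exp x
      ≤ Real.exp 3 * Real.exp (24 * x) * Real.exp (Real.log (TT ℓ r)) * Real.exp x := by
        rw [← eT]; gcongr
    _ = Real.exp (3 + 24 * x + Real.log (TT ℓ r) + x) := by simp only [Real.exp_add]
    _ ≤ _ := by
        apply Real.exp_le_exp.2
        linarith

lemma num1_HJ {ℓ : ℕ} (hℓ : 5 ≤ ℓ) : 2 * (HH ℓ (JJ ℓ) : ℝ) / (20 * KK) ≤ 2 * (ℓ : ℝ) ^ 7 := by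
  have hK := num1_K
  have h1 : HH ℓ (JJ ℓ) = HH ℓ (Nat.log (20 * KK) ℓ) * (20 * KK) := by
    simp only [HH, JJ, pow_succ, mul_assoc]
  have h2 : HH ℓ (Nat.log (20 * KK) ℓ) ≤ ℓ ^ 7 := HH_le hℓ (Nat.lt_succ_self _)
  have h3 : (HH ℓ (Nat.log (20 * KK) ℓ) : ℝ) ≤ (ℓ : ℝ) ^ 7 := by exact_mod_cast h2
  rw [h1, div_le_iff₀ (by positivity)]
  push_cast
  nlinarith

/-- `28800 Λ² J B² / ℓ⁴ ≤ 1/2304` since `J ≤ Λ`, `10^8 Λ³ B² ≤ ℓ ≤ ℓ⁴`. -/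
theorem num_hω2 {ℓ r : ℕ} (h : Big ℓ r) :
    200 * om ℓ * (9 * ℓ * ((48000 * (8 * Real.log ℓ)) ^ r) ^ 2 * (2 * JJ ℓ * ℓ)) *
      (8 * Real.log ℓ) ≤ (1 / 48) ^ 2 := by
  have hx : (5 : ℝ) ≤ ℓ := by exact_mod_cast h.1
  obtain ⟨h1, -⟩ := num1_pack h
  unfold om
  set B := ((48000 * (8 * Real.log ℓ)) ^ r) ^ 2
  set Λ := 8 * Real.log ℓ
  set x := (ℓ : ℝ)
  have e : 200 * (8 * Λ / x ^ 6) * (9 * x * B * (2 * JJ ℓ * x)) * Λ =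
      28800 * (Λ ^ 2 * JJ ℓ * B) / x ^ 4 := by
    field_simp
    ring
  rw [e, div_le_iff₀ (by positivity)]
  have h2 : x ≤ x ^ 4 := le_self_pow₀ (by linarith) (by norm_num)
  nlinarith

/-- The left side equals `log ℓ / log (20 KK)`. -/
theorem num_hκ {ℓ : ℕ} (hℓ : 5 ≤ ℓ) : 16 * eta ℓ * (2 * cc * (ℓ : ℝ) ^ 3) ≤ JJ ℓ := by
  have hx : (5 : ℝ) ≤ ℓ := by exact_mod_cast hℓ
  have hK := num1_K
  have hl : 0 < Real.log (20 * KK) := Real.log_pos (by linarith)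
  have e : 16 * eta ℓ * (2 * cc * (ℓ : ℝ) ^ 3) = Real.log ℓ / Real.log (20 * KK) := by
    unfold eta cc
    field_simp
    ring
  rw [e, div_le_iff₀ hl]
  exact log_le_JJ hℓ

theorem num_hM {ℓ : ℕ} (hℓ : 5 ≤ ℓ) (j : ℕ) :
    128 * (HH ℓ j : ℝ) * (8 * Real.log ℓ) < MM ℓ j * (ℓ : ℝ) ^ 3 := by
  have hx : (5 : ℝ) ≤ ℓ := by exact_mod_cast hℓ
  rw [← div_lt_iff₀ (by positivity)]
  unfold MM
  push_cast
  exact Nat.lt_floor_add_one _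

theorem num_hσ1 {ℓ r : ℕ} (h : Big ℓ r) (j : ℕ) : 10 ≤ sg ℓ j := by
  have hK := num1_K
  obtain ⟨-, -, h3, -⟩ := num1_pack h
  have h4 := num1_H1 h.1 j
  unfold sg
  rw [le_div_iff₀ (by linarith)]
  linarith

theorem num_hσ2 {ℓ r : ℕ} (h : Big ℓ r) (j : ℕ) : 8 * Real.log ℓ / 32 ≤ sg ℓ j := by
  have hK := num1_K
  have hΛ := one_le_Lam h.1
  obtain ⟨-, -, -, h3, -⟩ := num1_pack h
  have h4 := num1_H1 h.1 j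
  unfold sg
  rw [le_div_iff₀ (by linarith)]
  have : 0 ≤ KK * (8 * Real.log ℓ) := by positivity
  nlinarith

/-- `gg ≤ exp (σ/10)`; `4 ℓ^24 T exp ℓ ≤ exp (2 + 25ℓ + 45 J B² ℓ²) ≤ exp (ℓ³)`,
`ℓ³ ≤ ℓ⁶/(2K) ≤ σ/2`. -/
theorem num_hD {ℓ r : ℕ} (h : Big ℓ r) (j : ℕ) :
    4 * (gg (NN ℓ) j : ℝ) * (ℓ : ℝ) ^ 24 * TT ℓ r * Real.exp ℓ ≤ Real.exp (sg ℓ j) := by
  have hx : (5 : ℝ) ≤ ℓ := by exact_mod_cast h.1
  have hK := num1_K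
  obtain ⟨-, -, h3, -⟩ := num1_pack h
  have h1 := gg_le h.1 j
  have h2 := num1_rest h
  have h4 := num1_H ℓ j
  have e : 2 * (HH ℓ j : ℝ) / (20 * KK) = sg ℓ j / 10 := by
    unfold sg
    field_simp
    ring
  rw [e] at h1
  have h5 : 2 * (ℓ : ℝ) ^ 3 ≤ sg ℓ j := by
    unfold sg
    rw [le_div_iff₀ (by linarith)]
    refine le_trans ?_ h4
    have h6 : 2 * (KK : ℝ) ≤ (ℓ : ℝ) ^ 3 :=
      le_trans (by linarith) (le_self_pow₀ (by linarith) (by norm_num))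
    calc 2 * (ℓ : ℝ) ^ 3 * KK = (ℓ : ℝ) ^ 3 * (2 * KK) := by ring
      _ ≤ (ℓ : ℝ) ^ 3 * (ℓ : ℝ) ^ 3 := by gcongr
      _ = _ := by ring
  have h7 : 0 ≤ (ℓ : ℝ) ^ 3 := by positivity
  calc 4 * (gg (NN ℓ) j : ℝ) * (ℓ : ℝ) ^ 24 * TT ℓ r * Real.exp ℓ
      = gg (NN ℓ) j * (4 * (ℓ : ℝ) ^ 24 * TT ℓ r * Real.exp ℓ) := by ring
    _ ≤ Real.exp (sg ℓ j / 10) * Real.exp ((ℓ : ℝ) ^ 3) := by gcongr
    _ = Real.exp (sg ℓ j / 10 + (ℓ : ℝ) ^ 3) := (Real.exp_add _ _).symm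
    _ ≤ _ := by
      apply Real.exp_le_exp.2
      linarith

/-- Three terms, each at most `σ/3`: `0.28 σ`; `MM ≤ 129 HΛ/ℓ³` times `100 J B² ℓ²` with
`38700 K Λ² B² ≤ ℓ`; the last one equals `σ/3`. -/
theorem num_hb {ℓ r : ℕ} (h : Big ℓ r) (j : ℕ) :
    2 * Real.log (QQ ℓ j) + MM ℓ j * (Real.log 2 + 2 * Real.log (TT ℓ r) + 2 * ℓ) +
      4 * (HH ℓ j : ℝ) * (8 * Real.log ℓ) / ((ℓ : ℝ) ^ 3 * eta ℓ) ≤ sg ℓ j := by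
  have hx : (5 : ℝ) ≤ ℓ := by exact_mod_cast h.1
  have hK := num1_K
  have hΛ := one_le_Lam h.1
  have hB := num1_B r h.1
  have hJ := num1_J ℓ
  obtain ⟨-, -, -, -, h3, -⟩ := num1_pack h
  have hT := log_TT_le r h.1
  have hT1 : (1 : ℝ) ≤ TT ℓ r := by exact_mod_cast one_le_TT ℓ r
  have hT0 : 0 ≤ Real.log (TT ℓ r) := Real.log_nonneg hT1
  have hQ := log_QQ_le ℓ j
  have h4 := num1_H ℓ j
  have hM : (MM ℓ j : ℝ) ≤ 128 * (HH ℓ j : ℝ) * (8 * Real.log ℓ) / (ℓ : ℝ) ^ 3 + 1 := by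
    unfold MM
    push_cast
    gcongr
    exact Nat.floor_le (by positivity)
  unfold sg eta
  set B := ((48000 * (8 * Real.log ℓ)) ^ r) ^ 2
  set Λ := 8 * Real.log ℓ
  set x := (ℓ : ℝ)
  set H := (HH ℓ j : ℝ)
  set K := (KK : ℝ)
  set J := (JJ ℓ : ℝ)
  have hH : 0 ≤ H := le_trans (by positivity) h4
  have e1 : 1.4 * (2 * H / (20 * K)) = 0.14 * (H / K) := by
    field_simp
    ring
  have e3 : 4 * H * Λ / (x ^ 3 * (12 * K * Λ / x ^ 3)) = (H / K) / 3 := by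
    field_simp
    ring
  have h5 : 1 ≤ H * Λ / x ^ 3 := by
    rw [le_div_iff₀ (by positivity), one_mul]
    have : x ^ 3 ≤ x ^ 6 := pow_le_pow_right₀ (by linarith) (by norm_num)
    nlinarith
  have hM' : (MM ℓ j : ℝ) ≤ 129 * (H * Λ / x ^ 3) := by
    have : 128 * H * Λ / x ^ 3 = 128 * (H * Λ / x ^ 3) := by ring
    linarith
  have hl2 : Real.log 2 ≤ 1 := by linarith [Real.log_le_sub_one_of_pos (by norm_num : (0 : ℝ) < 2)]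
  have hl0 : 0 ≤ Real.log 2 := Real.log_nonneg (by norm_num)
  have hJB : 1 ≤ J * B := by nlinarith
  have h6 : Real.log 2 + 2 * Real.log (TT ℓ r) + 2 * x ≤ 100 * (J * B) * x ^ 2 := by
    have h7 : 1 * x ^ 2 ≤ J * B * x ^ 2 := by gcongr
    nlinarith
  have h8 : (MM ℓ j : ℝ) * (Real.log 2 + 2 * Real.log (TT ℓ r) + 2 * x) ≤ (H / K) / 3 := by
    calc (MM ℓ j : ℝ) * (Real.log 2 + 2 * Real.log (TT ℓ r) + 2 * x)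
        ≤ 129 * (H * Λ / x ^ 3) * (100 * (J * B) * x ^ 2) := by gcongr
      _ = (H / K) / 3 * (38700 * (K * Λ * J * B) / x) := by
        field_simp
        ring
      _ ≤ (H / K) / 3 * 1 := by
        gcongr
        rw [div_le_one (by positivity)]
        have : 0 ≤ K * Λ * J * B := by positivity
        linarith
      _ = _ := mul_one _
  rw [e1] at hQ
  rw [e3]
  have : 0 ≤ H / K := by positivity
  linarith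

/-- `HH ℓ JJ / (20 KK) = HH ℓ (JJ - 1) ≤ ℓ^7`, so `gg ≤ exp (2ℓ^7)`; the rest is `≤ exp (ℓ³)`. -/
theorem num_hG {ℓ r : ℕ} (h : Big ℓ r) :
    2 * ((gg (NN ℓ) (JJ ℓ) : ℝ) * (ℓ : ℝ) ^ 24 * TT ℓ r) * Real.exp ℓ ≤
      Real.exp ((ℓ : ℝ) ^ 9) := by
  have hx : (5 : ℝ) ≤ ℓ := by exact_mod_cast h.1
  have h1 := (gg_le h.1 (JJ ℓ)).trans (Real.exp_le_exp.2 (num1_HJ h.1))
  have h2 := num1_rest h
  have h3 : 2 * (ℓ : ℝ) ^ 24 * TT ℓ r * Real.exp ℓ ≤ Real.exp ((ℓ : ℝ) ^ 3) := by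
    refine le_trans ?_ h2
    gcongr
    norm_num
  have h4 : (ℓ : ℝ) ^ 3 ≤ (ℓ : ℝ) ^ 7 := pow_le_pow_right₀ (by linarith) (by norm_num)
  have h5 : 3 * (ℓ : ℝ) ^ 7 ≤ (ℓ : ℝ) ^ 9 := by
    have : (3 : ℝ) ≤ (ℓ : ℝ) ^ 2 := by nlinarith
    calc 3 * (ℓ : ℝ) ^ 7 ≤ (ℓ : ℝ) ^ 2 * (ℓ : ℝ) ^ 7 := by gcongr
      _ = _ := by ring
  calc 2 * ((gg (NN ℓ) (JJ ℓ) : ℝ) * (ℓ : ℝ) ^ 24 * TT ℓ r) * Real.exp ℓ
      = gg (NN ℓ) (JJ ℓ) * (2 * (ℓ : ℝ) ^ 24 * TT ℓ r * Real.exp ℓ) := by ring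
    _ ≤ Real.exp (2 * (ℓ : ℝ) ^ 7) * Real.exp ((ℓ : ℝ) ^ 3) := by gcongr
    _ = Real.exp (2 * (ℓ : ℝ) ^ 7 + (ℓ : ℝ) ^ 3) := (Real.exp_add _ _).symm
    _ ≤ _ := by
      apply Real.exp_le_exp.2
      linarith

/-- `1/cc ≤ 61440 K²` (`log x ≤ x`), so `cc ℓ ≥ 1600 Λ³ B² ≥ 1600 J B²`;
`2 log QQ ≤ 6 ℓ^7`, `2 (24 log ℓ + log T + ℓ) ≤ 140 J B² ℓ²`. -/
theorem num_hcost {ℓ r : ℕ} (h : Big ℓ r) :
    2 * Real.log (QQ ℓ (JJ ℓ)) +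
      (ℓ : ℝ) ^ 24 * (2 * (Real.log ((ℓ : ℝ) ^ 24 * TT ℓ r) + ℓ)) ≤ cc * (ℓ : ℝ) ^ 27 := by
  have hx : (5 : ℝ) ≤ ℓ := by exact_mod_cast h.1
  have hK := num1_K
  have hB := num1_B r h.1
  have hJ := num1_J ℓ
  obtain ⟨-, -, -, -, -, h3⟩ := num1_pack h
  have hT := log_TT_le r h.1
  have hT1 : (1 : ℝ) ≤ TT ℓ r := by exact_mod_cast one_le_TT ℓ r
  have hQ := log_QQ_le ℓ (JJ ℓ)
  have hH := num1_HJ h.1
  have hl : 0 < Real.log (20 * KK) := Real.log_pos (by linarith)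
  have hl2 : Real.log (20 * KK) ≤ 20 * KK := by
    linarith [Real.log_le_sub_one_of_pos (by linarith : (0 : ℝ) < 20 * KK)]
  have hc : 1 / (3072 * KK * (20 * KK)) ≤ cc := by
    unfold cc
    gcongr
  have hlog : Real.log ((ℓ : ℝ) ^ 24 * TT ℓ r) = 24 * Real.log ℓ + Real.log (TT ℓ r) := by
    rw [Real.log_mul (by positivity) (by positivity), Real.log_pow]
    norm_num
  have hlx : Real.log ℓ ≤ ℓ := by
    linarith [Real.log_le_sub_one_of_pos (by linarith : (0 : ℝ) < ℓ)]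
  rw [hlog]
  set B := ((48000 * (8 * Real.log ℓ)) ^ r) ^ 2
  set x := (ℓ : ℝ)
  set K := (KK : ℝ)
  set J := (JJ ℓ : ℝ)
  have hJB : 1 ≤ J * B := by nlinarith
  have h5 : 1600 * (J * B) ≤ cc * x := by
    refine le_trans ?_ (mul_le_mul_of_nonneg_right hc (by linarith))
    rw [one_div, inv_mul_eq_div, le_div_iff₀ (by positivity)]
    have : 0 ≤ K ^ 2 * J * B := by positivity
    nlinarith
  have h6 : 2 * (24 * Real.log x + Real.log (TT ℓ r) + x) ≤ 140 * (J * B) * x ^ 2 := by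
    have h7 : 1 * x ^ 2 ≤ J * B * x ^ 2 := by gcongr
    nlinarith
  have h8 : x ^ 7 ≤ J * B * x ^ 26 := by
    have : x ^ 7 ≤ x ^ 26 := pow_le_pow_right₀ (by linarith) (by norm_num)
    have h9 : 1 * x ^ 26 ≤ J * B * x ^ 26 := by gcongr
    linarith
  have h10 : x ^ 24 * (2 * (24 * Real.log x + Real.log (TT ℓ r) + x)) ≤
      140 * (J * B * x ^ 26) := by
    calc _ ≤ x ^ 24 * (140 * (J * B) * x ^ 2) := by gcongr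
      _ = _ := by ring
  have h11 : 1600 * (J * B * x ^ 26) ≤ cc * x ^ 27 := by
    calc 1600 * (J * B * x ^ 26) = 1600 * (J * B) * x ^ 26 := by ring
      _ ≤ cc * x * x ^ 26 := by gcongr
      _ = _ := by ring
  have h12 : 0 ≤ x ^ 7 := by positivity
  linarith

end Crest.Agent.R002
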