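import Crest.Agent.R002.Basic

set_option autoImplicit false

namespace Crest.Agent.R002

open Finset

theorem test_blocks (F : ℕ → ℝ) (m k : ℕ) :
    ∑ t ∈ range (m * k), F t = ∑ j ∈ range k, ∑ s ∈ range m, F (m * j + s) := by
  induction k with
  | zero => simp
  | succ k ih => rw [mul_add_one, sum_range_add, ih, sum_range_succ]

theorem test_cast {p : ℕ} [NeZero p] (F : ZMod p → ℝ) :
    ∑ j ∈ range p, F (j : ZMod p) = ∑ u, F u := by
  refine sum_nbij' (fun j => (j : ZMod p)) ZMod.val (fun _ _ => mem_univ _)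
    (fun u _ => mem_range.2 (ZMod.val_lt u)) (fun j hj => ZMod.val_cast_of_lt (mem_range.1 hj))
    (fun u _ => ZMod.natCast_zmod_val u) fun _ _ => rfl

/-- test pairs -/
structure TestPair (m : ℕ) (ψ : ℕ → ℝ) : Prop where
  pos : 0 < m
  nonneg : ∀ t, 0 ≤ ψ t
  per : ∀ j s, ψ (m * j + s) = ψ s
  sum : ∑ t ∈ range m, ψ t ≤ m

theorem TestPair.le {m N : ℕ} {ψ : ℕ → ℝ} (h : TestPair m ψ) (hN : m ≤ N) :
    ∑ t ∈ range N, ψ t ≤ 2 * N := by
  have h1 : N ≤ m * (N / m + 1) := (Nat.lt_mul_div_succ N h.pos).le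
  have h2 : m * (N / m + 1) ≤ 2 * N := by
    have := Nat.mul_div_le N m
    rw [mul_add_one]; omega
  calc ∑ t ∈ range N, ψ t ≤ ∑ t ∈ range (m * (N / m + 1)), ψ t :=
        sum_le_sum_of_subset_of_nonneg (range_subset_range.2 h1) fun t _ _ => h.nonneg t
    _ ≤ ∑ _j ∈ range (N / m + 1), (m : ℝ) := by
        rw [test_blocks]
        exact sum_le_sum fun j _ => by simpa only [h.per] using h.sum
    _ = ((m * (N / m + 1) : ℕ) : ℝ) := by
        rw [sum_const, card_range, nsmul_eq_mul, Nat.cast_mul, mul_comm]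
    _ ≤ 2 * N := by exact_mod_cast h2

theorem TestPair.mul {m p : ℕ} [Fact p.Prime] {ψ : ℕ → ℝ} (h : TestPair m ψ) (hc : Nat.Coprime p m)
    {φ : ZMod p → ℝ} (h0 : ∀ u, 0 ≤ φ u) (h1 : ∑ u, φ u ≤ p) :
    TestPair (m * p) fun t => ψ t * φ (t : ZMod p) := by
  have hp : p.Prime := Fact.out
  refine ⟨Nat.mul_pos h.pos hp.pos, fun t => mul_nonneg (h.nonneg t) (h0 _), fun j s => ?_, ?_⟩
  · rw [mul_assoc, h.per]
    simp
  · have hm : (m : ZMod p) ≠ 0 := fun e =>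
      (Nat.Prime.coprime_iff_not_dvd hp).1 hc ((ZMod.natCast_eq_zero_iff _ _).1 e)
    rw [test_blocks, sum_comm]
    simp only [h.per, ← mul_sum]
    have h2 : ∀ s : ℕ, ∑ j ∈ range p, φ ((m * j + s : ℕ) : ZMod p) ≤ p := fun s => by
      have e := test_cast fun u : ZMod p => φ (m * u + s)
      push_cast
      rw [e]
      exact (Fintype.sum_equiv ((Equiv.mulLeft₀ _ hm).trans (Equiv.addRight (s : ZMod p))) _ _
        fun _ => rfl).le.trans h1
    calc _ ≤ ∑ s ∈ range m, ψ s * p :=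
          sum_le_sum fun s _ => mul_le_mul_of_nonneg_left (h2 s) (h.nonneg s)
      _ ≤ _ := by
          rw [← sum_mul, Nat.cast_mul]
          exact mul_le_mul_of_nonneg_right h.sum (Nat.cast_nonneg _)

theorem test_group {ι : Type} [DecidableEq ι] {a : ι → ℝ} (ha : ∀ i, a i ≤ 1 / 2) (P : Finset ι) :
    ∃ g ⊆ P, ∑ i ∈ g, a i ≤ 1 ∧ (g = P ∨ 1 / 2 ≤ ∑ i ∈ g, a i) := by
  induction P using Finset.induction_on with
  | empty => exact ⟨∅, Subset.rfl, by simp, Or.inl rfl⟩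
  | insert i P hi ih =>
    obtain ⟨g, h1, h2, h3⟩ := ih
    by_cases h : 1 / 2 ≤ ∑ i ∈ g, a i
    · exact ⟨g, h1.trans (subset_insert _ _), h2, Or.inr h⟩
    · obtain rfl := h3.resolve_right h
      refine ⟨_, Subset.rfl, ?_, Or.inl rfl⟩
      rw [sum_insert hi]
      linarith [ha i]

theorem test_amgm {ι : Type} (g : Finset ι) {a z : ι → ℝ} (ha : ∀ i, 0 ≤ a i)
    (h1 : ∑ i ∈ g, a i ≤ 1) (hz : ∀ i, 0 ≤ z i) :
    ∏ i ∈ g, z i ^ a i ≤ (1 - ∑ i ∈ g, a i) + ∑ i ∈ g, a i * z i := by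
  have := Real.geom_mean_le_arith_mean_weighted (insertNone g)
    (fun o => o.elim (1 - ∑ i ∈ g, a i) a) (fun o => o.elim 1 z)
    (fun o _ => by cases o with
      | none => simpa using h1
      | some i => exact ha i) (by simp [sum_insertNone])
    (fun o _ => by cases o with
      | none => exact zero_le_one
      | some i => exact hz i)
  simpa [prod_insertNone, sum_insertNone] using this

theorem test_main {ι : Type} (S : Sys ι) (a : ι → ℝ) (N : ℕ) (X : ℝ)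
    (ha0 : ∀ i, 0 ≤ a i) (ha : ∀ i, a i ≤ 1 / 2) (hX : ∀ i, (S.q i : ℝ) ≤ X) (hX1 : 1 ≤ X)
    (φ : ∀ i, ZMod (S.q i) → ℝ) (hφ0 : ∀ i u, 0 ≤ φ i u) (hφ1 : ∀ i, ∑ u, φ i u ≤ S.q i) (G : ℕ) :
    ∀ (P : Finset ι) (m : ℕ) (ψ : ℕ → ℝ), TestPair m ψ → (∀ i ∈ P, Nat.Coprime (S.q i) m) →
      ∑ i ∈ P, a i ≤ G / 2 → m * X ^ G ≤ N →
      ∑ t ∈ range N, ψ t * ∏ i ∈ P, (φ i (t : ZMod (S.q i))) ^ (a i) ≤ 2 * N := by
  classical
  induction G with
  | zero =>
    intro P m ψ h _ h2 h3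
    have h4 : ∀ i ∈ P, a i = 0 := (sum_eq_zero_iff_of_nonneg fun i _ => ha0 i).1
      (le_antisymm (by simpa using h2) (sum_nonneg fun i _ => ha0 i))
    have h5 : ∀ t : ℕ, ∏ i ∈ P, (φ i (t : ZMod (S.q i))) ^ (a i) = 1 := fun t =>
      prod_eq_one fun i hi => by rw [h4 i hi, Real.rpow_zero]
    simp only [h5, mul_one]
    exact h.le (by simpa using h3)
  | succ G ih =>
    intro P m ψ h h1 h2 h3
    obtain ⟨g, g1, g2, g3⟩ := test_group ha P
    have hG : (0 : ℝ) ≤ X ^ G := by positivity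
    have hm : (0 : ℝ) ≤ m := Nat.cast_nonneg m
    have h4 : ∑ i ∈ P \ g, a i ≤ G / 2 := by
      rcases g3 with rfl | g3
      · simp; positivity
      · have := sum_sdiff (f := a) g1
        push_cast at h2
        linarith
    have h5 := ih (P \ g) m ψ h (fun i hi => h1 i (mem_sdiff.1 hi).1) h4
      (le_trans (mul_le_mul_of_nonneg_left (pow_le_pow_right₀ hX1 (Nat.le_succ G)) hm) h3)
    have h6 : ∀ j ∈ g, ∑ t ∈ range N, ψ t * φ j (t : ZMod (S.q j)) *
        ∏ i ∈ P \ g, (φ i (t : ZMod (S.q i))) ^ (a i) ≤ 2 * N := fun j hj => by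
      refine ih (P \ g) _ _ (h.mul (h1 j (g1 hj)) (hφ0 j) (hφ1 j)) (fun i hi => ?_) h4 ?_
      · refine Nat.Coprime.mul_right (h1 i (mem_sdiff.1 hi).1)
          ((Nat.coprime_primes (S.prime i) (S.prime j)).2 fun e => (mem_sdiff.1 hi).2 ?_)
        rwa [S.inj e]
      · refine le_trans ?_ h3
        rw [Nat.cast_mul, mul_assoc, pow_succ']
        exact mul_le_mul_of_nonneg_left (mul_le_mul_of_nonneg_right (hX j) hG) hm
    calc _ ≤ ∑ t ∈ range N, ((1 - ∑ i ∈ g, a i) *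
            (ψ t * ∏ i ∈ P \ g, (φ i (t : ZMod (S.q i))) ^ (a i)) +
          ∑ j ∈ g, a j * (ψ t * φ j (t : ZMod (S.q j)) *
            ∏ i ∈ P \ g, (φ i (t : ZMod (S.q i))) ^ (a i))) := by
          refine sum_le_sum fun t _ => ?_
          have h7 := mul_le_mul_of_nonneg_left
            (test_amgm g ha0 g2 fun i => hφ0 i (t : ZMod (S.q i)))
            (mul_nonneg (h.nonneg t) (prod_nonneg fun i (_ : i ∈ P \ g) =>
              Real.rpow_nonneg (hφ0 i (t : ZMod (S.q i))) (a i)))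
          rw [← prod_sdiff g1, ← mul_assoc]
          refine h7.trans (le_of_eq ?_)
          rw [mul_add, mul_sum, mul_comm]
          congr 1
          exact sum_congr rfl fun j _ => by ring
      _ ≤ (1 - ∑ i ∈ g, a i) * (2 * N) + ∑ j ∈ g, a j * (2 * N) := by
          rw [sum_add_distrib, ← mul_sum, sum_comm]
          refine add_le_add (mul_le_mul_of_nonneg_left h5 (by linarith))
            (sum_le_sum fun j hj => ?_)
          rw [← mul_sum]
          exact mul_le_mul_of_nonneg_left (h6 j hj) (ha0 j)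
      _ = 2 * N := by rw [← sum_mul]; ring

/-- **Product test (generalised Hölder + CRT).**

Plan.  Call `(m, ψ)` a test pair if `0 < m`, `ψ : ℕ → ℝ` is `≥ 0`, `m`-periodic and
`∑ t < m, ψ t ≤ m`.  (1) `m ≤ N → ∑ t < N, ψ t ≤ 2N` (cover `range N` by `N/m + 1` periods).
(2) if `p = q i` is coprime to `m` then `(m p, ψ · φ i)` is a test pair (CRT: write
`t = s + m k`, `s < m`, `k < p`; for fixed `s`, `k ↦ (s + m k : ZMod p)` is a bijection
`range p → ZMod p`).  (3) every finset `P` contains `g ⊆ P` with `∑_g a ≤ 1` and (`g = P` or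
`1/2 ≤ ∑_g a`) (induction on `P`).  (4) Induction on `G`: for all `P`, test pairs `(m, ψ)` with
`m` coprime to all `q i`, `i ∈ P`, `∑_P a ≤ G/2`, `m X^G ≤ N`:
`∑ t < N, ψ t ∏_{i ∈ P} φ i t ^ a i ≤ 2N`.  `G = 0`: all `a i = 0`.  Step: weighted AM-GM
(`Real.geom_mean_le_arith_mean_weighted`, add the dummy factor `1` with weight `1 - ∑_g a`) gives
`∏_g φ^a ≤ (1 - ∑_g a) + ∑_{i ∈ g} a i φ i t`; apply the hypothesis to `P \ g` with `(m, ψ)` and
with `(m q i, ψ φ i)`.  Finally `G = 2k`, `m = 1`, `ψ = 1`. -/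
theorem test {ι : Type} [Fintype ι] (S : Sys ι) (a : ι → ℝ) (k N : ℕ) (X : ℝ)
    (ha0 : ∀ i, 0 ≤ a i) (ha : ∀ i, a i ≤ 1 / 2) (hsum : ∑ i, a i ≤ k)
    (hX : ∀ i, (S.q i : ℝ) ≤ X) (hX1 : 1 ≤ X) (hN : X ^ (2 * k) ≤ N)
    (φ : ∀ i, ZMod (S.q i) → ℝ) (hφ0 : ∀ i u, 0 ≤ φ i u) (hφ1 : ∀ i, ∑ u, φ i u ≤ S.q i) :
    ∑ t ∈ range N, ∏ i, (φ i (t : ZMod (S.q i))) ^ (a i) ≤ 2 * N := by
  have := test_main S a N X ha0 ha hX hX1 φ hφ0 hφ1 (2 * k) univ 1 (fun _ => 1)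
    ⟨one_pos, fun _ => zero_le_one, fun _ _ => rfl, by simp⟩ (fun i _ => Nat.coprime_one_right _)
    (by push_cast; linarith) (by simpa using hN)
  simpa only [one_mul] using this

end Crest.Agent.R002
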