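import Crest.Agent.R002.Geom
import Crest.Agent.R002.Test

set_option autoImplicit false

namespace Crest.Agent.R002

open Finset

open Classical in
/-- The test function attached to a pair of densities and the progression `c + t v`. -/
noncomputable def pairPhi {ι : Type} (S : Sys ι) (f g : ∀ i, ZMod (S.q i) → ℝ) (c v : V) (i : ι)
    (u : ZMod (S.q i)) : ℝ :=
  if S.ρ i v = 0 then 1 else corr (f i) (g i) (S.ρ i c + u * S.ρ i v)

theorem pair_phi_nonneg {ι : Type} (S : Sys ι) {f g : ∀ i, ZMod (S.q i) → ℝ}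
    (hf : ∀ i u, 0 ≤ f i u) (hg : ∀ i u, 0 ≤ g i u) (c v : V) (i : ι) (u : ZMod (S.q i)) :
    0 ≤ pairPhi S f g c v i u := by
  unfold pairPhi
  split_ifs
  · exact zero_le_one
  · exact corr_nonneg (hf i) (hg i) _

theorem pair_phi_sum {ι : Type} (S : Sys ι) {f g : ∀ i, ZMod (S.q i) → ℝ}
    (hg : ∀ i u, 0 ≤ g i u) (hf1 : ∀ i, ∑ u, f i u ≤ S.q i) (hg1 : ∀ i, ∑ u, g i u ≤ S.q i)
    (c v : V) (i : ι) : ∑ u, pairPhi S f g c v i u ≤ S.q i := by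
  unfold pairPhi
  by_cases h : S.ρ i v = 0
  · simp [h, ZMod.card]
  · simp only [if_neg h]
    have := Equiv.sum_comp ((Equiv.mulRight₀ (S.ρ i v) h).trans (Equiv.addLeft (S.ρ i c)))
      (corr (f i) (g i))
    simp only [Equiv.trans_apply, Equiv.mulRight₀_apply, Equiv.coe_addLeft] at this
    rw [this]
    exact sum_corr_le (hg i) (hf1 i) (hg1 i)

theorem pair_bad {ι : Type} [Fintype ι] (S : Sys ι) {w : ι → ℝ} {ω Λ : ℝ} (hw : Wt S w ω Λ)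
    {f g : ∀ i, ZMod (S.q i) → ℝ} (hf : ∀ i u, 0 ≤ f i u) (hg : ∀ i u, 0 ≤ g i u)
    (hf1 : ∀ i, ∑ u, f i u ≤ S.q i) (hg1 : ∀ i, ∑ u, g i u ≤ S.q i) {c v : V} (hv : v ≠ 0)
    {t : ℕ} {ζ k : ℝ} (hk : 0 ≤ k) (hωv : ω * Real.log (nrm v) ≤ ζ / 2)
    (hpos : ∀ i, 0 < corr (f i) (g i) (S.ρ i (c + (t : ℤ) • v)))
    (hbad : ζ ≤ ∑ i, w i * Real.log (corr (f i) (g i) (S.ρ i (c + (t : ℤ) • v)))) :
    Real.exp (k * (ζ / 2)) ≤ ∏ i, pairPhi S f g c v i (t : ZMod (S.q i)) ^ (k * w i) := by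
  classical
  have e : ∀ i, S.ρ i (c + (t : ℤ) • v) = S.ρ i c + (t : ZMod (S.q i)) * S.ρ i v := fun i => by
    rw [map_add, map_zsmul, zsmul_eq_mul, Int.cast_natCast]
  have hp : ∀ i, 0 < pairPhi S f g c v i (t : ZMod (S.q i)) := fun i => by
    unfold pairPhi
    split_ifs
    · exact one_pos
    · rw [← e]
      exact hpos i
  have h1 : ∀ i, w i * Real.log (corr (f i) (g i) (S.ρ i (c + (t : ℤ) • v))) ≤
      w i * Real.log (pairPhi S f g c v i (t : ZMod (S.q i))) +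
        ω * (if S.ρ i v = 0 then Real.log (S.q i) else 0) := fun i => by
    unfold pairPhi
    split_ifs with h
    · rw [Real.log_one, mul_zero, zero_add]
      have h2 : Real.log (corr (f i) (g i) (S.ρ i (c + (t : ℤ) • v))) ≤ Real.log (S.q i) :=
        Real.log_le_log (hpos i) (corr_le (hf i) (hg i) (hf1 i) (hg1 i) _)
      exact (mul_le_mul_of_nonneg_left h2 (hw.nonneg i)).trans
        (mul_le_mul_of_nonneg_right (hw.le i) (Real.log_natCast_nonneg _))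
    · rw [e, mul_zero, add_zero]
  have h2 := hbad.trans (sum_le_sum fun i _ => h1 i)
  rw [sum_add_distrib, ← mul_sum, ← sum_filter] at h2
  have h3 := mul_le_mul_of_nonneg_left (S.sum_log_le hv) hw.ω_nonneg
  have h4 : ζ / 2 ≤ ∑ i, w i * Real.log (pairPhi S f g c v i (t : ZMod (S.q i))) := by
    linarith
  calc Real.exp (k * (ζ / 2))
      ≤ Real.exp (k * ∑ i, w i * Real.log (pairPhi S f g c v i (t : ZMod (S.q i)))) :=
        Real.exp_le_exp.2 (mul_le_mul_of_nonneg_left h4 hk)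
    _ = _ := by
        rw [mul_sum, Real.exp_sum]
        refine prod_congr rfl fun i _ => ?_
        rw [Real.rpow_def_of_pos (hp i)]
        congr 1
        ring

open Classical in
/-- **A good pair in every long window.**

Plan.  `k = ⌈10σ/ζ⌉₊` (so `10σ/ζ ≤ k ≤ 11σ/ζ`), `X = exp Λ`, `N = ⌈exp (2kΛ)⌉₊ ≤ exp (3kΛ)`
(`kΛ ≥ 10σ ≥ 100`), `4N^4 < exp (13 kΛ) ≤ m`.  Take `c, v` from `geom`, `Sset` the set of good
`t`, for `t ∈ Sset` indices `a t, a' t` with `y (a t) - y (a' t) = c + t v`.  Suppose the claim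
fails: then for `t ∈ Sset` the bad pairs (in `U (a t) ×ˢ U (a' t)`, sum `> ζ`) have mass
`> exp(-2σ) - exp(-2σ)/2`.  For a pair `oo` put `φ i u = corr .. (ρ i c + u * ρ i v)` if
`ρ i v ≠ 0`, else `1`; (`∑ u, φ i u ≤ q i` by `sum_corr_le`, `u ↦ ρ c + u ρ v` is a bijection of
the field); `test` with `a i = k * w i` (`kω ≤ 1/2`) gives `∑ t < N, G oo t ≤ 2N`,
`G oo t = ∏ φ i t ^ (k w i)`.  For a bad pair at `t` all `corr` are positive (`corr_pos`,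
`map_sub`), those with `ρ i v = 0` contribute at most
`ω ∑_{ρ i v = 0} log (q i) ≤ ω log (5N²) ≤ 7 ω kΛ ≤ ζ/2` (`corr_le`, `Sys.sum_log_le`), so
`G oo t ≥ exp (kζ/2) ≥ exp (5σ)`.  Summing with weights `μ μ` (total `≤ 1`):
`|Sset| exp(-2σ)/2 exp(5σ) ≤ 2N ≤ 200 exp(2σ) |Sset|`, i.e. `exp σ ≤ 400`, false for `σ ≥ 10`
(`|Sset| > 0` as `N ≥ 1`). -/
theorem pair_exists {ι : Type} [Fintype ι] (S : Sys ι) {w : ι → ℝ} {ω Λ : ℝ} (hw : Wt S w ω Λ)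
    {σ ζ : ℝ} (hζ : 0 < ζ) (hζΛ : ζ ≤ Λ) (hζσ : ζ ≤ σ) (hσ : 10 ≤ σ)
    (hω : 200 * ω * σ * Λ ≤ ζ ^ 2) {y : ℕ → V} {m D : ℕ} (hy : IsPath y m D)
    (hD : (4 * D + 1 : ℝ) ≤ Real.exp σ) (hm : Real.exp (200 * Λ / ζ * σ) ≤ m)
    {Ω : Type} [Fintype Ω] (μ : Ω → ℝ) (Q : Ω → ∀ i, ZMod (S.q i) → ℝ) (U : ℕ → Finset Ω)
    (hμ0 : ∀ o, 0 ≤ μ o) (hμ1 : ∑ o, μ o ≤ 1) (hQ0 : ∀ o i u, 0 ≤ Q o i u)
    (hQ1 : ∀ o i, ∑ u, Q o i u ≤ S.q i)
    (hU : ∀ a, a < m → Real.exp (-σ) ≤ ∑ o ∈ U a, μ o)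
    (hpos : ∀ a, a < m → ∀ o ∈ U a, ∀ i, 0 < Q o i (S.ρ i (y a))) :
    ∃ a, a < m ∧ ∃ a', a' < m ∧ Real.exp (-(2 * σ)) / 2 ≤
      ∑ oo ∈ (U a ×ˢ U a').filter (fun oo =>
        ∑ i, w i * Real.log (corr (Q oo.1 i) (Q oo.2 i) (S.ρ i (y a - y a'))) ≤ ζ),
        μ oo.1 * μ oo.2 := by
  by_contra hcon
  push Not at hcon
  have hΛ : 0 < Λ := hζ.trans_le hζΛ
  have hσ0 : 0 < σ := by linarith
  obtain ⟨k, hk1, hk2⟩ : ∃ k : ℕ, 10 * σ ≤ k * ζ ∧ k * ζ ≤ 11 * σ := by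
    refine ⟨⌈10 * σ / ζ⌉₊, (div_le_iff₀ hζ).1 (Nat.le_ceil _), ?_⟩
    have h := (Nat.ceil_lt_add_one (show 0 ≤ 10 * σ / ζ by positivity)).le
    have h2 := mul_le_mul_of_nonneg_right h hζ.le
    rw [add_mul, div_mul_cancel₀ _ hζ.ne'] at h2
    linarith
  have hk0 : (0 : ℝ) ≤ k := Nat.cast_nonneg k
  have hkΛ : 100 ≤ (k : ℝ) * Λ := by nlinarith [mul_le_mul_of_nonneg_left hζΛ hk0]
  have hω0 := hw.ω_nonneg
  have hωkΛ : 200 * (ω * (k * Λ)) ≤ 11 * ζ := by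
    refine le_of_mul_le_mul_right ?_ hζ
    have h1 := mul_le_mul_of_nonneg_left hk2 (show 0 ≤ 200 * ω * Λ by positivity)
    nlinarith
  have hωk : k * ω ≤ 1 / 2 := by
    refine le_of_mul_le_mul_right ?_ hΛ
    nlinarith
  have hE : 101 ≤ Real.exp (k * Λ) := by linarith [Real.add_one_le_exp ((k : ℝ) * Λ)]
  obtain ⟨N, hN1, hN2⟩ : ∃ N : ℕ, Real.exp (k * Λ) ^ 2 ≤ N ∧ (N : ℝ) ≤ Real.exp (k * Λ) ^ 3 := by
    refine ⟨⌈Real.exp (k * Λ) ^ 2⌉₊, Nat.le_ceil _, ?_⟩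
    have h := (Nat.ceil_lt_add_one (show 0 ≤ Real.exp (k * Λ) ^ 2 by positivity)).le
    nlinarith
  have hN0 : (1 : ℝ) ≤ N := by nlinarith
  have hNm : 4 * N ^ 4 < m := by
    have h1 : (N : ℝ) ^ 4 ≤ (Real.exp (k * Λ) ^ 3) ^ 4 := pow_le_pow_left₀ (by linarith) hN2 4
    have h2 : Real.exp (k * Λ) ^ 13 ≤ m := by
      refine le_trans ?_ hm
      rw [← Real.exp_nat_mul, Real.exp_le_exp, div_mul_eq_mul_div, le_div_iff₀ hζ]
      push_cast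
      nlinarith [mul_le_mul_of_nonneg_left hk2 hΛ.le, mul_pos hΛ hσ0]
    have h3 : Real.exp (k * Λ) ^ 13 = (Real.exp (k * Λ) ^ 3) ^ 4 * Real.exp (k * Λ) := by ring
    have h4 : 0 < (Real.exp (k * Λ) ^ 3) ^ 4 := by positivity
    have : (4 : ℝ) * (N : ℝ) ^ 4 < m := by nlinarith
    exact_mod_cast this
  obtain ⟨c, v, hv0, hvn, hcard⟩ := geom hy N (by exact_mod_cast hN0) hNm
  have hωv : ω * Real.log (nrm v) ≤ ζ / 2 := by
    have h1 : ((nrm v : ℤ) : ℝ) ≤ Real.exp (k * Λ) ^ 7 := by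
      have h2 : ((nrm v : ℤ) : ℝ) ≤ 5 * (N : ℝ) ^ 2 := by exact_mod_cast hvn
      have h3 : (N : ℝ) ^ 2 ≤ (Real.exp (k * Λ) ^ 3) ^ 2 := pow_le_pow_left₀ (by linarith) hN2 2
      have h4 : Real.exp (k * Λ) ^ 7 = (Real.exp (k * Λ) ^ 3) ^ 2 * Real.exp (k * Λ) := by ring
      have h5 : 0 < (Real.exp (k * Λ) ^ 3) ^ 2 := by positivity
      nlinarith
    have h2 := Real.log_le_log (by exact_mod_cast nrm_pos hv0) h1
    rw [Real.log_pow, Real.log_exp] at h2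
    push_cast at h2
    have h3 := mul_le_mul_of_nonneg_left h2 hω0
    linarith
  set T := (range N).filter (fun t : ℕ => c + (t : ℤ) • v ∈ diffs y m) with hT
  set G : Ω × Ω → ℕ → ℝ := fun oo t =>
    ∏ i, pairPhi S (Q oo.1) (Q oo.2) c v i (t : ZMod (S.q i)) ^ ((k : ℝ) * w i) with hG
  have hG0 : ∀ oo t, 0 ≤ G oo t := fun oo t =>
    prod_nonneg fun i _ => Real.rpow_nonneg (pair_phi_nonneg S (hQ0 _) (hQ0 _) c v i _) _
  have hG1 : ∀ oo, ∑ t ∈ range N, G oo t ≤ 2 * N := fun oo => by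
    refine test S (fun i => (k : ℝ) * w i) k N (Real.exp Λ) (fun i => mul_nonneg hk0 (hw.nonneg i))
      (fun i => (mul_le_mul_of_nonneg_left (hw.le i) hk0).trans hωk) ?_ (fun i => ?_)
      (Real.one_le_exp hΛ.le) ?_ _ (pair_phi_nonneg S (hQ0 _) (hQ0 _) c v)
      (pair_phi_sum S (hQ0 _) (hQ1 _) (hQ1 _) c v)
    · rw [← mul_sum]
      exact mul_le_of_le_one_right hk0 hw.sum_le
    · exact (Real.log_le_iff_le_exp (S.q_pos i)).1 (hw.log_le i)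
    · rwa [mul_comm 2 k, pow_mul, ← Real.exp_nat_mul]
  have hμμ : ∀ oo : Ω × Ω, 0 ≤ μ oo.1 * μ oo.2 := fun oo => mul_nonneg (hμ0 _) (hμ0 _)
  have key : ∀ t ∈ T, Real.exp (3 * σ) / 2 ≤ ∑ oo : Ω × Ω, μ oo.1 * μ oo.2 * G oo t := by
    intro t ht
    obtain ⟨a, ha, a', ha', hd⟩ := mem_diffs.1 (mem_filter.1 ht).2
    have h1 := hcon a ha a' ha'
    have h2 := sum_filter_add_sum_filter_not (U a ×ˢ U a') (fun oo =>
      ∑ i, w i * Real.log (corr (Q oo.1 i) (Q oo.2 i) (S.ρ i (y a - y a'))) ≤ ζ)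
      (fun oo => μ oo.1 * μ oo.2)
    have h3 : Real.exp (-(2 * σ)) ≤ ∑ oo ∈ U a ×ˢ U a', μ oo.1 * μ oo.2 := by
      rw [sum_product, ← sum_mul_sum, show -(2 * σ) = -σ + -σ by ring, Real.exp_add]
      exact mul_le_mul (hU a ha) (hU a' ha') (Real.exp_pos _).le
        ((Real.exp_pos _).le.trans (hU a ha))
    set B := (U a ×ˢ U a').filter (fun oo =>
      ¬ ∑ i, w i * Real.log (corr (Q oo.1 i) (Q oo.2 i) (S.ρ i (y a - y a'))) ≤ ζ) with hB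
    have h4 : Real.exp (-(2 * σ)) / 2 ≤ ∑ oo ∈ B, μ oo.1 * μ oo.2 := by linarith
    have h5 : ∀ oo ∈ B, Real.exp (5 * σ) ≤ G oo t := by
      intro oo hoo
      obtain ⟨hm1, hm2⟩ := mem_filter.1 hoo
      obtain ⟨ho1, ho2⟩ := mem_product.1 hm1
      refine le_trans (Real.exp_le_exp.2 (by linarith)) (pair_bad S hw (hQ0 _) (hQ0 _) (hQ1 _)
        (hQ1 _) hv0 hk0 hωv (fun i => ?_) ?_)
      · rw [← hd, map_sub]
        exact corr_pos (hQ0 _ i) (hQ0 _ i) (hpos a ha _ ho1 i) (hpos a' ha' _ ho2 i)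
      · rw [← hd]
        exact (not_le.1 hm2).le
    calc Real.exp (3 * σ) / 2 = Real.exp (-(2 * σ)) / 2 * Real.exp (5 * σ) := by
          rw [div_mul_eq_mul_div, ← Real.exp_add]
          congr 2
          ring
      _ ≤ (∑ oo ∈ B, μ oo.1 * μ oo.2) * Real.exp (5 * σ) :=
          mul_le_mul_of_nonneg_right h4 (Real.exp_pos _).le
      _ ≤ ∑ oo ∈ B, μ oo.1 * μ oo.2 * G oo t := by
          rw [sum_mul]
          exact sum_le_sum fun oo hoo => mul_le_mul_of_nonneg_left (h5 oo hoo) (hμμ oo)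
      _ ≤ _ := sum_le_sum_of_subset_of_nonneg (subset_univ _) fun oo _ _ =>
          mul_nonneg (hμμ oo) (hG0 oo t)
  have hsum : (T.card : ℝ) * (Real.exp (3 * σ) / 2) ≤ 2 * N := by
    calc (T.card : ℝ) * (Real.exp (3 * σ) / 2) = ∑ _t ∈ T, Real.exp (3 * σ) / 2 := by
          rw [sum_const, nsmul_eq_mul]
      _ ≤ ∑ t ∈ T, ∑ oo : Ω × Ω, μ oo.1 * μ oo.2 * G oo t := sum_le_sum key
      _ ≤ ∑ t ∈ range N, ∑ oo : Ω × Ω, μ oo.1 * μ oo.2 * G oo t :=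
          sum_le_sum_of_subset_of_nonneg (filter_subset _ _) fun t _ _ =>
            sum_nonneg fun oo _ => mul_nonneg (hμμ oo) (hG0 oo t)
      _ = ∑ oo : Ω × Ω, μ oo.1 * μ oo.2 * ∑ t ∈ range N, G oo t := by
          rw [sum_comm]
          exact sum_congr rfl fun oo _ => (mul_sum _ _ _).symm
      _ ≤ ∑ oo : Ω × Ω, μ oo.1 * μ oo.2 * (2 * N) :=
          sum_le_sum fun oo _ => mul_le_mul_of_nonneg_left (hG1 oo) (hμμ oo)
      _ = (∑ o, μ o) * (∑ o, μ o) * (2 * N) := by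
          rw [← sum_mul, sum_mul_sum, ← sum_product', univ_product_univ]
      _ ≤ 1 * 1 * (2 * N) := by
          refine mul_le_mul_of_nonneg_right ?_ (by positivity)
          exact mul_le_mul hμ1 hμ1 (sum_nonneg fun o _ => hμ0 o) zero_le_one
      _ = 2 * N := by ring
  have hc : (N : ℝ) ≤ 100 * Real.exp σ ^ 2 * T.card := by
    have h1 : (N : ℝ) ≤ 100 * (4 * D + 1) ^ 2 * T.card := by exact_mod_cast hcard
    refine h1.trans (mul_le_mul_of_nonneg_right ?_ (Nat.cast_nonneg _))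
    exact mul_le_mul_of_nonneg_left (pow_le_pow_left₀ (by positivity) hD 2) (by norm_num)
  have he : 1024 ≤ Real.exp σ := by
    have h1 : (2 : ℝ) ≤ Real.exp 1 := by linarith [Real.add_one_le_exp (1 : ℝ)]
    have h2 : (2 : ℝ) ^ 10 ≤ Real.exp 1 ^ 10 := pow_le_pow_left₀ (by norm_num) h1 10
    rw [← Real.exp_nat_mul] at h2
    refine le_trans (by norm_num) (h2.trans (Real.exp_le_exp.2 (by push_cast; linarith)))
  have h3 : Real.exp (3 * σ) = Real.exp σ ^ 2 * Real.exp σ := by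
    rw [← pow_succ, ← Real.exp_nat_mul]
    norm_num
  rw [h3] at hsum
  have h4 : 0 < Real.exp σ ^ 2 * T.card := by linarith
  nlinarith

end Crest.Agent.R002
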