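import Crest.Agent.R002.Cover
import Crest.Agent.R002.Amp

set_option autoImplicit false

namespace Crest.Agent.R002

open Finset

variable {ι : Type} [Fintype ι] [DecidableEq ι]

/-- **No long path of windows in which range `j` is never stuck.**

Plan.  `Λ = 8 log ℓ > 0`.  Take `ν` from `cover`.  Build `Gain S w n σ (Λ/16)` with
`w i = if rg i = j then 1/|rng| else 0` (`ω = 1/|rng|`), `Ω = ↥(dom Qm) × St S`,
`μ (z, A) = ν z A / Qm²`, `Q (z,A) i u = if rg i = j then (if u ∈ A i then q i / |A i| else 0) else 1`,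
`U a` = image of `good .. (yw a 0)` under `A ↦ (red Qm (yw a 0), A)` (`red_mem_dom`, `adm_red`).
Gain: every `log (q/|A i|) ≥ 0` (`|A i| ≤ q`, nonempty), and for the inactive primes of the range
(more than half) `q/|A i| > ℓ`; so the gain is `≥ (log ℓ)/2 = Λ/16`.  Contradiction with `amp`,
`ζ = Λ/32`, `1000Λ/ζ = 32000`, `r = 6`. -/
theorem range_false (S : Sys ι) (rg : ι → ℕ) (𝒞 : Finset (Finset V))
    (ℓ L R Rx T j M n D Qm : ℕ) (H η σ : ℝ)
    (hL : ∀ C ∈ 𝒞, C.card = L ∧ C ⊆ box R) (hL1 : 0 < L) (hH : 0 < H)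
    (hq : ∀ i, rg i = j → H ≤ S.q i ∧ (S.q i : ℝ) ≤ 2 * H)
    (hΛ : ∀ i, Real.log (S.q i) ≤ 8 * Real.log ℓ)
    (hR : (2 * R + 1 : ℝ) ≤ Real.exp ℓ) (hℓ : 2 ≤ ℓ) (hP : 768 * ℓ ^ 2 * L ≤ (rng rg j).card)
    (hη : 0 < η) (hM : 128 * H * (8 * Real.log ℓ) < M * L)
    (hQ : 0 < Qm) (hQd : ∀ i, rg i < j → S.q i ∣ Qm)
    (hσ1 : 10 ≤ σ) (hσ2 : 8 * Real.log ℓ / 32 ≤ σ) (hD : (4 * D + 1 : ℝ) ≤ Real.exp σ)
    (hb : 2 * Real.log Qm + M * Real.log (2 * (2 * Rx + 1) ^ 2) +
      4 * H * (8 * Real.log ℓ) / (L * η) ≤ σ)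
    (hω : 204800 * 32000 ^ 6 * σ ≤ 8 * Real.log ℓ * (rng rg j).card)
    (hn : Real.exp (2 * 32000 ^ 6 * σ) ≤ n)
    (yw : ℕ → ℕ → V) (hY : IsPath (fun a => yw a 0) n D)
    (hx : ∀ a, a < n → ∀ t, t < T → yw a t - yw a 0 ∈ box Rx)
    (hne : ∀ a, a < n → ∀ t, t < T → (adm S rg 𝒞 (j + 1) (yw a t)).Nonempty)
    (hNS : ∀ a, a < n → NeverStuck S rg 𝒞 ℓ R T η j (yw a)) : False := by
  classical
  set Λ := 8 * Real.log ℓ with hΛdef
  have hℓ1 : (1 : ℝ) < ℓ := by exact_mod_cast (by omega : 1 < ℓ)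
  have hlog : 0 < Real.log ℓ := Real.log_pos hℓ1
  have hΛ0 : 0 < Λ := by positivity
  have hP0 : 0 < (rng rg j).card := lt_of_lt_of_le (by positivity) hP
  have hP0' : (0 : ℝ) < (rng rg j).card := by exact_mod_cast hP0
  have hQ' : (0 : ℝ) < Qm := by exact_mod_cast hQ
  obtain ⟨ν, hν0, hν1, hν⟩ := cover S rg 𝒞 ℓ L R Rx T j M H Λ η hL hL1 hH hq hΛ hR (by omega) hP hη hM
  set w : ι → ℝ := fun i => if rg i = j then 1 / ((rng rg j).card : ℝ) else 0 with hwdef
  have hsumw : ∀ f : ι → ℝ, ∑ i, w i * f i = (∑ i ∈ rng rg j, f i) / (rng rg j).card := by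
    intro f
    rw [rng, sum_filter, sum_div]
    refine sum_congr rfl fun i _ => ?_
    simp only [hwdef, rng]
    split_ifs
    · ring
    · simp
  have hw : Wt S w (1 / ((rng rg j).card : ℝ)) Λ := by
    refine ⟨fun i => ?_, ?_, fun i => ?_, by positivity, hΛ⟩
    · simp only [hwdef]; split_ifs <;> positivity
    · have := hsumw fun _ => 1
      simp only [mul_one, sum_const, nsmul_eq_mul] at this
      rw [this, div_self hP0'.ne']
    · simp only [hwdef]; split_ifs
      · exact le_rfl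
      · positivity
  have e32 : 1000 * Λ / (Λ / 32) = 32000 := by field_simp; norm_num
  refine amp S hw (ζ := Λ / 32) (by positivity) (by linarith) 6 (σ := σ) (γ := Λ / 16) (n := n)
    hσ2 hσ1 ?_ (by linarith) (by rw [e32]; exact hn) ?_
  · rw [e32]
    have h1 : 200 * (1 / ((rng rg j).card : ℝ)) * (32000 ^ 6 * σ) * Λ =
        (204800 * 32000 ^ 6 * σ) * (Λ / (1024 * (rng rg j).card)) := by field_simp; norm_num
    have h2 : (Λ / 32) ^ 2 = (Λ * (rng rg j).card) * (Λ / (1024 * (rng rg j).card)) := by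
      field_simp; norm_num
    rw [h1, h2]
    exact mul_le_mul_of_nonneg_right hω (by positivity)
  refine ⟨fun a => yw a 0, D, ↥(dom Qm) × St S, inferInstance, fun o => ν o.1 o.2 / (Qm : ℝ) ^ 2,
    fun o i u => if rg i = j then (if u ∈ o.2 i then (S.q i : ℝ) / (o.2 i).card else 0) else 1,
    fun a => (good S rg ℓ j (yw a 0)).image
      (fun A => (⟨red Qm (yw a 0), red_mem_dom hQ _⟩, A)), hY, hD, fun o => ?_, ?_, fun o i u => ?_,
    fun o i => ?_, fun a ha => ⟨?_, fun o ho => ?_⟩⟩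
  · exact div_nonneg (hν0 _ _) (by positivity)
  · rw [Fintype.sum_prod_type]
    have h1 : ∀ z : ↥(dom Qm), ∑ A : St S, ν z A / (Qm : ℝ) ^ 2 ≤ 1 / (Qm : ℝ) ^ 2 := by
      intro z
      rw [← sum_div]
      gcongr
      exact hν1 _
    refine (sum_le_sum fun z _ => h1 z).trans ?_
    rw [sum_const, card_univ, Fintype.card_coe, card_dom, nsmul_eq_mul]
    push_cast
    rw [mul_one_div_cancel (by positivity)]
  · dsimp only
    split_ifs <;> positivity
  · dsimp only
    split_ifs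
    · rw [← sum_filter, filter_mem_eq_inter, univ_inter, sum_const, nsmul_eq_mul]
      rcases Nat.eq_zero_or_pos (o.2 i).card with h0 | h0
      · rw [h0]; simp
      · rw [mul_div_cancel₀ _ (by exact_mod_cast h0.ne')]
    · simp
  · rw [sum_image (fun A _ B _ h => congrArg Prod.snd h)]
    dsimp only
    rw [← sum_div, le_div_iff₀ (by positivity)]
    refine le_trans ?_ (hν (yw a) (red Qm (yw a 0)) (fun x => adm_red S rg 𝒞 hQd _ x) (hx a ha)
      (hne a ha) (hNS a ha))
    have e : (Qm : ℝ) ^ 2 = Real.exp (2 * Real.log Qm) := by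
      rw [show 2 * Real.log Qm = Real.log ((Qm : ℝ) ^ 2) by simp, Real.exp_log (by positivity)]
    rw [e, ← Real.exp_add, Real.exp_le_exp]
    linarith
  · obtain ⟨A, hA, rfl⟩ := mem_image.mp ho
    obtain ⟨-, hA1, hA2⟩ := mem_filter.mp hA
    have hpos : ∀ i, rg i = j → (0 : ℝ) < (A i).card := fun i hi => by
      exact_mod_cast card_pos.mpr ⟨_, hA1 i hi⟩
    refine ⟨fun i => ?_, ?_⟩
    · dsimp only
      split_ifs with h1 h2
      · exact div_pos (S.q_pos i) (hpos i h1)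
      · exact absurd (hA1 i h1) h2
      · exact one_pos
    · rw [hsumw, le_div_iff₀ hP0']
      have hsub : act S rg ℓ j A ⊆ rng rg j := fun i hi =>
        mem_filter.mpr ⟨mem_univ _, (mem_filter.mp hi).2.1⟩
      have h1 : ∑ i ∈ rng rg j \ act S rg ℓ j A, Real.log ℓ ≤
          ∑ i ∈ rng rg j \ act S rg ℓ j A, Real.log ((S.q i : ℝ) / (A i).card) := by
        refine sum_le_sum fun i hi => Real.log_le_log (by linarith) ?_
        obtain ⟨hi1, hi2⟩ := mem_sdiff.mp hi
        have hij := (mem_filter.mp hi1).2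
        rw [le_div_iff₀ (hpos i hij)]
        have : ¬ S.q i ≤ ℓ * (A i).card := fun h => hi2 (mem_filter.mpr ⟨mem_univ _, hij, h⟩)
        exact_mod_cast (not_le.mp this).le
      have h2 : ∑ i ∈ rng rg j \ act S rg ℓ j A, Real.log ((S.q i : ℝ) / (A i).card) ≤
          ∑ i ∈ rng rg j, Real.log ((S.q i : ℝ) / (A i).card) := by
        refine sum_le_sum_of_subset_of_nonneg sdiff_subset fun i hi _ => Real.log_nonneg ?_
        rw [one_le_div (hpos i (mem_filter.mp hi).2)]
        have := card_le_univ (A i)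
        rw [ZMod.card] at this
        exact_mod_cast this
      rw [sum_const, card_sdiff_of_subset hsub, nsmul_eq_mul, Nat.cast_sub (card_le_card hsub)] at h1
      have h3 : (2 : ℝ) * (act S rg ℓ j A).card ≤ (rng rg j).card := by exact_mod_cast hA2.le
      have h4 : ∑ i ∈ rng rg j, Real.log ((S.q i : ℝ) / (A i).card) = ∑ i ∈ rng rg j,
          Real.log (if rg i = j then (if S.ρ i (yw a 0) ∈ A i then (S.q i : ℝ) / (A i).card else 0)
            else 1) := by
        refine sum_congr rfl fun i hi => ?_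
        have hij := (mem_filter.mp hi).2
        rw [if_pos hij, if_pos (hA1 i hij)]
      refine le_trans ?_ h4.le
      have h5 := mul_le_mul_of_nonneg_right h3 hlog.le
      linarith

end Crest.Agent.R002
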