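import Crest.Agent.R002.Basic
import Crest.Prelude.Def_GaussMoat

set_option autoImplicit false

namespace Crest.Agent.R002

open Finset

theorem reduce_norm_eq {z π : GaussianInt} (hz : Irreducible z) (hπ : ¬ IsUnit π) (h : π ∣ z) :
    z.norm = π.norm := by
  obtain ⟨k, rfl⟩ := h
  rcases hz.isUnit_or_isUnit rfl with h1 | h1
  · exact absurd h1 hπ
  · have := (Zsqrtd.norm_eq_one_iff' (by norm_num) k).2 h1
    rw [Zsqrtd.norm_mul, this, mul_one]

theorem reduce_norm_le {z : GaussianInt} (hz : Irreducible z) {p : ℕ} (hp : p.Prime)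
    (h : (p : ℤ) ∣ z.norm) : z.norm ≤ (p : ℤ) ^ 2 := by
  have hn : (p : GaussianInt).norm = (p : ℤ) ^ 2 := by rw [Zsqrtd.norm_natCast, sq]
  have hp1 : (1 : ℤ) < p := by exact_mod_cast hp.one_lt
  have hp0 : (p : GaussianInt) ≠ 0 := by exact_mod_cast hp.ne_zero
  have hpu : ¬ IsUnit (p : GaussianInt) := by
    intro hu
    have := (Zsqrtd.norm_eq_one_iff' (by norm_num) _).2 hu
    rw [hn] at this
    nlinarith
  obtain ⟨π, hπ, hπp⟩ := WfDvdMonoid.exists_irreducible_factor hpu hp0
  have hle : π.norm ≤ (p : ℤ) ^ 2 := by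
    obtain ⟨k, hk⟩ := hπp
    refine Int.le_of_dvd (by positivity) ⟨k.norm, ?_⟩
    rw [← hn, hk, Zsqrtd.norm_mul]
  have hd : π ∣ z * star z := by
    refine hπp.trans ?_
    rw [← Zsqrtd.norm_eq_mul_conj]
    obtain ⟨k, hk⟩ := h
    exact ⟨(k : GaussianInt), by rw [hk]; push_cast; rfl⟩
  rcases hπ.prime.dvd_or_dvd hd with h1 | h1
  · rwa [reduce_norm_eq hz hπ.not_isUnit h1]
  · have h2 : star π ∣ z := by
      obtain ⟨k, hk⟩ := h1
      refine ⟨star k, ?_⟩
      have := congrArg star hk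
      rw [star_star, star_mul] at this
      rw [this, mul_comm]
    have h3 : ¬ IsUnit (star π) := fun hu => hπ.not_isUnit (isUnit_star.1 hu)
    rwa [reduce_norm_eq hz h3 h2, Zsqrtd.norm_conj]

/-- coordinates of a Gaussian integer -/
def reduceCo (z : GaussianInt) : V := (z.re, z.im)

theorem reduceCo_inj : Function.Injective reduceCo := by
  intro z w h
  simp only [reduceCo, Prod.mk.injEq] at h
  exact Zsqrtd.ext h.1 h.2

theorem reduce_box_of_not_avoid {z : GaussianInt} (hz : Irreducible z) {X : ℕ}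
    (h : ¬ Avoid X (reduceCo z)) : reduceCo z ∈ box X := by
  simp only [Avoid, not_forall, not_not] at h
  obtain ⟨p, hp, h4, hX, h0⟩ := h
  have hn : nrm (reduceCo z) = z.norm := by
    simp only [nrm, reduceCo, Zsqrtd.norm_def]; ring
  have h1 := rho_ker hp h4 h0
  rw [hn] at h1
  have h2 := reduce_norm_le hz hp h1
  rw [← hn] at h2
  have hX' : (p : ℤ) ≤ X := by exact_mod_cast hX
  have h3 : (p : ℤ) ^ 2 ≤ (X : ℤ) ^ 2 := by gcongr
  unfold nrm at h2
  rw [mem_box]
  constructor
  · exact abs_le_of_sq_le_sq' (by nlinarith [sq_nonneg (reduceCo z).2]) (by positivity) |> abs_le.2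
  · exact abs_le_of_sq_le_sq' (by nlinarith [sq_nonneg (reduceCo z).1]) (by positivity) |> abs_le.2

theorem reduce_step {D : ℝ} {z w : GaussianInt} (h : ‖GaussianInt.toComplex (z - w)‖ ≤ D) :
    reduceCo w - reduceCo z ∈ box ⌈D⌉₊ := by
  have hD : D ≤ ⌈D⌉₊ := Nat.le_ceil D
  have h1 := (Complex.abs_re_le_norm _).trans (h.trans hD)
  have h2 := (Complex.abs_im_le_norm _).trans (h.trans hD)
  rw [← GaussianInt.intCast_re] at h1
  rw [← GaussianInt.intCast_im] at h2
  have h1' : |(z - w).re| ≤ (⌈D⌉₊ : ℤ) := by exact_mod_cast h1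
  have h2' : |(z - w).im| ≤ (⌈D⌉₊ : ℤ) := by exact_mod_cast h2
  rw [← neg_sub]
  refine neg_mem_box (mem_box.2 ⟨?_, ?_⟩)
  · simpa [reduceCo] using h1'
  · simpa [reduceCo] using h2'

theorem reduce_short {D X n N : ℕ}
    (hX : ∀ y : ℕ → V, IsPath y n D → ∃ a, a < n ∧ ¬ Avoid X (y a)) {y : ℕ → V}
    (hy : IsPath y N D) (hb : ∀ a, a < N → ¬ Avoid X (y a) → y a ∈ box X) :
    N < ((2 * X + 1) ^ 2 + 1) * (n + 1) := by
  by_contra hN
  rw [not_lt] at hN
  have key : ∀ k : ℕ, k < (2 * X + 1) ^ 2 + 1 →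
      ∃ a, a < n ∧ k * (n + 1) + a < N ∧ y (k * (n + 1) + a) ∈ box X := by
    intro k hk
    have h1 : (k + 1) * (n + 1) ≤ ((2 * X + 1) ^ 2 + 1) * (n + 1) := Nat.mul_le_mul_right _ hk
    have h2 : k * (n + 1) + n ≤ N := by rw [add_mul] at h1; omega
    obtain ⟨a, ha, hav⟩ := hX _ (hy.shift (k * (n + 1)) n h2)
    exact ⟨a, ha, by omega, hb _ (by omega) hav⟩
  choose! g hg1 hg2 hg3 using key
  have hcard : (range ((2 * X + 1) ^ 2 + 1)).card ≤ (box X).card := by
    refine card_le_card_of_injOn (fun k => y (k * (n + 1) + g k)) (fun k hk => ?_)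
      (fun k hk k' hk' e => ?_)
    · exact hg3 k (by simpa using hk)
    · have hk1 : k < (2 * X + 1) ^ 2 + 1 := by simpa using hk
      have hk2 : k' < (2 * X + 1) ^ 2 + 1 := by simpa using hk'
      have e' := hy.inj _ (hg2 k hk1) _ (hg2 k' hk2) e
      have a1 := hg1 k hk1
      have a2 := hg1 k' hk2
      by_contra hne
      rcases Nat.lt_or_gt_of_ne hne with hl | hl
      · have : (k + 1) * (n + 1) ≤ k' * (n + 1) := Nat.mul_le_mul_right _ hl
        rw [add_mul] at this; omega
      · have : (k' + 1) * (n + 1) ≤ k * (n + 1) := Nat.mul_le_mul_right _ hl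
        rw [add_mul] at this; omega
  rw [card_range, card_box] at hcard
  omega

open Crest.NumberTheoryR in
theorem reduce_reach {D : ℝ} {X n : ℕ}
    (hX : ∀ y : ℕ → V, IsPath y n ⌈D⌉₊ → ∃ a, a < n ∧ ¬ Avoid X (y a)) {v w : GaussianInt}
    (h : (gaussianPrimeGraph D).Reachable v w) :
    reduceCo w - reduceCo v ∈ box (((2 * X + 1) ^ 2 + 1) * (n + 1) * ⌈D⌉₊) := by
  obtain ⟨p, hp⟩ := h.exists_isPath
  have hy : IsPath (fun i => reduceCo (p.getVert i)) (p.length + 1) ⌈D⌉₊ := by
    refine ⟨fun i hi j hj e => ?_, fun i hi => ?_⟩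
    · exact hp.getVert_injOn (show i ≤ p.length by omega) (show j ≤ p.length by omega)
        (reduceCo_inj e)
    · exact reduce_step (p.adj_getVert_succ (show i < p.length by omega)).2.2.2
  have hlen : p.length ≤ ((2 * X + 1) ^ 2 + 1) * (n + 1) := by
    have := reduce_short hX (hy.mono (Nat.le_succ _) le_rfl) (fun a ha hav =>
      reduce_box_of_not_avoid (p.adj_getVert_succ ha).2.1 hav)
    exact this.le
  have := hy.diff_mem (i := p.length) (j := 0) (m := ((2 * X + 1) ^ 2 + 1) * (n + 1))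
    (by omega) (by omega) (by omega) (by omega)
  simpa using this

open Crest.NumberTheoryR in
/-- **Reduction.**  Plan: `D' = ⌈D⌉₊`; from `¬ Long D'` get `X, n` such that no `D'`-path of
length `n` has all points avoiding `X`.  Put `m = ((2X+1)^2 + 1) * (n + 1)`,
`B = (2 m D' + 1)^2`.  Claim: every `w` reachable from `v` has `(w - v) ∈ box (m D')`
(coordinates `(z.re, z.im)`); then `c.supp` injects into a translate of the box
(`Set.Finite.subset`, `Set.ncard_le_ncard`, `card_box`).  Proof of the claim: take a path `p`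
(`Reachable.exists_isPath`), `y i = coordinates of p.getVert i`, an `IsPath` of length
`p.length + 1` with step `D'` (`IsPath.getVert_injOn`, `adj_getVert_succ`,
`|re|, |im| ≤ ‖·‖`).  If `p.length ≤ m` use `IsPath.diff_mem`.  Otherwise all vertices are
irreducible (each is an endpoint of an edge); an irreducible `z` with `rho p (z.re, z.im) = 0`,
`p ≤ X` has `p ∣ N z` (`rho_ker`), hence `N z ≤ X²` (`z` is prime and divides a rational prime
`q` dividing `N z = z z̄`, so `N z ∣ q²` and `p = q`), so it lies in `box X`.  At most `(2X+1)^2`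
indices are in `box X`, so one of the `(2X+1)^2 + 1` blocks of length `n + 1` has none:
`IsPath.shift` contradicts the choice of `X, n`. -/
theorem moat_of_not_long (h : ∀ D : ℕ, ¬ Long D) :
    ∀ D : ℝ, ∃ B : ℕ, ∀ c : (gaussianPrimeGraph D).ConnectedComponent,
      c.supp.Finite ∧ c.supp.ncard ≤ B := by
  intro D
  have h1 := h ⌈D⌉₊
  simp only [Long, not_forall, not_exists, not_and] at h1
  obtain ⟨X, n, hX⟩ := h1
  have hX' : ∀ y : ℕ → V, IsPath y n ⌈D⌉₊ → ∃ a, a < n ∧ ¬ Avoid X (y a) := by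
    intro y hy
    obtain ⟨a, ha, hav⟩ := hX y hy
    exact ⟨a, ha, hav⟩
  set R := ((2 * X + 1) ^ 2 + 1) * (n + 1) * ⌈D⌉₊
  refine ⟨(2 * R + 1) ^ 2, fun c => ?_⟩
  obtain ⟨v, hv⟩ := c.nonempty_supp
  have hinj : Set.InjOn (fun w => reduceCo w - reduceCo v) c.supp :=
    fun a _ b _ e => reduceCo_inj (sub_left_injective e)
  have hmaps : Set.MapsTo (fun w => reduceCo w - reduceCo v) c.supp (box R : Set V) := by
    intro w hw
    have hr : (gaussianPrimeGraph D).Reachable v w := by
      rw [SimpleGraph.ConnectedComponent.mem_supp_iff] at hv hw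
      exact SimpleGraph.ConnectedComponent.exact (hv.trans hw.symm)
    exact reduce_reach hX' hr
  refine ⟨Set.Finite.of_injOn hmaps hinj (box R).finite_toSet, ?_⟩
  have := Set.ncard_le_ncard_of_injOn _ hmaps hinj (box R).finite_toSet
  rwa [Set.ncard_coe_finset, card_box] at this

end Crest.Agent.R002
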