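import Crest.Agent.R002.Stretch

set_option autoImplicit false

namespace Crest.Agent.R002

open Finset

theorem stage_gg_pos {nn : ℕ → ℕ} {J : ℕ} (h : ∀ j, j < J → 0 < nn j) : 0 < gg nn J := by
  induction J with
  | zero => simp [gg]
  | succ J ih =>
    simp only [gg]
    exact Nat.mul_pos (ih fun j hj => h j (by omega)) (h J (by omega))

theorem stage_blocks {G i i' a a' : ℕ} (ha : a < G) (ha' : a' < G)
    (h : i * G + a = i' * G + a') : i = i' := by
  rcases lt_trichotomy i i' with hl | hl | hl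
  · have : (i + 1) * G ≤ i' * G := Nat.mul_le_mul_right _ hl
    rw [add_mul, one_mul] at this; omega
  · exact hl
  · have : (i' + 1) * G ≤ i * G := Nat.mul_le_mul_right _ hl
    rw [add_mul, one_mul] at this; omega

theorem stage_card_pairs (B : Finset V) (𝒞 : Finset (Finset V)) (Ad : V → Finset (Finset V))
    (κ : ℝ) (hκ : 0 ≤ κ) [DecidablePred fun xc : V × Finset V =>
      xc.2 ∈ Ad xc.1 ∧ ((Ad xc.1).card : ℝ) ≤ κ] :
    (((B ×ˢ 𝒞).filter (fun xc => xc.2 ∈ Ad xc.1 ∧ ((Ad xc.1).card : ℝ) ≤ κ)).card : ℝ) ≤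
      B.card * κ := by
  classical
  rw [card_eq_sum_card_fiberwise (f := Prod.fst) (t := B)
    (fun xc hxc => (mem_product.mp (mem_filter.mp (mem_coe.mp hxc)).1).1)]
  push_cast
  rw [← nsmul_eq_mul]
  refine sum_le_card_nsmul _ _ _ fun x _ => ?_
  by_cases hx : ((Ad x).card : ℝ) ≤ κ
  · refine le_trans ?_ hx
    refine Nat.cast_le.mpr (card_le_card_of_injOn Prod.snd ?_ ?_)
    · intro xc hxc
      simp only [coe_filter, mem_filter, Set.mem_ofPred_eq] at hxc
      rw [← hxc.2]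
      exact hxc.1.2.1
    · intro xc hxc xc' hxc' e
      simp only [coe_filter, mem_filter, Set.mem_ofPred_eq] at hxc hxc'
      exact Prod.ext (hxc.2.trans hxc'.2.symm) e
  · rw [filter_eq_empty_iff.mpr]
    · simpa using hκ
    · intro xc hxc e
      apply hx
      rw [← e]
      exact (mem_filter.mp hxc).2.2

/-- **One stage.**

Plan.  `Mb = ℓ^24`, `G = gg nn J * (Mb T)`, `Q = Qm J`, `S = sysOf P hP`.  New step `D' = 2 G D`,
radius `R' = Mb T D + R`.  For `z ∈ dom Q` let `Gz z` be the pairs `(x, C) ∈ box (Mb T D) ×ˢ 𝒞` with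
`C ∈ adm J (z+x)` and `|adm J (z+x)| ≤ exp (-2cℓ³) |𝒞|`; `|Gz z| ≤ |box| exp (-2cℓ³) |𝒞|`
(fibrewise).  New family: the sets `univ.biUnion (fun k => (f k).2.image ((f k).1 + ·))`,
`f ∈ Fintype.piFinset (fun _ : Fin Mb => Gz z)`, `z ∈ dom Q`, filtered by
`card = (ℓ^9)^3 ∧ ⊆ box R'`.  Its size is `≤ Q² (|box| exp (-2cℓ³) exp (hℓ³))^Mb ≤ exp ((h-c) ℓ^27)`
by `hcost` (`2 Mb T D + 1 ≤ Mb T exp ℓ`); the radius bounds follow from `hG` (`gg ≥ 1`, `T ≥ 1`).
Given `X, n` take the level-`ℓ` path for `max X (P.sup id)` and length `n G`.  Real labels are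
admissible (`Avoid`), so `good_stretch` applies to each window `t ↦ y (i G + t)`: `s i`, `a i k`.
New base points `y (i G + s i)` (`IsPath.blocks`), new label
`⋃ k, (y (iG + a i k) - y (iG + s i)) + lab (iG + a i k)`, `z = red Q (base)` (`adm_red`);
the indices `iG + a i k` are distinct for distinct `(i,k)`, so the pieces are disjoint
(`card_biUnion`, `Mb * ℓ^3 = (ℓ^9)^3`). -/
theorem stage_of_par {P : Finset ℕ} {hP : ∀ p ∈ P, p.Prime ∧ p % 4 = 1} {rg : P → ℕ}
    {ℓ J r T : ℕ} {H σ : ℕ → ℝ} {M Qm nn : ℕ → ℕ} {η ω c : ℝ}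
    (hp : Par (sysOf P hP) rg ℓ J r T H σ M Qm nn η ω c) {h : ℝ} (hL : Level ℓ h) :
    Level (ℓ ^ 9) (h - c) := by
  classical
  obtain ⟨𝒞, D, R, hD, hR, hcard, h𝒞, hpath⟩ := hL
  set S := sysOf P hP with hS
  have hT1 : 1 ≤ T := by
    have := (Real.exp_pos _).trans_le hp.hT
    exact_mod_cast this
  have hgg : 0 < gg nn J := stage_gg_pos fun j hj => by
    have := (Real.exp_pos _).trans_le (hp.hn j hj)
    exact_mod_cast this
  have hℓ0 : 0 < ℓ := by have := hp.hℓ; omega
  obtain ⟨Mb, hMb⟩ : ∃ Mb, Mb = ℓ ^ 24 := ⟨_, rfl⟩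
  have hMb0 : 0 < Mb := hMb ▸ pow_pos hℓ0 _
  have hMbR : (Mb : ℝ) = (ℓ : ℝ) ^ 24 := by rw [hMb]; push_cast; rfl
  obtain ⟨G, hG⟩ : ∃ G, G = gg nn J * (Mb * T) := ⟨_, rfl⟩
  have hMT : 0 < Mb * T := Nat.mul_pos hMb0 hT1
  have hMTG : Mb * T ≤ G := hG ▸ Nat.le_mul_of_pos_left _ hgg
  have hGexp : 2 * (G : ℝ) * Real.exp ℓ ≤ Real.exp ((ℓ ^ 9 : ℕ) : ℝ) := by
    have := hp.hG
    rw [hG]; push_cast; rw [hMbR]
    linarith
  have hMT1 : (1 : ℝ) ≤ (Mb * T : ℕ) := by exact_mod_cast hMT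
  have hMTG' : ((Mb * T : ℕ) : ℝ) ≤ G := by exact_mod_cast hMTG
  have hD0 : (0 : ℝ) ≤ D := Nat.cast_nonneg _
  have hbox : (2 * ((Mb * T * D : ℕ) : ℝ) + 1) ≤ (Mb * T : ℕ) * Real.exp ℓ := by
    have := mul_le_mul_of_nonneg_left hD (show (0 : ℝ) ≤ (Mb * T : ℕ) by linarith)
    rw [Nat.cast_mul (Mb * T)]
    nlinarith
  set κ : ℝ := Real.exp (-(2 * c * (ℓ : ℝ) ^ 3)) * 𝒞.card with hκ
  have hκ0 : 0 ≤ κ := by positivity
  let Gz : V → Finset (V × Finset V) := fun z => (box (Mb * T * D) ×ˢ 𝒞).filter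
    (fun xc => xc.2 ∈ adm S rg 𝒞 J (z + xc.1) ∧ ((adm S rg 𝒞 J (z + xc.1)).card : ℝ) ≤ κ)
  have hGz : ∀ z, ((Gz z).card : ℝ) ≤ (box (Mb * T * D)).card * κ := fun z =>
    stage_card_pairs _ 𝒞 (fun x => adm S rg 𝒞 J (z + x)) κ hκ0
  let un : (Fin Mb → V × Finset V) → Finset V := fun f =>
    univ.biUnion (fun k => (f k).2.image (fun c => (f k).1 + c))
  let 𝒞' : Finset (Finset V) := ((dom (Qm J)).biUnion
    (fun z => (Fintype.piFinset (fun _ : Fin Mb => Gz z)).image un)).filter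
      (fun C => C.card = (ℓ ^ 9) ^ 3 ∧ C ⊆ box (Mb * T * D + R))
  refine ⟨𝒞', 2 * G * D, Mb * T * D + R, ?_, ?_, ?_, fun C hC => (mem_filter.mp hC).2, ?_⟩
  · refine le_trans ?_ hGexp
    have := mul_le_mul_of_nonneg_left hD (show (0 : ℝ) ≤ 2 * G by positivity)
    push_cast
    nlinarith
  · refine le_trans ?_ hGexp
    rw [Nat.cast_add]
    have := Real.exp_pos (ℓ : ℝ)
    nlinarith
  · have hQ : (0 : ℝ) < Qm J := by exact_mod_cast hp.hQ0 J le_rfl
    have h1 : (𝒞'.card : ℝ) ≤ (Qm J : ℝ) ^ 2 * ((box (Mb * T * D)).card * κ) ^ Mb := by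
      have h2 : 𝒞'.card ≤ ∑ z ∈ dom (Qm J), (Gz z).card ^ Mb := by
        refine (card_filter_le _ _).trans (card_biUnion_le.trans (sum_le_sum fun z _ => ?_))
        refine card_image_le.trans ?_
        simp [Fintype.card_piFinset]
      have h3 : (𝒞'.card : ℝ) ≤ ∑ z ∈ dom (Qm J), ((Gz z).card : ℝ) ^ Mb := by exact_mod_cast h2
      refine h3.trans ((sum_le_card_nsmul _ _ _ fun z _ =>
        pow_le_pow_left₀ (Nat.cast_nonneg _) (hGz z) Mb).trans ?_)
      rw [card_dom, nsmul_eq_mul]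
      push_cast
      exact le_rfl
    have h4 : ((box (Mb * T * D)).card : ℝ) * κ ≤
        Real.exp (2 * (Real.log ((ℓ : ℝ) ^ 24 * T) + ℓ) - 2 * c * (ℓ : ℝ) ^ 3 +
          h * (ℓ : ℝ) ^ 3) := by
      have e1 : ((Mb * T : ℕ) : ℝ) * Real.exp ℓ = Real.exp (Real.log ((ℓ : ℝ) ^ 24 * T) + ℓ) := by
        rw [Real.exp_add, Real.exp_log (by rw [← hMbR]; exact_mod_cast hMT), Nat.cast_mul, hMbR]
      have h5 : ((box (Mb * T * D)).card : ℝ) ≤
          Real.exp (2 * (Real.log ((ℓ : ℝ) ^ 24 * T) + ℓ)) := by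
        rw [card_box, two_mul (Real.log _ + _), Real.exp_add, ← e1, ← sq]
        rw [Nat.cast_pow, Nat.cast_add, Nat.cast_mul 2]
        exact pow_le_pow_left₀ (by positivity) (by simpa using hbox) 2
      rw [sub_eq_add_neg, add_assoc, Real.exp_add, Real.exp_add (-_)]
      exact mul_le_mul h5 (mul_le_mul_of_nonneg_left hcard (Real.exp_pos _).le) hκ0
        (Real.exp_pos _).le
    refine h1.trans ?_
    refine (mul_le_mul_of_nonneg_left (pow_le_pow_left₀ (by positivity) h4 Mb)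
      (by positivity)).trans ?_
    rw [← Real.exp_nat_mul, ← Real.exp_log (pow_pos hQ 2), ← Real.exp_add, Real.exp_le_exp,
      Real.log_pow, hMbR]
    have := hp.hcost
    push_cast
    nlinarith
  · intro X n
    obtain ⟨y, lab, hy, hlab, hdisj⟩ := hpath (max X (P.sup id)) (n * G)
    have hadm : ∀ a, a < n * G → lab a ∈ adm S rg 𝒞 J (y a) := by
      intro a ha
      rw [mem_adm]
      refine ⟨(hlab a ha).1, fun i _ c hc => ?_⟩
      exact (hlab a ha).2 c hc i.1 (hP i.1 i.2).1 (hP i.1 i.2).2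
        (le_max_of_le_right (Finset.le_sup (f := id) i.2))
    have hwin : ∀ i, i < n → i * G + G ≤ n * G := fun i hi => by
      have : (i + 1) * G ≤ n * G := Nat.mul_le_mul_right _ hi
      rwa [add_mul, one_mul] at this
    have hex : ∀ i, ∃ (s : ℕ) (a : ℕ → ℕ), i < n → s + Mb * T ≤ G ∧ ∀ k, k < Mb →
        s + k * T ≤ a k ∧ a k < s + (k + 1) * T ∧
          ((adm S rg 𝒞 J (y (i * G + a k))).card : ℝ) ≤ κ := by
      intro i
      by_cases hi : i < n
      · have hy' := hy.shift (i * G) G (hwin i hi)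
        obtain ⟨s, hs, ha⟩ := good_stretch hp 𝒞 R D hD hR h𝒞 (y := fun t => y (i * G + t))
          (by rw [← hMb, ← hG]; exact hy')
          (fun a ha => ⟨_, hadm _ (by
            rw [← hMb, ← hG] at ha
            have := hwin i hi; omega)⟩)
        rw [← hMb] at hs ha
        rw [← hG] at hs
        choose! a ha using ha
        exact ⟨s, a, fun _ => ⟨hs, ha⟩⟩
      · exact ⟨0, id, fun h => absurd h hi⟩
    choose s a hsa using hex
    have haub : ∀ i, i < n → ∀ k, k < Mb → a i k < s i + Mb * T := by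
      intro i hi k hk
      have h1 := ((hsa i hi).2 k hk).2.1
      have : (k + 1) * T ≤ Mb * T := Nat.mul_le_mul_right _ hk
      omega
    have haG : ∀ i, i < n → ∀ k, k < Mb → a i k < G := fun i hi k hk => by
      have := haub i hi k hk; have := (hsa i hi).1; omega
    have hidx : ∀ i, i < n → ∀ k, k < Mb → i * G + a i k < n * G := fun i hi k hk => by
      have := haG i hi k hk; have := hwin i hi; omega
    have hainj : ∀ i, i < n → ∀ k, k < Mb → ∀ k', k' < Mb → a i k = a i k' → k = k' := by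
      intro i hi k hk k' hk' e
      have h1 := (hsa i hi).2 k hk
      have h2 := (hsa i hi).2 k' hk'
      rw [add_mul, one_mul] at h1 h2
      exact stage_blocks (G := T) (a := a i k - s i - k * T) (a' := a i k' - s i - k' * T)
        (by omega) (by omega) (by omega)
    let f : ℕ → Fin Mb → V × Finset V := fun i k =>
      (y (i * G + a i k) - y (i * G + s i), lab (i * G + a i k))
    have hmem : ∀ i c', c' ∈ un (f i) → ∃ k : Fin Mb, ∃ c ∈ lab (i * G + a i k),
        y (i * G + s i) + c' = y (i * G + a i k) + c := by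
      intro i c' hc'
      simp only [un, f, mem_biUnion, mem_univ, true_and, mem_image] at hc'
      obtain ⟨k, c, hc, rfl⟩ := hc'
      exact ⟨k, c, hc, by abel⟩
    have hx : ∀ i, i < n → ∀ k : Fin Mb, (f i k).1 ∈ box (Mb * T * D) := by
      intro i hi k
      have h1 := haub i hi k k.2
      have h2 := ((hsa i hi).2 k k.2).1
      have h3 := (hsa i hi).1
      have h4 := hwin i hi
      exact hy.diff_mem (hidx i hi k k.2) (by omega) (by omega) (by omega)
    refine ⟨fun i => y (i * G + s i), fun i => un (f i), ?_, ?_, ?_⟩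
    · refine hy.blocks (fun i => i * G + s i) 0 n G (by omega) fun i hi => ?_
      have := (hsa i hi).1
      rw [add_mul, one_mul]
      omega
    · intro i hi
      refine ⟨mem_filter.mpr ⟨mem_biUnion.mpr ⟨red (Qm J) (y (i * G + s i)),
        red_mem_dom (hp.hQ0 J le_rfl) _, mem_image_of_mem _ ?_⟩, ?_, ?_⟩, ?_⟩
      · rw [Fintype.mem_piFinset]
        intro k
        have e : adm S rg 𝒞 J (red (Qm J) (y (i * G + s i)) + (f i k).1) =
            adm S rg 𝒞 J (y (i * G + a i k)) := by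
          rw [adm_red S rg 𝒞 (hp.hQd J le_rfl)]
          simp [f]
        refine mem_filter.mpr ⟨mem_product.mpr ⟨hx i hi k, (hlab _ (hidx i hi k k.2)).1⟩, ?_⟩
        rw [e]
        exact ⟨hadm _ (hidx i hi k k.2), ((hsa i hi).2 k k.2).2.2⟩
      · rw [card_biUnion]
        · rw [sum_congr rfl (g := fun _ => ℓ ^ 3)]
          · simp only [sum_const, card_univ, Fintype.card_fin, smul_eq_mul]
            rw [hMb]; ring
          · intro k _
            rw [card_image_of_injective _ (add_right_injective _)]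
            exact (h𝒞 _ (hlab _ (hidx i hi k k.2)).1).1
        · intro k _ k' _ hkk
          rw [Function.onFun, disjoint_left]
          intro c' h1 h2
          simp only [f, mem_image] at h1 h2
          obtain ⟨c₁, hc₁, e₁⟩ := h1
          obtain ⟨c₂, hc₂, e₂⟩ := h2
          have e : y (i * G + a i k) + c₁ = y (i * G + a i k') + c₂ := by
            have := e₁.trans e₂.symm
            linear_combination (exp := 1) this
          have := hdisj _ (hidx i hi k k.2) _ (hidx i hi k' k'.2) c₁ hc₁ c₂ hc₂ e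
          exact hkk (Fin.ext (hainj i hi k k.2 k' k'.2 (by omega)))
      · intro c' hc'
        simp only [un, mem_biUnion, mem_univ, true_and, mem_image] at hc'
        obtain ⟨k, c, hc, rfl⟩ := hc'
        exact add_mem_box (hx i hi k) ((h𝒞 _ (hlab _ (hidx i hi k k.2)).1).2 hc)
      · intro c' hc'
        obtain ⟨k, c, hc, e⟩ := hmem i c' hc'
        rw [e]
        intro p hp1 hp2 hpX
        exact (hlab _ (hidx i hi k k.2)).2 c hc p hp1 hp2 (le_max_of_le_left hpX)
    · intro i hi i' hi' c₁ hc₁ c₂ hc₂ e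
      obtain ⟨k, c, hc, e₁⟩ := hmem i c₁ hc₁
      obtain ⟨k', c', hc', e₂⟩ := hmem i' c₂ hc₂
      have := hdisj _ (hidx i hi k k.2) _ (hidx i' hi' k' k'.2) c hc c' hc'
        (e₁.symm.trans (e.trans e₂))
      exact stage_blocks (haG i hi k k.2) (haG i' hi' k' k'.2) this

end Crest.Agent.R002
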