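import Crest.Agent.R002.LemmaW
import Crest.Agent.R002.Range

set_option autoImplicit false

namespace Crest.Agent.R002

open Finset

/-- **Colour induction.**  Induction on `J` (generalising `s`): either every one of the `nn J`
blocks of length `gg nn J` contains colour `J`, or some block has all colours `< J`. -/
theorem colour (nn col : ℕ → ℕ) (J s : ℕ) (h : ∀ a, s ≤ a → a < s + gg nn J → col a < J) :
    ∃ j, j < J ∧ ∃ (s' : ℕ) (φ : ℕ → ℕ), s ≤ s' ∧ s' + nn j * gg nn j ≤ s + gg nn J ∧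
      ∀ a, a < nn j → s' + a * gg nn j ≤ φ a ∧ φ a < s' + (a + 1) * gg nn j ∧ col (φ a) = j := by
  induction J generalizing s with
  | zero => exact absurd (h s le_rfl (by simp [gg])) (by omega)
  | succ J ih =>
    have hg : gg nn (J + 1) = gg nn J * nn J := rfl
    by_cases hall : ∀ a, a < nn J →
        ∃ b, s + a * gg nn J ≤ b ∧ b < s + (a + 1) * gg nn J ∧ col b = J
    · choose! φ hφ using hall
      exact ⟨J, by omega, s, φ, le_rfl, by rw [hg, mul_comm], hφ⟩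
    · push Not at hall
      obtain ⟨a, ha, hb⟩ := hall
      have h1 : (a + 1) * gg nn J ≤ nn J * gg nn J := Nat.mul_le_mul_right _ ha
      have h2 : (a + 1) * gg nn J = a * gg nn J + gg nn J := by ring
      have h3 : gg nn J * nn J = nn J * gg nn J := mul_comm _ _
      obtain ⟨j, hj, s', φ, hs1, hs2, hφ⟩ := ih (s + a * gg nn J) (fun b hb1 hb2 => by
        have h4 := h b (by omega) (by omega)
        have h5 := hb b hb1 (by omega)
        omega)
      exact ⟨j, by omega, s', φ, by omega, by omega, hφ⟩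

variable {ι : Type} [Fintype ι] [DecidableEq ι]

/-- **A stretch of good windows.**

Plan.  Suppose not.  For each `i < gg nn J` (stretch `s = i ℓ^24 T`) there is `k < ℓ^24` such that
all points of the window starting at `b i = s + k T` are bad, i.e.
`|adm J| > exp (-2cℓ³) |𝒞|`, hence `log |𝒞| - log |adm J| ≤ 2cℓ³` (`|𝒞| > 0` by `hne`).
`lemmaW` (for `IsPath.shift`, `Λ = 8 log ℓ ≥ 1`) gives a colour `col i < J`.  `i ↦ y (b i)` is a
path with step `2 (ℓ^24 T) D` (`IsPath.blocks`); `colour` (with `s = 0`) gives `j, s', φ` and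
again `IsPath.blocks` a path of length `nn j` with step `D' = 2 (gg nn j) (2 (ℓ^24 T) D)`;
`4D'+1 ≤ 4 gg ℓ^24 T (4D+1)` (`T ≥ 1` from `hT`, `gg ≥ 1` from `hn`).  `range_false` with
`yw a t = y (b (φ a) + t)`, `Rx = T D` (`IsPath.diff_mem`), `L = ℓ^3`, `adm_anti`,
`log (2 (2TD+1)²) ≤ log 2 + 2 log T + 2ℓ`. -/
theorem good_stretch {S : Sys ι} {rg : ι → ℕ} {ℓ J r T : ℕ} {H σ : ℕ → ℝ} {M Qm nn : ℕ → ℕ}
    {η ω c : ℝ} (hp : Par S rg ℓ J r T H σ M Qm nn η ω c) (𝒞 : Finset (Finset V)) (R D : ℕ)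
    (hD : (4 * D + 1 : ℝ) ≤ Real.exp ℓ) (hR : (2 * R + 1 : ℝ) ≤ Real.exp ℓ)
    (h𝒞 : ∀ C ∈ 𝒞, C.card = ℓ ^ 3 ∧ C ⊆ box R) {y : ℕ → V}
    (hy : IsPath y (gg nn J * (ℓ ^ 24 * T)) D)
    (hne : ∀ a, a < gg nn J * (ℓ ^ 24 * T) → (adm S rg 𝒞 J (y a)).Nonempty) :
    ∃ s, s + ℓ ^ 24 * T ≤ gg nn J * (ℓ ^ 24 * T) ∧ ∀ k, k < ℓ ^ 24 →
      ∃ a, s + k * T ≤ a ∧ a < s + (k + 1) * T ∧
        ((adm S rg 𝒞 J (y a)).card : ℝ) ≤ Real.exp (-(2 * c * (ℓ : ℝ) ^ 3)) * 𝒞.card := by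
  by_contra hcon
  push Not at hcon
  set G := gg nn J with hG
  set W := ℓ ^ 24 * T with hW
  have hℓ := hp.hℓ
  have hℓR : (5 : ℝ) ≤ ℓ := by exact_mod_cast hℓ
  have hT1R : (0 : ℝ) < T := (Real.exp_pos _).trans_le hp.hT
  have hT1 : 0 < T := by exact_mod_cast hT1R
  have hTR : (1 : ℝ) ≤ T := by exact_mod_cast hT1
  have hΛ1 : (1 : ℝ) ≤ 8 * Real.log ℓ := by
    have h1 : Real.log 2 ≤ Real.log ℓ := Real.log_le_log (by norm_num) (by linarith)
    have := Real.log_two_gt_d9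
    linarith
  have hiW : ∀ i, i < G → i * W + W ≤ G * W := fun i hi => by
    have : (i + 1) * W ≤ G * W := Nat.mul_le_mul_right _ hi
    rwa [add_mul, one_mul] at this
  have hk : ∀ i, i < G → ∃ k, k < ℓ ^ 24 ∧ ∀ a, i * W + k * T ≤ a → a < i * W + (k + 1) * T →
      Real.exp (-(2 * c * (ℓ : ℝ) ^ 3)) * 𝒞.card < ((adm S rg 𝒞 J (y a)).card : ℝ) :=
    fun i hi => hcon (i * W) (hiW i hi)
  choose! k hk1 hk2 using hk
  set b : ℕ → ℕ := fun i => i * W + k i * T with hb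
  have hbW : ∀ i, i < G → b i + T ≤ i * W + W := fun i hi => by
    have h1 : (k i + 1) * T ≤ ℓ ^ 24 * T := Nat.mul_le_mul_right _ (hk1 i hi)
    rw [add_mul, one_mul] at h1
    simp only [hb]
    omega
  have hbG : ∀ i, i < G → b i + T ≤ G * W := fun i hi => (hbW i hi).trans (hiW i hi)
  have hcol : ∀ i, i < G → ∃ j, j < J ∧ NeverStuck S rg 𝒞 ℓ R T η j (fun t => y (b i + t)) := by
    intro i hi
    refine lemmaW S rg 𝒞 ℓ R D T J r (8 * Real.log ℓ) ω η (2 * c * (ℓ : ℝ) ^ 3) hp.hJ hℓ hp.hΛ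
      hΛ1 hp.hω1 hR hD hp.hr hp.hω2 hp.hT hp.hη.le hp.hκ (hy.shift (b i) T (hbG i hi)) ?_
    intro a ha
    have h1 := hk2 i hi (b i + a) (by simp only [hb]; omega)
      (by simp only [hb, add_mul, one_mul]; omega)
    have h2 : 𝒞.Nonempty :=
      (hne (b i + a) (by have := hbG i hi; omega)).mono (adm_subset S rg 𝒞 J _)
    have h3 : (0 : ℝ) < 𝒞.card := by exact_mod_cast h2.card_pos
    have h4 := Real.log_le_log (mul_pos (Real.exp_pos _) h3) h1.le
    rw [Real.log_mul (Real.exp_pos _).ne' h3.ne', Real.log_exp] at h4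
    linarith
  choose! col hcol1 hcol2 using hcol
  obtain ⟨j, hj, s', φ, -, hs, hφ⟩ := colour nn col J 0 (fun a _ ha => hcol1 a (by omega))
  set g := gg nn j with hg
  have hφG : ∀ a, a < nn j → φ a < G := fun a ha => by
    have h1 : (a + 1) * g ≤ nn j * g := Nat.mul_le_mul_right _ ha
    have := (hφ a ha).2.1
    omega
  have hnj : 0 < nn j := by
    have : (0 : ℝ) < nn j := (Real.exp_pos _).trans_le (hp.hn j hj)
    exact_mod_cast this
  have hg1 : 1 ≤ g := by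
    have := hφ 0 hnj
    omega
  have hg1R : (1 : ℝ) ≤ g := by exact_mod_cast hg1
  have path1 : IsPath (fun i => y (b i)) G (2 * W * D) :=
    hy.blocks b 0 G W (by omega) (fun i hi => by
      have := hbW i hi
      rw [add_mul, one_mul]
      refine ⟨by simp only [hb]; omega, by omega⟩)
  have path2 : IsPath (fun a => y (b (φ a))) (nn j) (2 * g * (2 * W * D)) :=
    path1.blocks φ s' (nn j) g (by omega) (fun a ha => ⟨(hφ a ha).1, (hφ a ha).2.1⟩)
  have hD0 : (0 : ℝ) ≤ D := Nat.cast_nonneg _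
  refine range_false S rg 𝒞 ℓ (ℓ ^ 3) R (T * D) T j (M j) (nn j) (2 * g * (2 * W * D)) (Qm j)
    (H j) η (σ j) h𝒞 (by positivity) (hp.hH j hj) (fun i hi => ?_) hp.hΛ hR (by omega)
    (hp.hP j hj) hp.hη (by exact_mod_cast hp.hM j hj) (hp.hQ0 j hj.le) (hp.hQd j hj.le)
    (hp.hσ1 j hj) (hp.hσ2 j hj) ?_ ?_ (hp.hω3 j hj) (hp.hn j hj)
    (fun a t => y (b (φ a) + t)) (by simpa using path2) (fun a ha t ht => ?_)
    (fun a ha t ht => ?_) (fun a ha => ?_)
  · have := hp.hq i (by omega)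
    rwa [hi] at this
  · refine le_trans ?_ (hp.hD j hj)
    have h24 : (1 : ℝ) ≤ (ℓ : ℝ) ^ 24 := one_le_pow₀ (by linarith)
    have hX : (1 : ℝ) ≤ (g : ℝ) * (ℓ : ℝ) ^ 24 * T :=
      one_le_mul_of_one_le_of_one_le (one_le_mul_of_one_le_of_one_le hg1R h24) hTR
    have h1 : 4 * ((g : ℝ) * (ℓ : ℝ) ^ 24 * T) * (4 * D + 1) ≤
        4 * ((g : ℝ) * (ℓ : ℝ) ^ 24 * T) * Real.exp ℓ :=
      mul_le_mul_of_nonneg_left hD (by positivity)
    rw [hW]
    push_cast
    nlinarith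
  · refine le_trans ?_ (hp.hb j hj)
    have h1 : (2 * ((T * D : ℕ) : ℝ) + 1) ≤ T * Real.exp ℓ := by
      have : (T : ℝ) * (4 * D + 1) ≤ T * Real.exp ℓ := mul_le_mul_of_nonneg_left hD hT1R.le
      push_cast
      nlinarith [mul_nonneg hT1R.le hD0]
    have h0 : (0 : ℝ) < 2 * ((T * D : ℕ) : ℝ) + 1 := by positivity
    have h2 := Real.log_le_log h0 h1
    rw [Real.log_mul hT1R.ne' (Real.exp_pos _).ne', Real.log_exp] at h2
    have h3 : Real.log (2 * (2 * ((T * D : ℕ) : ℝ) + 1) ^ 2) ≤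
        Real.log 2 + 2 * Real.log T + 2 * ℓ := by
      rw [Real.log_mul (by norm_num) (by positivity), Real.log_pow]
      push_cast at h2 ⊢
      linarith
    have h4 := mul_le_mul_of_nonneg_left h3 (Nat.cast_nonneg (α := ℝ) (M j))
    have h5 : ((ℓ ^ 3 : ℕ) : ℝ) = (ℓ : ℝ) ^ 3 := by push_cast; rfl
    rw [h5]
    linarith
  · have := hbG _ (hφG a ha)
    exact hy.diff_mem (by omega) (by omega) (by omega) (by omega)
  · have := hbG _ (hφG a ha)
    exact (hne _ (by omega)).mono (adm_anti S rg 𝒞 hj _)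
  · have := hcol2 _ (hφG a ha)
    rwa [(hφ a ha).2.2] at this

end Crest.Agent.R002
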