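import Crest.Agent.R002.Basic

set_option autoImplicit false

namespace Crest.Agent.R002

open Finset

/-- The law of the state after `m` lazy steps of the reference chain. -/
noncomputable def treeMeas {σ ε : Type} [DecidableEq σ] (E : Finset ε) (step : σ → ε → σ)
    (μ : ε → ℝ) : ℕ → σ → σ → ℝ
  | 0 => fun A B => if A = B then 1 else 0
  | m + 1 => fun A B =>
      (treeMeas E step μ m A B + ∑ e ∈ E, μ e * treeMeas E step μ m (step A e) B) / 2

theorem treeMeas_nonneg {σ ε : Type} [DecidableEq σ] (E : Finset ε) (step : σ → ε → σ)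
    {μ : ε → ℝ} (hμ0 : ∀ e, 0 ≤ μ e) (m : ℕ) : ∀ A B, 0 ≤ treeMeas E step μ m A B := by
  induction m with
  | zero => intro A B; simp only [treeMeas]; split_ifs <;> norm_num
  | succ m ih =>
    intro A B
    simp only [treeMeas]
    exact div_nonneg (add_nonneg (ih _ _) (sum_nonneg fun e _ => mul_nonneg (hμ0 e) (ih _ _)))
      (by norm_num)

theorem treeMeas_sum_succ {σ ε : Type} [DecidableEq σ] (E : Finset ε) (step : σ → ε → σ)
    (μ : ε → ℝ) (m : ℕ) (A : σ) (G : Finset σ) :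
    ∑ B ∈ G, treeMeas E step μ (m + 1) A B = (∑ B ∈ G, treeMeas E step μ m A B +
      ∑ e ∈ E, μ e * ∑ B ∈ G, treeMeas E step μ m (step A e) B) / 2 := by
  simp only [treeMeas]
  rw [← sum_div, sum_add_distrib, sum_comm]
  simp only [mul_sum]

theorem treeMeas_sum_le {σ ε : Type} [Fintype σ] [DecidableEq σ] (E : Finset ε)
    (step : σ → ε → σ) {μ : ε → ℝ} (hμ0 : ∀ e, 0 ≤ μ e) (hμ1 : ∑ e ∈ E, μ e ≤ 1) (m : ℕ) :
    ∀ A, ∑ B, treeMeas E step μ m A B ≤ 1 := by
  induction m with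
  | zero => intro A; simp [treeMeas]
  | succ m ih =>
    intro A
    rw [treeMeas_sum_succ]
    have : ∑ e ∈ E, μ e * ∑ B, treeMeas E step μ m (step A e) B ≤ ∑ e ∈ E, μ e :=
      sum_le_sum fun e _ => mul_le_of_le_one_right (hμ0 e) (ih _)
    linarith [ih A]

/-- **Abstract greedy tree.** -/
theorem tree {σ ε : Type} [Fintype σ] [DecidableEq σ] (E : Finset ε) (step : σ → ε → σ)
    (μ : ε → ℝ) (hμ0 : ∀ e, 0 ≤ μ e) (hμ1 : ∑ e ∈ E, μ e ≤ 1) (M : ℕ) (A₀ : σ) :
    ∃ ν : σ → ℝ, (∀ B, 0 ≤ ν B) ∧ ∑ B, ν B ≤ 1 ∧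
      ∀ (Inv Done : σ → Prop) (G : Finset σ) (Ψ : σ → ℝ) (u κ b : ℝ), 0 ≤ κ → 0 ≤ u → 0 ≤ b →
        (∀ A, Inv A → Done A → A ∈ G) → (∀ A, Inv A → 0 ≤ Ψ A) →
        (∀ A, Inv A → ¬ Done A → ∃ Δ : ℝ, 0 ≤ Δ ∧ ∃ E' : Finset ε, E' ⊆ E ∧
          Real.exp (-(b + κ * Δ)) ≤ ∑ e ∈ E', μ e ∧
          ∀ e ∈ E', Inv (step A e) ∧ Ψ (step A e) ≤ Ψ A - u - Δ) →
        Inv A₀ → Ψ A₀ < M * u →
        Real.exp (-(M * (b + Real.log 2) + κ * Ψ A₀)) ≤ ∑ B ∈ G, ν B := by
  refine ⟨treeMeas E step μ M A₀, treeMeas_nonneg E step hμ0 M A₀,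
    treeMeas_sum_le E step hμ0 hμ1 M A₀, ?_⟩
  intro Inv Done G Ψ u κ b hκ hu hb hG hΨ hstep hI₀ hΨ₀
  have hnn : ∀ m A, 0 ≤ ∑ B ∈ G, treeMeas E step μ m A B :=
    fun m A => sum_nonneg fun B _ => treeMeas_nonneg E step hμ0 m A B
  have hhalf : Real.exp (-Real.log 2) = 1 / 2 := by
    rw [Real.exp_neg, Real.exp_log (by norm_num)]; norm_num
  have key : ∀ (m : ℕ) (A : σ), Inv A → (Done A ∨ Ψ A < m * u) →
      Real.exp (-(m * (b + Real.log 2) + κ * Ψ A)) ≤ ∑ B ∈ G, treeMeas E step μ m A B := by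
    intro m
    induction m with
    | zero =>
      intro A hA h
      have hD : Done A := h.resolve_right (by simpa using hΨ A hA)
      have : ∑ B ∈ G, treeMeas E step μ 0 A B = 1 := by
        simp [treeMeas, hG A hA hD]
      rw [this, Real.exp_le_one_iff]
      have := mul_nonneg hκ (hΨ A hA)
      simp only [Nat.cast_zero, zero_mul, zero_add]
      linarith
    | succ m ih =>
      intro A hA h
      rw [treeMeas_sum_succ]
      have hrest : 0 ≤ ∑ e ∈ E, μ e * ∑ B ∈ G, treeMeas E step μ m (step A e) B :=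
        sum_nonneg fun e _ => mul_nonneg (hμ0 e) (hnn _ _)
      by_cases hD : Done A
      · have h1 := ih A hA (Or.inl hD)
        have h2 : Real.exp (-(((m + 1 : ℕ) : ℝ) * (b + Real.log 2) + κ * Ψ A)) ≤
            Real.exp (-(m * (b + Real.log 2) + κ * Ψ A)) * Real.exp (-Real.log 2) := by
          rw [← Real.exp_add, Real.exp_le_exp]
          push_cast
          linarith
        rw [hhalf] at h2
        linarith
      · have hlt : Ψ A < (m + 1 : ℕ) * u := h.resolve_left hD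
        obtain ⟨Δ, hΔ, E', hE', hm, hE⟩ := hstep A hA hD
        have h1 : ∀ e ∈ E', Real.exp (-(m * (b + Real.log 2) + κ * (Ψ A - Δ))) ≤
            ∑ B ∈ G, treeMeas E step μ m (step A e) B := by
          intro e he
          obtain ⟨hi, hp⟩ := hE e he
          refine le_trans ?_ (ih _ hi (Or.inr ?_))
          · rw [Real.exp_le_exp]
            have := mul_le_mul_of_nonneg_left (show Ψ (step A e) ≤ Ψ A - Δ by linarith) hκ
            linarith
          · push_cast at hlt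
            linarith
        have h2 : (∑ e ∈ E', μ e) * Real.exp (-(m * (b + Real.log 2) + κ * (Ψ A - Δ))) ≤
            ∑ e ∈ E, μ e * ∑ B ∈ G, treeMeas E step μ m (step A e) B := by
          rw [sum_mul]
          refine (sum_le_sum fun e he => mul_le_mul_of_nonneg_left (h1 e he) (hμ0 e)).trans ?_
          exact sum_le_sum_of_subset_of_nonneg hE' fun e _ _ => mul_nonneg (hμ0 e) (hnn _ _)
        have h3 := mul_le_mul_of_nonneg_right hm
          (Real.exp_pos (-(m * (b + Real.log 2) + κ * (Ψ A - Δ)))).le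
        have h4 : Real.exp (-(((m + 1 : ℕ) : ℝ) * (b + Real.log 2) + κ * Ψ A)) =
            Real.exp (-(b + κ * Δ)) * Real.exp (-(m * (b + Real.log 2) + κ * (Ψ A - Δ))) *
              Real.exp (-Real.log 2) := by
          rw [← Real.exp_add, ← Real.exp_add]
          congr 1
          push_cast
          ring
        rw [h4, hhalf]
        linarith [hnn m A]
  exact key M A₀ hI₀ (Or.inr hΨ₀)

end Crest.Agent.R002
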