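import Crest.Agent.R002.Amp

set_option autoImplicit false

namespace Crest.Agent.R002

open Finset

theorem u1_exp {x : ℝ} (h0 : 0 ≤ x) (h1 : x ≤ 3) : Real.exp (-(x / 6)) ≤ 1 - x / 8 := by
  have h2 := Real.quadratic_le_exp_of_nonneg (x := x / 6) (by positivity)
  rw [Real.exp_neg, inv_le_iff_one_le_mul₀ (Real.exp_pos _)]
  have h3 : (1 - x / 8) * (1 + x / 6 + (x / 6) ^ 2 / 2) ≤ (1 - x / 8) * Real.exp (x / 6) :=
    mul_le_mul_of_nonneg_left h2 (by linarith)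
  nlinarith [mul_nonneg h0 (sub_nonneg.2 h1), mul_nonneg (mul_nonneg h0 h0) (sub_nonneg.2 h1)]

/-- **Bounded test functions cannot all be small.**

Plan.  Otherwise `Gain S w m σ (1/24)` with `Ω = Ω₀`, uniform `μ = 1/|Ω₀|`, `U a = {lab a}`,
`Q o i u = exp (-(T o i u)/6 + 1/8)`: from `exp (-x) ≤ 1 - x + x²/2` (`x ≥ 0`) and `T² ≤ 3T`,
`∑ u, exp (-T/6) ≤ q (1 - 1/6 + 1/24) = q (1 - 1/8) ≤ q exp (-1/8)`; the gain is
`> -1/12 + 1/8 = 1/24` (uses `∑ w = 1`).  Contradiction with `amp` (`ζ = 1/48`,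
`1000 Λ / ζ = 48000 Λ`). -/
theorem lemmaU1 {ι : Type} [Fintype ι] (S : Sys ι) {w : ι → ℝ} {ω Λ : ℝ} (hw : Wt S w ω Λ)
    (hw1 : ∑ i, w i = 1) (hΛ : 1 ≤ Λ) (r : ℕ) (hr : 48 * Λ < 2 ^ r) {σ : ℝ} (hσ : 10 ≤ σ)
    (hω : 200 * ω * ((48000 * Λ) ^ r * σ) * Λ ≤ (1 / 48) ^ 2)
    {y : ℕ → V} {m D : ℕ} (hy : IsPath y m D) (hD : (4 * D + 1 : ℝ) ≤ Real.exp σ)
    (hm : Real.exp (2 * (48000 * Λ) ^ r * σ) ≤ m)
    {Ω₀ : Type} [Fintype Ω₀] (hΩ : (Fintype.card Ω₀ : ℝ) ≤ Real.exp σ) (lab : ℕ → Ω₀)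
    (T : Ω₀ → ∀ i, ZMod (S.q i) → ℝ) (hT0 : ∀ o i u, 0 ≤ T o i u) (hT3 : ∀ o i u, T o i u ≤ 3)
    (hT1 : ∀ o i, ∑ u, T o i u = S.q i) :
    ∃ a, a < m ∧ 1 / 2 ≤ ∑ i, w i * T (lab a) i (S.ρ i (y a)) := by
  classical
  by_contra hc
  push Not at hc
  have e : 1000 * Λ / (1 / 48) = 48000 * Λ := by ring
  refine amp S hw (ζ := 1 / 48) (γ := 1 / 24) (σ := σ) (n := m) (by norm_num) (by linarith) r
    (by linarith) hσ (by rw [e]; exact hω) (by linarith) (by rw [e]; exact hm) ?_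
  have hcard : (0 : ℝ) < Fintype.card Ω₀ := by
    have : Nonempty Ω₀ := ⟨lab 0⟩
    exact_mod_cast Fintype.card_pos
  refine ⟨y, D, Ω₀, inferInstance, fun _ => 1 / Fintype.card Ω₀,
    fun o i u => Real.exp (-(T o i u / 6) + 1 / 8), fun a => {lab a}, hy, hD,
    fun _ => by positivity, ?_, fun o i u => (Real.exp_pos _).le, fun o i => ?_, fun a ha => ⟨?_, ?_⟩⟩
  · rw [sum_const, card_univ, nsmul_eq_mul, mul_one_div_cancel hcard.ne']
  · have hq := S.q_pos i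
    simp only [Real.exp_add]
    rw [← sum_mul]
    have h1 : ∑ u, Real.exp (-(T o i u / 6)) ≤ ∑ u, (1 - T o i u / 8) :=
      sum_le_sum fun u _ => u1_exp (hT0 o i u) (hT3 o i u)
    rw [sum_sub_distrib, ← sum_div, hT1, sum_const, card_univ, ZMod.card, nsmul_eq_mul,
      mul_one] at h1
    have h2 : 7 / 8 * Real.exp (1 / 8) ≤ 1 := by
      have h3 := Real.add_one_le_exp (-(1 / 8) : ℝ)
      have h4 : Real.exp (-(1 / 8)) * Real.exp (1 / 8) = 1 := by rw [← Real.exp_add]; simp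
      nlinarith [Real.exp_pos (1 / 8 : ℝ)]
    nlinarith [mul_le_mul_of_nonneg_right h1 (Real.exp_pos (1 / 8 : ℝ)).le]
  · rw [sum_singleton, Real.exp_neg, ← one_div]
    exact one_div_le_one_div_of_le hcard hΩ
  · intro o ho
    rw [mem_singleton.1 ho]
    refine ⟨fun i => Real.exp_pos _, ?_⟩
    simp only [Real.log_exp]
    have h1 := hc a ha
    have h2 : ∑ i, w i * (-(T (lab a) i (S.ρ i (y a)) / 6) + 1 / 8) =
        -(∑ i, w i * T (lab a) i (S.ρ i (y a))) / 6 + (∑ i, w i) / 8 := by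
      rw [← sum_neg_distrib, sum_div, sum_div, ← sum_add_distrib]
      exact sum_congr rfl fun i _ => by ring
    rw [h2, hw1]
    linarith

end Crest.Agent.R002
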