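import Crest.Agent.R002.U1

set_option autoImplicit false

namespace Crest.Agent.R002

open Finset

section aux

variable {p : ℕ} [NeZero p]

theorem u2_Z {W : ZMod p → ℝ} (hW : ∑ u, W u ≤ p) : 1 / 3 ≤ (∑ u, Real.exp (-W u)) / p := by
  have hp : (0 : ℝ) < p := by exact_mod_cast Nat.pos_of_ne_zero (NeZero.ne p)
  have h1 : ∀ u, Real.exp (-1) * (2 - W u) ≤ Real.exp (-W u) := fun u => by
    have h2 := Real.add_one_le_exp (1 - W u)
    calc Real.exp (-1) * (2 - W u) ≤ Real.exp (-1) * Real.exp (1 - W u) :=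
          mul_le_mul_of_nonneg_left (by linarith) (Real.exp_pos _).le
      _ = Real.exp (-W u) := by rw [← Real.exp_add]; congr 1; ring
  have h2 : ∑ u, Real.exp (-1) * (2 - W u) ≤ ∑ u, Real.exp (-W u) := sum_le_sum fun u _ => h1 u
  rw [← mul_sum, sum_sub_distrib, sum_const, card_univ, ZMod.card, nsmul_eq_mul] at h2
  have h3 : 1 / 3 ≤ Real.exp (-1) := by
    rw [Real.exp_neg, ← one_div]
    exact one_div_le_one_div_of_le (Real.exp_pos _) (by linarith [Real.exp_one_lt_d9])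
  rw [le_div_iff₀ hp]
  nlinarith

theorem u2_exp {x : ℝ} (h0 : 0 ≤ x) (h1 : x ≤ 1) : Real.exp (-x) ≤ 1 - x / 2 := by
  have h2 := Real.add_one_le_exp x
  rw [Real.exp_neg, inv_le_iff_one_le_mul₀ (Real.exp_pos x)]
  nlinarith

theorem u2_T_le {W g : ZMod p → ℝ} (hW0 : ∀ u, 0 ≤ W u) (hW : ∑ u, W u ≤ p) (hg0 : ∀ u, 0 ≤ g u)
    (hg1 : ∑ u, g u = p) (d : ZMod p) :
    corr g (fun u => Real.exp (-W u)) d / ((∑ u, Real.exp (-W u)) / p) ≤ 3 := by
  have hp : (0 : ℝ) < p := by exact_mod_cast Nat.pos_of_ne_zero (NeZero.ne p)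
  have hZ := u2_Z hW
  have h1 : corr g (fun u => Real.exp (-W u)) d ≤ 1 := by
    rw [corr, div_le_one hp, ← hg1, ← sum_shift g d]
    exact sum_le_sum fun u _ => mul_le_of_le_one_right (hg0 _)
      (Real.exp_le_one_iff.2 (by linarith [hW0 u]))
  rw [div_le_iff₀ (by linarith)]
  linarith

theorem u2_T_sum {W g : ZMod p → ℝ} (hW : ∑ u, W u ≤ p) (hg1 : ∑ u, g u = p) (c : ZMod p) :
    ∑ d, corr g (fun u => Real.exp (-W u)) (d - c) / ((∑ u, Real.exp (-W u)) / p) = p := by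
  have hp : (0 : ℝ) < p := by exact_mod_cast Nat.pos_of_ne_zero (NeZero.ne p)
  have hZ := u2_Z hW
  rw [← sum_div]
  simp only [sub_eq_add_neg]
  rw [sum_shift (corr g fun u => Real.exp (-W u)) (-c), sum_corr, hg1, mul_div_assoc,
    mul_div_cancel_right₀ _ (by linarith)]

theorem u2_step {W g : ZMod p → ℝ} (hW : ∑ u, W u ≤ p) {F : ℝ} (hF : 0 < F) (hg0 : ∀ u, 0 ≤ g u)
    (hgF : ∀ u, g u ≤ F) (d : ZMod p) :
    Real.log ((∑ u, Real.exp (-(W u + g (u + d) / F))) / p) ≤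
      Real.log ((∑ u, Real.exp (-W u)) / p) -
        corr g (fun u => Real.exp (-W u)) d / ((∑ u, Real.exp (-W u)) / p) / (2 * F) := by
  have hp : (0 : ℝ) < p := by exact_mod_cast Nat.pos_of_ne_zero (NeZero.ne p)
  have hZ : 0 < (∑ u, Real.exp (-W u)) / p := by linarith [u2_Z hW]
  have hZ' : 0 < (∑ u, Real.exp (-(W u + g (u + d) / F))) / p :=
    div_pos (sum_pos (fun u _ => Real.exp_pos _) univ_nonempty) hp
  have h1 : (∑ u, Real.exp (-(W u + g (u + d) / F))) / p ≤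
      (∑ u, Real.exp (-W u)) / p - corr g (fun u => Real.exp (-W u)) d / (2 * F) := by
    rw [corr, div_right_comm, ← sub_div, sum_div _ _ (2 * F), ← sum_sub_distrib]
    refine div_le_div_of_nonneg_right (sum_le_sum fun u _ => ?_) hp.le
    have h2 := u2_exp (div_nonneg (hg0 (u + d)) hF.le) ((div_le_one hF).2 (hgF (u + d)))
    rw [neg_add, Real.exp_add]
    refine (mul_le_mul_of_nonneg_left h2 (Real.exp_pos _).le).trans (le_of_eq ?_)
    field_simp
  have h2 := Real.log_le_sub_one_of_pos (div_pos hZ' hZ)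
  rw [Real.log_div hZ'.ne' hZ.ne'] at h2
  have h3 := div_le_div_of_nonneg_right h1 hZ.le
  rw [sub_div, div_self hZ.ne', div_right_comm _ (2 * F)] at h3
  linarith

end aux

/-- **Greedy Gibbs density.**

Plan.  Prove by induction on `k ≤ F`: there is `idx : ℕ → ℕ` (values `< m`) with
`∑ i, w i * log (Z k i) ≤ -k/(4F)`, where `W k i u = (∑ s < k, f (lab (idx s)) i (u + ρ (y (idx s) - y 0))) / F`,
`Z k i = (∑ u, exp (-W k i u)) / q i`.  The mean of `W k i` is `k/F ≤ 1` (`sum_shift`), so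
`Z ≥ e⁻¹ ≥ 1/3` (tangent line `exp (-W) ≥ e⁻¹ (2 - W)`).  Put
`T o i d = corr (f o i) (exp (-W k i ·)) (d - ρ i (y 0)) / Z k i`; then `0 ≤ T ≤ 1/Z ≤ 3`
(`exp (-W) ≤ 1`, `∑ f = q`) and `∑ d, T o i d = q i` (`sum_corr`, `sum_shift`).  `lemmaU1` gives
`a` with `∑ w T (lab a) i (ρ (y a)) ≥ 1/2`; set `idx k = a` (`Function.update`).  As
`0 ≤ f/F ≤ 1`, `exp (-f/F) ≤ 1 - f/(2F)`, so `Z (k+1) ≤ Z k (1 - T/(2F))` and
`log Z (k+1) ≤ log Z k - T/(2F)` (`Z (k+1) > 0`, `log x ≤ x - 1`). -/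
theorem lemmaU2 {ι : Type} [Fintype ι] (S : Sys ι) {w : ι → ℝ} {ω Λ : ℝ} (hw : Wt S w ω Λ)
    (hw1 : ∑ i, w i = 1) (hΛ : 1 ≤ Λ) (r : ℕ) (hr : 48 * Λ < 2 ^ r) {σ : ℝ} (hσ : 10 ≤ σ)
    (hω : 200 * ω * ((48000 * Λ) ^ r * σ) * Λ ≤ (1 / 48) ^ 2)
    {y : ℕ → V} {m D : ℕ} (hy : IsPath y m D) (hD : (4 * D + 1 : ℝ) ≤ Real.exp σ)
    (hm : Real.exp (2 * (48000 * Λ) ^ r * σ) ≤ m)
    {Ω₀ : Type} [Fintype Ω₀] (hΩ : (Fintype.card Ω₀ : ℝ) ≤ Real.exp σ) (lab : ℕ → Ω₀)
    (F : ℕ) (hF : 0 < F) (f : Ω₀ → ∀ i, ZMod (S.q i) → ℝ) (hf0 : ∀ o i u, 0 ≤ f o i u)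
    (hfF : ∀ o i u, f o i u ≤ F) (hf1 : ∀ o i, ∑ u, f o i u = S.q i) :
    ∃ idx : ℕ → ℕ, (∀ s, idx s < m) ∧
      ∑ i, w i * Real.log ((∑ u, Real.exp (-((∑ s ∈ range F,
        f (lab (idx s)) i (u + S.ρ i (y (idx s) - y 0))) / F))) / S.q i) ≤ -(1 / 4) := by
  have hF0 : (0 : ℝ) < F := by exact_mod_cast hF
  have hm0 : 0 < m := by exact_mod_cast (Real.exp_pos _).trans_le hm
  have key : ∀ k, k ≤ F → ∃ idx : ℕ → ℕ, (∀ s, idx s < m) ∧
      ∑ i, w i * Real.log ((∑ u, Real.exp (-((∑ s ∈ range k,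
        f (lab (idx s)) i (u + S.ρ i (y (idx s) - y 0))) / F))) / S.q i) ≤ -(k / (4 * F)) := by
    intro k
    induction k with
    | zero =>
      intro _
      refine ⟨fun _ => 0, fun _ => hm0, le_of_eq ?_⟩
      rw [Nat.cast_zero, zero_div, neg_zero]
      refine sum_eq_zero fun i _ => ?_
      simp [ZMod.card, (S.q_pos i).ne']
    | succ k ih =>
      intro hk
      obtain ⟨idx, h1, h2⟩ := ih (by omega)
      set W : ∀ i, ZMod (S.q i) → ℝ := fun i u => (∑ s ∈ range k,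
        f (lab (idx s)) i (u + S.ρ i (y (idx s) - y 0))) / F with hW
      have hW0 : ∀ i u, 0 ≤ W i u := fun i u =>
        div_nonneg (sum_nonneg fun s _ => hf0 _ _ _) hF0.le
      have hW1 : ∀ i, ∑ u, W i u ≤ S.q i := fun i => by
        simp only [hW]
        rw [← sum_div, sum_comm, div_le_iff₀ hF0]
        simp only [sum_shift, hf1, sum_const, card_range, nsmul_eq_mul]
        rw [mul_comm]
        exact mul_le_mul_of_nonneg_left (by exact_mod_cast (by omega : k ≤ F)) (S.q_pos i).le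
      obtain ⟨a, ha, h3⟩ := lemmaU1 S hw hw1 hΛ r hr hσ hω hy hD hm hΩ lab
        (fun o i d => corr (f o i) (fun u => Real.exp (-W i u)) (d - S.ρ i (y 0)) /
          ((∑ u, Real.exp (-W i u)) / S.q i))
        (fun o i d => div_nonneg (corr_nonneg (hf0 o i) (fun u => (Real.exp_pos _).le) _)
          (by linarith [u2_Z (hW1 i)]))
        (fun o i d => u2_T_le (hW0 i) (hW1 i) (hf0 o i) (hf1 o i) _)
        (fun o i => u2_T_sum (hW1 i) (hf1 o i) _)
      refine ⟨Function.update idx k a, fun s => ?_, ?_⟩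
      · by_cases hs : s = k
        · rw [hs, Function.update_self]; exact ha
        · rw [Function.update_of_ne hs]; exact h1 s
      · have e : ∀ i u, (∑ s ∈ range (k + 1), f (lab (Function.update idx k a s)) i
            (u + S.ρ i (y (Function.update idx k a s) - y 0))) / F =
            W i u + f (lab a) i (u + (S.ρ i (y a) - S.ρ i (y 0))) / F := fun i u => by
          rw [sum_range_succ, Function.update_self, add_div, map_sub (S.ρ i) (y a)]
          congr 2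
          exact sum_congr rfl fun s hs => by rw [Function.update_of_ne (mem_range.1 hs).ne]
        simp only [e]
        refine (sum_le_sum fun i _ => mul_le_mul_of_nonneg_left
          (u2_step (hW1 i) hF0 (hf0 (lab a) i) (hfF (lab a) i) _) (hw.nonneg i)).trans ?_
        simp only [mul_sub, sum_sub_distrib, ← mul_div_assoc _ _ (2 * (F : ℝ))]
        rw [← sum_div]
        have h4 := div_le_div_of_nonneg_right h3 (show (0 : ℝ) ≤ 2 * F by linarith)
        have h5 : ((k + 1 : ℕ) : ℝ) / (4 * F) = k / (4 * F) + 1 / 2 / (2 * F) := by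
          push_cast
          field_simp
          ring
        rw [h5]
        linarith
  obtain ⟨idx, h1, h2⟩ := key F le_rfl
  refine ⟨idx, h1, h2.trans (le_of_eq ?_)⟩
  field_simp

end Crest.Agent.R002
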