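import Crest.Agent.R002.U2

set_option autoImplicit false

namespace Crest.Agent.R002

open Finset

theorem u3_ceil_le {E : ℝ} (hE : 0 ≤ E) : (⌈Real.exp E⌉₊ : ℝ) ≤ Real.exp (E + 1) := by
  have h2 := Nat.ceil_lt_add_one (Real.exp_pos E).le
  have h3 : 1 ≤ Real.exp E := Real.one_le_exp hE
  have h4 : (2 : ℝ) ≤ Real.exp 1 := by
    have := Real.add_one_le_exp (1 : ℝ)
    linarith
  rw [Real.exp_add]
  nlinarith

/-- The gain built from the Gibbs densities of all windows. -/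
theorem u3_gain {ι : Type} [Fintype ι] (S : Sys ι) {w : ι → ℝ} {σ₁ : ℝ} {F : ℕ} (hF : 0 < F)
    {y : ℕ → V} {n D m n' : ℕ} (hy : IsPath y n D) (hm : 0 < m) (hn : n' * m ≤ n)
    (hD : (4 * ((m * D : ℕ) : ℝ) + 1) ≤ Real.exp σ₁)
    {Ω₀ : Type} [Fintype Ω₀]
    (hΩ : ((((2 * (m * D) + 1) ^ 2 * Fintype.card Ω₀) ^ F : ℕ) : ℝ) ≤ Real.exp σ₁) (lab : ℕ → Ω₀)
    (f : Ω₀ → ∀ i, ZMod (S.q i) → ℝ)
    (h1 : ∀ a, a < n → ∑ i, w i * f (lab a) i (S.ρ i (y a)) ≤ 1 / 8)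
    (h2 : ∀ a, a < n' → ∃ idx : ℕ → ℕ, (∀ s, idx s < m) ∧
      ∑ i, w i * Real.log ((∑ u, Real.exp (-((∑ s ∈ range F,
        f (lab (a * m + idx s)) i (u + S.ρ i (y (a * m + idx s) - y (a * m + 0)))) / F))) / S.q i) ≤
        -(1 / 4)) :
    Gain S w n' σ₁ (1 / 8) := by
  classical
  have hFr : (0 : ℝ) < F := by exact_mod_cast hF
  have hlt : ∀ a, a < n' → a * m + m ≤ n := fun a ha => by
    have : (a + 1) * m ≤ n' * m := Nat.mul_le_mul_right _ ha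
    rw [add_mul, one_mul] at this
    omega
  let W : (Fin F → ↥(box (m * D)) × Ω₀) → ∀ i, ZMod (S.q i) → ℝ := fun o i u =>
    (∑ s, f (o s).2 i (u + S.ρ i (o s).1)) / F
  let Z : (Fin F → ↥(box (m * D)) × Ω₀) → ι → ℝ := fun o i =>
    (∑ u, Real.exp (-W o i u)) / S.q i
  have hZ : ∀ o i, 0 < Z o i := fun o i =>
    div_pos (sum_pos (fun u _ => Real.exp_pos _) univ_nonempty) (S.q_pos i)
  refine ⟨fun a => y (a * m), m * D, Fin F → ↥(box (m * D)) × Ω₀, inferInstance,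
    fun _ => Real.exp (-σ₁), fun o i u => Real.exp (-W o i u) / Z o i,
    fun a => univ.filter fun o =>
      1 / 8 ≤ ∑ i, w i * Real.log (Real.exp (-W o i (S.ρ i (y (a * m)))) / Z o i),
    ?_, hD, fun _ => (Real.exp_pos _).le, ?_, fun o i u => (div_pos (Real.exp_pos _) (hZ o i)).le,
    fun o i => ?_, fun a ha => ⟨?_, fun o ho => ⟨fun i => div_pos (Real.exp_pos _) (hZ o i), ?_⟩⟩⟩
  · refine hy.comp (fun a => a * m) n' m (fun a ha => ?_) (fun a _ b _ e => ?_) fun a _ => ?_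
    · have := hlt a ha
      omega
    · exact Nat.eq_of_mul_eq_mul_right hm e
    · rw [add_mul, one_mul]
      omega
  · rw [sum_const, card_univ, Fintype.card_fun, Fintype.card_prod, Fintype.card_coe, card_box,
      Fintype.card_fin, nsmul_eq_mul, Real.exp_neg]
    exact mul_inv_le_one_of_le₀ hΩ (Real.exp_pos _).le
  · rw [← sum_div]
    have h3 : 0 < ∑ u, Real.exp (-W o i u) := sum_pos (fun u _ => Real.exp_pos _) univ_nonempty
    have h4 := S.q_pos i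
    refine le_of_eq ?_
    simp only [Z]
    field_simp
  · obtain ⟨idx, hidx, h3⟩ := h2 a ha
    have h4 := hlt a ha
    have hbox : ∀ s, y (a * m + idx s) - y (a * m + 0) ∈ box (m * D) := fun s => by
      have := hidx s
      exact hy.diff_mem (by omega) (by omega) (by omega) (by omega)
    let o : Fin F → ↥(box (m * D)) × Ω₀ := fun s => (⟨_, hbox s⟩, lab (a * m + idx s))
    refine single_le_sum (f := fun _ => Real.exp (-σ₁)) (a := o) (fun _ _ => (Real.exp_pos _).le) ?_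
    rw [mem_filter]
    refine ⟨mem_univ _, ?_⟩
    have h5 : ∀ i u, W o i u = (∑ s ∈ range F,
        f (lab (a * m + idx s)) i (u + S.ρ i (y (a * m + idx s) - y (a * m + 0)))) / F := by
      intro i u
      rw [Finset.sum_range]
    have h6 : ∑ i, w i * Real.log (Z o i) ≤ -(1 / 4) := by
      simp only [Z, h5]
      exact h3
    have h7 : ∑ i, w i * W o i (S.ρ i (y (a * m))) ≤ 1 / 8 := by
      have h8 : ∀ i, w i * W o i (S.ρ i (y (a * m))) =
          (∑ s ∈ range F, w i * f (lab (a * m + idx s)) i (S.ρ i (y (a * m + idx s)))) / F := by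
        intro i
        rw [h5, ← mul_sum, mul_div_assoc]
        simp only [map_sub, add_zero, add_sub_cancel]
      simp only [h8]
      rw [← sum_div, sum_comm, div_le_iff₀ hFr]
      refine (sum_le_sum fun s _ => h1 (a * m + idx s) (by have := hidx s; omega)).trans ?_
      rw [sum_const, card_range, nsmul_eq_mul, mul_comm]
    have h9 : ∀ i, w i * Real.log (Real.exp (-W o i (S.ρ i (y (a * m)))) / Z o i) =
        -(w i * W o i (S.ρ i (y (a * m)))) - w i * Real.log (Z o i) := by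
      intro i
      rw [Real.log_div (Real.exp_pos _).ne' (hZ o i).ne', Real.log_exp]
      ring
    simp only [h9, sum_sub_distrib, sum_neg_distrib]
    linarith
  · exact (mem_filter.1 ho).2

/-- **Lemma U.**  On a long path some point has `∑ w f > 1/8`.

Plan.  `B = (48000Λ)^r ≥ 1`, `m₁ = ⌈exp (2Bσ)⌉₊ ≤ exp (3Bσ)`, `σ₁ = 9FBσ`,
`n' = ⌈exp (2Bσ₁)⌉₊`, `n' m₁ ≤ exp (22 F B² σ) ≤ n`.  Suppose all points have `∑ w f ≤ 1/8`.
Then `Gain S w n' σ₁ (1/8)` (or `1/24`): path `y (i m₁)` (`IsPath.comp`; `4 m₁ D + 1 ≤ exp (4Bσ)`),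
labels `Ω = Fin F → ↥(box (m₁ D)) × Ω₀` with uniform measure (`card ≤ exp (F (8Bσ + σ))`),
`Q o i u = exp (-W o i u) / Z o i`, `W o i u = (∑ s, f (o s).2 i (u + ρ (o s).1)) / F`,
`Z o i = (∑ u, exp (-W o i u)) / q i`.  For the window `t ↦ y (i m₁ + t)` (`IsPath.shift`,
labels `t ↦ lab (i m₁ + t)`) `lemmaU2` gives `idx`; the label is
`s ↦ (y (i m₁ + idx s) - y (i m₁), lab (i m₁ + idx s))`, and the gain is
`-(1/F) ∑ s ∑ i w f - ∑ w log Z ≥ -1/8 + 1/4`.  Contradiction with `amp` (`ζ = 1/48`). -/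
theorem lemmaU {ι : Type} [Fintype ι] (S : Sys ι) {w : ι → ℝ} {ω Λ : ℝ} (hw : Wt S w ω Λ)
    (hw1 : ∑ i, w i = 1) (hΛ : 1 ≤ Λ) (r : ℕ) (hr : 48 * Λ < 2 ^ r) {σ : ℝ} (hσ : 10 ≤ σ)
    (F : ℕ) (hF : 0 < F)
    (hω : 200 * ω * (9 * F * ((48000 * Λ) ^ r) ^ 2 * σ) * Λ ≤ (1 / 48) ^ 2)
    {y : ℕ → V} {n D : ℕ} (hy : IsPath y n D) (hD : (4 * D + 1 : ℝ) ≤ Real.exp σ)
    (hn : Real.exp (22 * F * ((48000 * Λ) ^ r) ^ 2 * σ) ≤ n)
    {Ω₀ : Type} [Fintype Ω₀] (hΩ : (Fintype.card Ω₀ : ℝ) ≤ Real.exp σ) (lab : ℕ → Ω₀)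
    (f : Ω₀ → ∀ i, ZMod (S.q i) → ℝ) (hf0 : ∀ o i u, 0 ≤ f o i u)
    (hfF : ∀ o i u, f o i u ≤ F) (hf1 : ∀ o i, ∑ u, f o i u = S.q i) :
    ∃ a, a < n ∧ 1 / 8 < ∑ i, w i * f (lab a) i (S.ρ i (y a)) := by
  by_contra hc
  have h1 : ∀ a, a < n → ∑ i, w i * f (lab a) i (S.ρ i (y a)) ≤ 1 / 8 := fun a ha =>
    not_lt.1 fun h => hc ⟨a, ha, h⟩
  have hU2 := fun (y : ℕ → V) (m : ℕ) (hy : IsPath y m D) hm hω (lab : ℕ → Ω₀) =>
    lemmaU2 S hw hw1 hΛ r hr hσ hω hy hD hm hΩ lab F hF f hf0 hfF hf1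
  have hamp := fun (σ₁ : ℝ) (n' : ℕ) h1 h2 h3 h4 h5 =>
    amp S hw (ζ := 1 / 48) (σ := σ₁) (γ := 1 / 8) (n := n') (by norm_num) (by linarith) r
      h1 h2 h3 h4 h5
  rw [show 1000 * Λ / (1 / 48) = 48000 * Λ by ring] at hamp
  have hB : 1 ≤ (48000 * Λ) ^ r := one_le_pow₀ (by linarith)
  generalize (48000 * Λ) ^ r = B at *
  have hF1 : (1 : ℝ) ≤ F := by exact_mod_cast hF
  have hx : σ ≤ B * σ := le_mul_of_one_le_left (by linarith) hB
  have hFx : B * σ ≤ F * (B * σ) := le_mul_of_one_le_left (by linarith) hF1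
  have hBFx : F * (B * σ) ≤ B * (F * (B * σ)) := le_mul_of_one_le_left (by linarith) hB
  have hm1 : (⌈Real.exp (2 * B * σ)⌉₊ : ℝ) ≤ Real.exp (3 * (B * σ)) :=
    (u3_ceil_le (by linarith)).trans (Real.exp_le_exp.2 (by linarith))
  have hm2 : Real.exp (2 * B * σ) ≤ ⌈Real.exp (2 * B * σ)⌉₊ := Nat.le_ceil _
  have hm0 : 0 < ⌈Real.exp (2 * B * σ)⌉₊ := Nat.ceil_pos.2 (Real.exp_pos _)
  generalize ⌈Real.exp (2 * B * σ)⌉₊ = m at hm1 hm2 hm0
  have hn1 : (⌈Real.exp (2 * B * (9 * (F * (B * σ))))⌉₊ : ℝ) ≤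
      Real.exp (2 * B * (9 * (F * (B * σ))) + 1) := u3_ceil_le (by linarith)
  have hn2 : Real.exp (2 * B * (9 * (F * (B * σ)))) ≤ ⌈Real.exp (2 * B * (9 * (F * (B * σ))))⌉₊ :=
    Nat.le_ceil _
  generalize ⌈Real.exp (2 * B * (9 * (F * (B * σ))))⌉₊ = n' at hn1 hn2
  have hnm : n' * m ≤ n := by
    have : ((n' * m : ℕ) : ℝ) ≤ n := by
      push_cast
      refine (mul_le_mul hn1 hm1 (Nat.cast_nonneg _) (Real.exp_pos _).le).trans (le_trans ?_ hn)
      rw [← Real.exp_add, Real.exp_le_exp]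
      linarith
    exact_mod_cast this
  have hmD : (4 * ((m * D : ℕ) : ℝ) + 1) ≤ Real.exp (4 * (B * σ)) := by
    have h2 : (1 : ℝ) ≤ m := by exact_mod_cast hm0
    calc (4 * ((m * D : ℕ) : ℝ) + 1) ≤ m * (4 * D + 1) := by
          push_cast
          linarith
      _ ≤ Real.exp (3 * (B * σ)) * Real.exp σ :=
          mul_le_mul hm1 hD (by positivity) (Real.exp_pos _).le
      _ ≤ Real.exp (4 * (B * σ)) := by
          rw [← Real.exp_add, Real.exp_le_exp]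
          linarith
  have hω0 := hw.ω_nonneg
  refine hamp (9 * (F * (B * σ))) n' (by linarith) (by linarith) (le_of_eq_of_le (by ring) hω)
    (by nlinarith) hn2 (u3_gain S hF hy hm0 hnm (hmD.trans (Real.exp_le_exp.2 (by linarith))) ?_
      lab f h1 fun a ha => ?_)
  · have h2 : ((2 * (m * D) + 1 : ℕ) : ℝ) ≤ Real.exp (4 * (B * σ)) := by
      refine le_trans ?_ hmD
      have : (0 : ℝ) ≤ (m : ℝ) * D := by positivity
      push_cast
      linarith
    rw [Nat.cast_pow, Nat.cast_mul, Nat.cast_pow]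
    calc _ ≤ (Real.exp (4 * (B * σ)) ^ 2 * Real.exp σ) ^ F := by gcongr
      _ = Real.exp (F * (2 * (4 * (B * σ)) + σ)) := by
          rw [Real.exp_nat_mul, Real.exp_add, ← Real.exp_nat_mul]
          norm_num
      _ ≤ Real.exp (9 * (F * (B * σ))) := by
          rw [Real.exp_le_exp]
          nlinarith
  · have h2 : a * m + m ≤ n := by
      have : (a + 1) * m ≤ n' * m := Nat.mul_le_mul_right _ ha
      rw [add_mul, one_mul] at this
      omega
    refine hU2 (fun t => y (a * m + t)) m (hy.shift (a * m) m h2) hm2 (le_trans ?_ hω)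
      fun t => lab (a * m + t)
    have h3 : B * σ ≤ 9 * F * B ^ 2 * σ := by linarith
    gcongr

end Crest.Agent.R002
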